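import Vale.Agent.P096.AT.Absorb.Vector

/-!
# P096, all types: tensoring with the sites
-/

noncomputable section

namespace Vale.Agent.P096.AT

open Filter TopologicalSpace
open scoped InnerProductSpace ENNReal
open Vale.Agent.P132
open ITP

set_option linter.unusedSectionVars false

universe u

variable {k : ℕ → ℕ} {H : Type u} [NormedAddCommGroup H] [InnerProductSpace ℂ H] [CompleteSpace H]

lemma separableSpace_sp [SeparableSpace H] : SeparableSpace (Sp k H) := by
  rw [← isSeparable_univ_iff]
  set S : Set (Sp k H) := ⋃ c : Cf k, Set.range fun v : H => (lp.single 2 c v : Sp k H)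
  have hS : IsSeparable S := IsSeparable.iUnion fun c =>
    isSeparable_range (ins (H := H) c).continuous
  refine (hS.span (R := ℂ)).closure.mono fun f _ => ?_
  refine mem_closure_of_tendsto (lp.hasSum_single (by norm_num) f)
    (Eventually.of_forall fun s => ?_)
  exact Submodule.sum_mem _ fun c _ => Submodule.subset_span (Set.mem_iUnion.2 ⟨c, f c, rfl⟩)

lemma norm_entry_le (X : Sp k H →L[ℂ] Sp k H) (c d : Hd k 0) : ‖entry 0 X c d‖ ≤ ‖X‖ :=
  ContinuousLinearMap.opNorm_le_bound _ (norm_nonneg _) fun a => by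
    rw [entry_apply]
    refine (lp.norm_apply_le_norm (by norm_num) _ _).trans ((X.le_opNorm _).trans ?_)
    rw [norm_ins]

lemma transfer_algOf {r : UFam k} (hr : IsUnits r) (M N : VonNeumannAlgebra H) {ρ : ℝ}
    (hρ : 0 ≤ ρ) : Transfer M N (algOf (k := k) M.commutant r) (algOf N.commutant r) ρ := by
  rintro η T₁ hη ⟨⟨hadd, hsmul⟩, hT₁⟩
  refine ⟨fun x => entry 0 (T₁ (diag k x)) default default, ⟨fun x hx y hy => ?_,
    fun c x hx => ?_⟩, fun x hx => ⟨entry_mem hr (hT₁ _ (diag_mem_algOf hr hx)).1 _ _, ?_⟩⟩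
  · beta_reduce
    rw [diag_add, hadd _ (diag_mem_algOf hr hx) _ (diag_mem_algOf hr hy)]
    exact ContinuousLinearMap.ext fun a => by simp [entry_apply]
  · beta_reduce
    rw [diag_smul, hsmul c _ (diag_mem_algOf hr hx)]
    exact ContinuousLinearMap.ext fun a => by simp [entry_apply]
  · have e : entry 0 (T₁ (diag k x)) default default - x =
        entry 0 (T₁ (diag k x) - diag k x) default default :=
      ContinuousLinearMap.ext fun a => by
        simp [entry_apply, diag_apply, ins_apply]
    rw [e]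
    refine ((norm_entry_le _ _ _).trans (hT₁ _ (diag_mem_algOf hr hx)).2).trans ?_
    calc η * ‖diag k x‖ ≤ η * ‖x‖ := mul_le_mul_of_nonneg_left (norm_diag_le x) hη
      _ ≤ (8 * η + ρ) * ‖x‖ := mul_le_mul_of_nonneg_right (by linarith) (norm_nonneg x)

theorem absorbOut : AbsorbOut.{u} := by
  intro ρ hρ
  refine ⟨ρ, hρ, fun H _ _ _ _ M N ξ hξ hMN => ?_⟩
  obtain ⟨k, w, hw, hw1, hrich⟩ := exists_weights
  obtain ⟨l, r, h, hlw⟩ := exists_pairing w hw hw1
  refine ⟨Sp k H, inferInstance, inferInstance, inferInstance, separableSpace_sp,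
    algOf M.commutant r, algOf N.commutant r, ins 0 ξ, cycSep_algOf h hξ,
    sites_algOf h hξ w hw hw1 hlw hrich,
    ⟨hρ.le, matWithin_algOf h.right hMN.fwd, matWithin_algOf h.right hMN.bwd, ?_, ?_⟩,
    transfer_algOf h.right M N hρ.le⟩
  · rw [commutant_algOf h, commutant_algOf h]
    exact matWithin_algOf h.left hMN.fwd'
  · rw [commutant_algOf h, commutant_algOf h]
    exact matWithin_algOf h.left hMN.bwd'

end Vale.Agent.P096.AT
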