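import Vale.Agent.P096.AT.Matrix
import Vale.Agent.P096.KK.Rotate

/-!
# P096, algebras of every type: rotating a gauge into the nearby algebra

The groups are moved into the nearby algebra, then their right multiplications into its commutant;
the second unitary commutes with the groups, so both inclusions hold.
-/

noncomputable section

namespace Vale.Agent.P096.AT

open scoped InnerProductSpace
open Vale.Agent.P132
open Vale.Agent.P104.Sim (MatContraction)
open _root_.P132 (MatBound)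

universe u

variable {H : Type u} [NormedAddCommGroup H] [InnerProductSpace ℂ H] [CompleteSpace H]

lemma kkDist_le_of_matWithin {M N : VonNeumannAlgebra H} {d : ℝ} (hd : 0 ≤ d)
    (h1 : MatWithin M N d) (h2 : MatWithin N M d) : kkDist M N ≤ d := by
  have one : ∀ {M N : VonNeumannAlgebra H}, MatWithin M N d → ∀ x ∈ M, ‖x‖ ≤ 1 →
      ∃ y ∈ N, ‖y‖ ≤ 1 ∧ ‖x - y‖ ≤ d := by
    intro M N h x hx hx1
    have hXc : MatContraction fun _ _ : Fin 1 => x := fun v => by
      have := pow_le_pow_left₀ (norm_nonneg _) (x.le_of_opNorm_le hx1 (v 0)) 2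
      simpa using this
    obtain ⟨Y, hY, hYc, hb⟩ := h 1 _ (fun _ _ => hx) hXc
    have bound : ∀ (T : H →L[ℂ] H) (c : ℝ), 0 ≤ c →
        (∀ v : H, ‖T v‖ ^ 2 ≤ c ^ 2 * ‖v‖ ^ 2) → ‖T‖ ≤ c := fun T c hc hT =>
      T.opNorm_le_bound hc fun v =>
        le_of_pow_le_pow_left₀ two_ne_zero (by positivity) (by rw [mul_pow]; exact hT v)
    exact ⟨Y 0 0, hY 0 0, bound _ 1 zero_le_one fun v => by simpa using hYc fun _ => v,
      bound _ d hd fun v => by simpa using hb fun _ => v⟩
  exact kk_le hd (one h1) (one h2)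

lemma matWithin_mono {M N : VonNeumannAlgebra H} {r r' : ℝ} (h : MatWithin M N r) (hr : 0 ≤ r)
    (hrr : r ≤ r') : MatWithin M N r' := fun n X hX hXc => by
  obtain ⟨Y, hY, hYc, hb⟩ := h n X hX hXc
  exact ⟨Y, hY, hYc, MatBound.mono hr hrr hb⟩

lemma Near.mono {M N : VonNeumannAlgebra H} {r r' : ℝ} (h : Near M N r) (hrr : r ≤ r') :
    Near M N r' :=
  ⟨h.nonneg.trans hrr, matWithin_mono h.fwd h.nonneg hrr, matWithin_mono h.bwd h.nonneg hrr,
    matWithin_mono h.fwd' h.nonneg hrr, matWithin_mono h.bwd' h.nonneg hrr⟩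

lemma matBound_conj_sub {n : ℕ} {Y : Fin n → Fin n → (H →L[ℂ] H)} (hY : MatContraction Y)
    {w : H →L[ℂ] H} {e : ℝ} (he : 0 ≤ e) (hw1 : ‖w‖ ≤ 1) (hw : ‖w - 1‖ ≤ e) :
    MatBound (fun i j => w * Y i j * star w - Y i j) (2 * e) := by
  have h1 : MatBound (fun i j => (w - 1) * Y i j * star w) (e * 1 * 1) :=
    matBound_conj_le (matBound_of_contraction hY) zero_le_one hw (by rwa [norm_star])
  have h2 : MatBound (fun i j => 1 * Y i j * star (w - 1)) (1 * 1 * e) :=
    matBound_conj_le (matBound_of_contraction hY) zero_le_one ContinuousLinearMap.norm_id_le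
      (by rwa [norm_star])
  intro v
  have e1 : ∀ i j, w * Y i j * star w - Y i j =
      (w - 1) * Y i j * star w + 1 * Y i j * star (w - 1) := fun i j => by
    rw [star_sub, star_one]; noncomm_ring
  simp only [e1]
  refine (h1.add (by positivity) (by positivity) h2 v).trans (le_of_eq ?_)
  ring

lemma matWithin_conj_right {M N N₁ : VonNeumannAlgebra H} {w : H →L[ℂ] H} {d e : ℝ}
    (hw : w ∈ unitary (H →L[ℂ] H)) (he : ‖w - 1‖ ≤ e)
    (hmem : ∀ x, x ∈ N₁ ↔ star w * x * w ∈ N) (hd : 0 ≤ d) (h : MatWithin M N d) :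
    MatWithin M N₁ (d + 2 * e) := by
  intro n X hX hXc
  obtain ⟨Y, hY, hYc, hb⟩ := h n X hX hXc
  have he0 : 0 ≤ e := (norm_nonneg _).trans he
  have hw1 := Stable.norm_le_one_of_unitary hw
  refine ⟨fun i j => w * Y i j * star w, fun i j => (hmem _).2 ?_, contraction_of_matBound (by
    simpa using matBound_conj_le (matBound_of_contraction hYc) zero_le_one hw1
      (b := 1) (B := star w) (by rwa [norm_star])), fun v => ?_⟩
  · simp only [mul_assoc, Unitary.star_mul_self_of_mem hw, mul_one]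
    rw [← mul_assoc, Unitary.star_mul_self_of_mem hw, one_mul]
    exact hY i j
  have h2 := (show MatBound (fun i j => X i j - Y i j) d from hb).sub hd
    (by positivity : 0 ≤ 2 * e) (matBound_conj_sub hYc he0 hw1 he)
  have e1 : ∀ i j, X i j - w * Y i j * star w =
      (X i j - Y i j) - (w * Y i j * star w - Y i j) := fun i j => by abel
  simp only [e1]
  exact h2 v

lemma matWithin_conj_left {M N N₁ : VonNeumannAlgebra H} {w : H →L[ℂ] H} {d e : ℝ}
    (hw : w ∈ unitary (H →L[ℂ] H)) (he : ‖w - 1‖ ≤ e)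
    (hmem : ∀ x, x ∈ N₁ ↔ star w * x * w ∈ N) (hd : 0 ≤ d) (h : MatWithin N M d) :
    MatWithin N₁ M (d + 2 * e) := by
  intro n X hX hXc
  have he0 : 0 ≤ e := (norm_nonneg _).trans he
  have hw1 := Stable.norm_le_one_of_unitary hw
  have hX0c : MatContraction fun i j => star w * X i j * w := contraction_of_matBound (by
    simpa using matBound_conj_le (matBound_of_contraction hXc) zero_le_one
      (A := star w) (a := 1) (by rwa [norm_star]) hw1)
  obtain ⟨Y, hY, hYc, hb⟩ := h n _ (fun i j => (hmem _).1 (hX i j)) hX0c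
  refine ⟨Y, hY, hYc, fun v => ?_⟩
  have h2 := (show MatBound (fun i j => star w * X i j * w - Y i j) d from hb).add hd
    (by positivity : 0 ≤ 2 * e) (matBound_conj_sub hX0c he0 hw1 he)
  have e1 : ∀ i j, X i j - Y i j = (star w * X i j * w - Y i j) +
      (w * (star w * X i j * w) * star w - star w * X i j * w) := fun i j => by
    simp only [← mul_assoc]
    rw [Unitary.mul_star_self_of_mem hw, one_mul, mul_assoc _ w,
      Unitary.mul_star_self_of_mem hw, mul_one]
    abel
  simp only [e1]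
  exact h2 v

lemma Near.conj {M N N₁ : VonNeumannAlgebra H} {w : H →L[ℂ] H} {d e : ℝ}
    (h : Near M N d) (hw : w ∈ unitary (H →L[ℂ] H)) (he : ‖w - 1‖ ≤ e)
    (hmem : ∀ x, x ∈ N₁ ↔ star w * x * w ∈ N)
    (hmem' : ∀ x, x ∈ N₁.commutant ↔ star w * x * w ∈ N.commutant) : Near M N₁ (d + 2 * e) := by
  have := (norm_nonneg _).trans he
  exact ⟨by linarith [h.nonneg], matWithin_conj_right hw he hmem h.nonneg h.fwd,
    matWithin_conj_left hw he hmem h.nonneg h.bwd,
    matWithin_conj_right hw he hmem' h.nonneg h.fwd',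
    matWithin_conj_left hw he hmem' h.nonneg h.bwd'⟩

lemma mem_conjAlg (w : unitary (H →L[ℂ] H)) (N : VonNeumannAlgebra H) (x : H →L[ℂ] H) :
    x ∈ KK.conjAlg w N ↔ star (w : H →L[ℂ] H) * x * (w : H →L[ℂ] H) ∈ N := by
  change x ∈ (KK.conjAlg w N : Set (H →L[ℂ] H)) ↔ _
  rw [KK.coe_conjAlg, Set.mem_image]
  constructor
  · rintro ⟨y, hy, rfl⟩
    have h1 : star (w : H →L[ℂ] H) * (w : H →L[ℂ] H) = 1 := Unitary.coe_star_mul_self w
    simp only [mul_assoc, h1, mul_one]
    rw [← mul_assoc, h1, one_mul]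
    exact hy
  · refine fun h => ⟨_, h, ?_⟩
    have h2 : (w : H →L[ℂ] H) * star (w : H →L[ℂ] H) = 1 := Unitary.coe_mul_star_self w
    simp only [mul_assoc, h2, mul_one]
    rw [← mul_assoc, h2, one_mul]

lemma mem_conjAlg_commutant (w : unitary (H →L[ℂ] H)) (N : VonNeumannAlgebra H) (x : H →L[ℂ] H) :
    x ∈ (KK.conjAlg w N).commutant ↔
      star (w : H →L[ℂ] H) * x * (w : H →L[ℂ] H) ∈ N.commutant := by
  obtain ⟨w, hw⟩ := w
  have h1 : star w * w = 1 := Unitary.star_mul_self_of_mem hw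
  have h2 : w * star w = 1 := Unitary.mul_star_self_of_mem hw
  rw [VonNeumannAlgebra.mem_commutant_iff, VonNeumannAlgebra.mem_commutant_iff]
  constructor
  · intro h y hy
    have := h (w * y * star w) ((mem_conjAlg ⟨w, hw⟩ N (w * y * star w)).2 (by
      show star w * (w * y * star w) * w ∈ N
      simp only [mul_assoc, h1, mul_one]
      rwa [← mul_assoc, h1, one_mul]))
    calc y * (star w * x * w) = star w * (w * y * star w * x) * w := by
          simp only [← mul_assoc, h1, one_mul]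
      _ = star w * (x * (w * y * star w)) * w := by rw [this]
      _ = star w * x * w * y := by simp only [mul_assoc, h1, mul_one]
  · intro h y hy
    have := h (star w * y * w) ((mem_conjAlg ⟨w, hw⟩ N y).1 hy)
    calc y * x = (w * star w) * y * (w * star w) * x * (w * star w) := by
          rw [h2, one_mul, mul_one, mul_one]
      _ = w * (star w * y * w * (star w * x * w)) * star w := by simp only [mul_assoc]
      _ = w * (star w * x * w * (star w * y * w)) * star w := by rw [this]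
      _ = (w * star w) * x * (w * star w) * y * (w * star w) := by simp only [mul_assoc]
      _ = x * y := by rw [h2, one_mul, mul_one, mul_one]

/-- A finite set of unitaries closed under products and adjoints, as a group. -/
def groupOf (S : Finset (H →L[ℂ] H)) (h1 : (1 : H →L[ℂ] H) ∈ S)
    (hm : ∀ g ∈ S, ∀ h ∈ S, g * h ∈ S) (hs : ∀ g ∈ S, star g ∈ S) :
    Subgroup (unitary (H →L[ℂ] H)) where
  carrier := {u | (u : H →L[ℂ] H) ∈ S}
  one_mem' := h1
  mul_mem' hu hv := hm _ hu _ hv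
  inv_mem' hu := hs _ hu

lemma groupOf_finite (S : Finset (H →L[ℂ] H)) (h1 : (1 : H →L[ℂ] H) ∈ S)
    (hm : ∀ g ∈ S, ∀ h ∈ S, g * h ∈ S) (hs : ∀ g ∈ S, star g ∈ S) :
    (groupOf S h1 hm hs : Set (unitary (H →L[ℂ] H))).Finite :=
  ((S.finite_toSet.preimage Subtype.val_injective.injOn).subset fun _ hu => hu)

/-- A sequence of finite groups of unitaries of `P` is moved into `Q`. -/
lemma exists_rotate_finset {P Q : VonNeumannAlgebra H} {r : ℝ} (h : kkDist P Q < r)
    (hr : r ≤ 1 / 800) (S : ℕ → Finset (H →L[ℂ] H)) (h1 : ∀ n, (1 : H →L[ℂ] H) ∈ S n)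
    (hm : ∀ n, ∀ g ∈ S n, ∀ h ∈ S n, g * h ∈ S n) (hs : ∀ n, ∀ g ∈ S n, star g ∈ S n)
    (hmono : ∀ n, ∀ g ∈ S n, g ∈ S (n + 1))
    (hu : ∀ n, ∀ g ∈ S n, g ∈ unitary (H →L[ℂ] H)) (hP : ∀ n, ∀ g ∈ S n, g ∈ P) :
    ∃ v ∈ unitary (H →L[ℂ] H), ‖v - 1‖ ≤ 210 * r ∧ (∀ n, ∀ g ∈ S n, v * g * star v ∈ Q) ∧
      ∀ z, (∀ x ∈ P, Commute x z) → (∀ y ∈ Q, Commute y z) → Commute v z := by
  obtain ⟨v, hv, hv1, hvQ, -, hvc⟩ := KK.exists_rotate h hr
    (fun n => groupOf (S n) (h1 n) (hm n) (hs n))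
    (monotone_nat_of_le_succ fun n u hu' => hmono n u hu')
    (fun n => groupOf_finite _ _ _ _) (fun n g hg => hP n g hg)
  exact ⟨v, hv, hv1, fun n g hg => hvQ n ⟨g, hu n g hg⟩ hg, hvc⟩

section Right

variable {M : VonNeumannAlgebra H} {ξ : H}

lemma right_mul_right (h : Tomita.CycSep M ξ) (a b : H →L[ℂ] H) :
    right M ξ (a * b) = right M ξ a * right M ξ b :=
  ContinuousLinearMap.ext fun v => by simp [right, Tomita.Jconj_apply, h.J_J]

lemma right_one' (h : Tomita.CycSep M ξ) : right M ξ 1 = 1 :=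
  ContinuousLinearMap.ext fun v => by simp [right, Tomita.Jconj_apply, h.J_J]

lemma star_right (h : Tomita.CycSep M ξ) (g : H →L[ℂ] H) :
    star (right M ξ g) = right M ξ (star g) := by
  refine ContinuousLinearMap.ext fun v => ext_inner_right ℂ fun w => ?_
  simp only [right, Tomita.inner_star_left, Tomita.Jconj_apply]
  rw [h.inner_J (star g _), ContinuousLinearMap.star_eq_adjoint,
    ContinuousLinearMap.adjoint_inner_right, ← inner_conj_symm v (Tomita.J₀ M ξ _), h.inner_J,
    inner_conj_symm]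

end Right

open Classical in
/-- (E3) a gauge rotates into a nearby algebra. -/
theorem alignOut : AlignOut.{u} := by
  intro r hr
  refine ⟨min r 1 / 2000000, by positivity, ?_⟩
  intro H _ _ _ M N ξ G hG hN
  set δ := min r 1 / 2000000 with hδdef
  have hδ : 0 < δ := by positivity
  have hδr : 2000000 * δ ≤ r := by rw [hδdef]; linarith [min_le_left r 1]
  have hδ1 : 2000000 * δ ≤ 1 := by rw [hδdef]; linarith [min_le_right r 1]
  -- the groups go into `N`
  obtain ⟨v, hv, hv1, hvN, -⟩ := exists_rotate_finset (r := 2 * δ)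
    (lt_of_le_of_lt (kkDist_le_of_matWithin hδ.le hN.fwd hN.bwd) (by linarith)) (by linarith) G
    hG.one_mem hG.mul_mem hG.star_mem hG.mono
    (fun n g hg => Unitary.mem_iff.2 (hG.unit n g hg)) hG.mem
  set N' := KK.conjAlg ⟨star v, Unitary.star_mem hv⟩ N with hN'
  have hm' : ∀ x, x ∈ N' ↔ star (star v) * x * star v ∈ N := mem_conjAlg _ _
  have hw' : ‖star v - 1‖ ≤ 420 * δ := by
    rw [← star_one, ← star_sub, norm_star]; linarith
  have hNear' := hN.conj (Unitary.star_mem hv) hw' hm' (mem_conjAlg_commutant _ _)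
  have hgN' : ∀ n, ∀ g ∈ G n, g ∈ N' := fun n g hg =>
    (hm' g).2 (by rw [star_star]; exact hvN n g hg)
  -- their right multiplications go into the commutant
  set S : ℕ → Finset (H →L[ℂ] H) := fun n => (G n).image (right M ξ) with hS
  have hSmem : ∀ {n x}, x ∈ S n → ∃ g ∈ G n, right M ξ g = x := fun hx => Finset.mem_image.1 hx
  have hSint : ∀ {n g}, g ∈ G n → right M ξ g ∈ S n := fun hg => Finset.mem_image_of_mem _ hg
  have hSu : ∀ n, ∀ x ∈ S n, x ∈ unitary (H →L[ℂ] H) := fun n x hx => by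
    obtain ⟨g, hg, rfl⟩ := hSmem hx
    rw [Unitary.mem_iff, star_right hG.cs, ← right_mul_right hG.cs, ← right_mul_right hG.cs,
      (hG.unit n g hg).1, (hG.unit n g hg).2]
    exact ⟨right_one' hG.cs, right_one' hG.cs⟩
  have hS' : ∀ n, ∀ x ∈ S n, x ∈ M.commutant := fun n x hx => by
    obtain ⟨g, hg, rfl⟩ := hSmem hx
    exact hG.cs.Jconj_mem_commutant (hG.mem n g hg)
  obtain ⟨w, hw, hw1, hwN, hwc⟩ := exists_rotate_finset (r := 2 * (δ + 2 * (420 * δ)))
    (lt_of_le_of_lt (kkDist_le_of_matWithin hNear'.nonneg hNear'.fwd' hNear'.bwd') (by linarith))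
    (by linarith) S
    (fun n => by simpa [right_one' hG.cs] using hSint (hG.one_mem n))
    (fun n a ha b hb => by
      obtain ⟨g, hg, rfl⟩ := hSmem ha
      obtain ⟨g', hg', rfl⟩ := hSmem hb
      rw [← right_mul_right hG.cs]
      exact hSint (hG.mul_mem n g hg g' hg'))
    (fun n a ha => by
      obtain ⟨g, hg, rfl⟩ := hSmem ha
      rw [star_right hG.cs]
      exact hSint (hG.star_mem n g hg))
    (fun n a ha => by
      obtain ⟨g, hg, rfl⟩ := hSmem ha
      exact hSint (hG.mono n g hg))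
    hSu hS'
  set N₁ := KK.conjAlg ⟨star w, Unitary.star_mem hw⟩ N' with hN₁
  have hm₁ : ∀ x, x ∈ N₁ ↔ w * x * star w ∈ N' := fun x => by
    rw [hN₁, mem_conjAlg]; simp only [star_star]
  have hm₁' : ∀ x, x ∈ N₁.commutant ↔ w * x * star w ∈ N'.commutant := fun x => by
    rw [hN₁, mem_conjAlg_commutant]; simp only [star_star]
  have hgw : ∀ n, ∀ g ∈ G n, Commute w g := fun n g hg =>
    hwc g (fun x hx => ((VonNeumannAlgebra.mem_commutant_iff.1 hx) g (hG.mem n g hg)).symm)
      (fun y hy => ((VonNeumannAlgebra.mem_commutant_iff.1 hy) g (hgN' n g hg)).symm)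
  set e := 210 * (2 * (δ + 2 * (420 * δ))) with he
  have hw1' : ‖star w - 1‖ ≤ e := by rw [← star_one, ← star_sub, norm_star]; exact hw1
  have hNear₁ : Near M N₁ r := (hNear'.conj (Unitary.star_mem hw) hw1'
    (fun x => by rw [hm₁, star_star]) (fun x => by rw [hm₁', star_star])).mono (by linarith)
  refine ⟨N₁, ⟨hG, hNear₁, fun n g hg => ⟨?_, ?_⟩⟩, ?_⟩
  · rw [hm₁, (hgw n g hg).eq, mul_assoc, Unitary.mul_star_self_of_mem hw, mul_one]
    exact hgN' n g hg
  · rw [hm₁']
    exact hwN n _ (hSint hg)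
  -- selections are transported by the unitary
  intro η T₁ hη hT₁
  set u := v * w with hu
  have huu : u ∈ unitary (H →L[ℂ] H) := mul_mem hv hw
  have hu1 : ‖u - 1‖ ≤ 420 * δ + e := by
    have e1 : u - 1 = v * (w - 1) + (v - 1) := by rw [hu]; noncomm_ring
    rw [e1]
    refine (norm_add_le _ _).trans ?_
    have := (norm_mul_le v (w - 1)).trans
      (mul_le_of_le_one_left (norm_nonneg _) (Stable.norm_le_one_of_unitary hv))
    linarith
  have hun : ‖u‖ ≤ 1 := Stable.norm_le_one_of_unitary huu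
  refine ⟨fun x => u * T₁ x * star u, ⟨fun x hx y hy => ?_, fun c x hx => ?_⟩,
    fun x hx => ⟨?_, ?_⟩⟩
  · show u * T₁ (x + y) * star u = _
    rw [hT₁.1.1 x hx y hy]; noncomm_ring
  · show u * T₁ (c • x) * star u = _
    rw [hT₁.1.2 c x hx]; simp
  · show u * T₁ x * star u ∈ N
    have h1 : w * T₁ x * star w ∈ N' := (hm₁ _).1 (hT₁.2 x hx).1
    have h2 := (hm' _).1 h1
    simpa only [hu, star_mul, star_star, mul_assoc] using h2
  · have e1 : u * T₁ x * star u - x =
        u * (T₁ x - x) * star u + ((u - 1) * (x * star u) + x * star (u - 1)) := by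
      rw [star_sub, star_one]; noncomm_ring
    show ‖u * T₁ x * star u - x‖ ≤ _
    rw [e1]
    have hus : ‖star u‖ ≤ 1 := by rwa [norm_star]
    have a1 : ‖u * (T₁ x - x) * star u‖ ≤ η * ‖x‖ :=
      (((norm_mul_le _ _).trans (mul_le_of_le_one_right (norm_nonneg _) hus)).trans
        ((norm_mul_le _ _).trans (mul_le_of_le_one_left (norm_nonneg _) hun))).trans (hT₁.2 x hx).2
    have a2 : ‖(u - 1) * (x * star u)‖ ≤ (420 * δ + e) * ‖x‖ :=
      (norm_mul_le _ _).trans (mul_le_mul hu1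
        ((norm_mul_le _ _).trans (mul_le_of_le_one_right (norm_nonneg _) hus)) (norm_nonneg _)
        ((norm_nonneg _).trans hu1))
    have a3 : ‖x * star (u - 1)‖ ≤ ‖x‖ * (420 * δ + e) :=
      (norm_mul_le _ _).trans
        (mul_le_mul_of_nonneg_left (by rw [norm_star]; exact hu1) (norm_nonneg _))
    have h3 : 2 * (420 * δ + e) ≤ r := by rw [he]; linarith
    have hb := (norm_add_le _ _).trans (add_le_add a1 ((norm_add_le _ _).trans (add_le_add a2 a3)))
    refine hb.trans ?_
    nlinarith [norm_nonneg x, mul_nonneg hη (norm_nonneg x),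
      mul_le_mul_of_nonneg_right h3 (norm_nonneg x)]

end Vale.Agent.P096.AT
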