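import Vale.Agent.P096.AT.Setting
import Vale.Agent.P085.Toolkit.Spectral
import Vale.Agent.P085.Toolkit.SpectralApprox

/-!
# P096, algebras of every type: averages over a gauge

The averages over the groups of a gauge converge strongly to the centre, a gauge inside a nearby
algebra is a gauge of that algebra, and such a gauge balances the two algebras.
-/

noncomputable section

namespace Vale.Agent.P096.AT

namespace Averages

open scoped InnerProductSpace
open Filter Topology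
open Vale.Agent.P132

universe u

variable {H : Type u} [NormedAddCommGroup H] [InnerProductSpace ℂ H] [CompleteSpace H]


variable {M N : VonNeumannAlgebra H} {ξ : H} {G : ℕ → Finset (H →L[ℂ] H)} {S : Finset (H →L[ℂ] H)}

/-- A finite group of unitaries. -/
structure UGroup (S : Finset (H →L[ℂ] H)) : Prop where
  one_mem : (1 : H →L[ℂ] H) ∈ S
  mul_mem : ∀ g ∈ S, ∀ h ∈ S, g * h ∈ S
  star_mem : ∀ g ∈ S, star g ∈ S
  unit : ∀ g ∈ S, star g * g = 1 ∧ g * star g = 1

lemma _root_.Vale.Agent.P096.AT.Gauge.uGroup (h : Gauge M ξ G) (n : ℕ) : UGroup (G n) :=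
  ⟨h.one_mem n, h.mul_mem n, h.star_mem n, h.unit n⟩

lemma _root_.Vale.Agent.P096.AT.Gauge.mem_of_le (h : Gauge M ξ G) {m n : ℕ} (hmn : m ≤ n) {g : H
    →L[ℂ] H} (hg : g ∈ G m) :
    g ∈ G n := by
  induction hmn with
  | refl => exact hg
  | step _ ih => exact h.mono _ g ih

omit [CompleteSpace H] in
lemma inner_self_ofReal (w : H) : ⟪w, w⟫_ℂ = ((‖w‖ ^ 2 : ℝ) : ℂ) := by
  rw [inner_self_eq_norm_sq_to_K]
  norm_cast

lemma smul_mem_vna (M : VonNeumannAlgebra H) (c : ℂ) {x : H →L[ℂ] H} (hx : x ∈ M) : c • x ∈ M :=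
  M.toStarSubalgebra.smul_mem hx c

lemma comm_vna {a b : H →L[ℂ] H} (ha : a ∈ M) (hb : b ∈ M.commutant) : a * b = b * a :=
  VonNeumannAlgebra.mem_commutant_iff.1 hb a ha

lemma mem_of_comm_commutant {x : H →L[ℂ] H} (h : ∀ y ∈ M.commutant, y * x = x * y) : x ∈ M := by
  rw [← M.commutant_commutant, VonNeumannAlgebra.mem_commutant_iff]
  exact h

lemma isClosed_vna (M : VonNeumannAlgebra H) : IsClosed (M : Set (H →L[ℂ] H)) := by
  rw [← M.centralizer_centralizer]
  exact Set.isClosed_centralizer _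

/-! ## Averages -/

lemma norm_le_one_of_iso {g : H →L[ℂ] H} (hg : star g * g = 1) : ‖g‖ ≤ 1 := by
  have h := CStarRing.norm_star_mul_self (x := g)
  rw [hg] at h
  have : ‖g‖ * ‖g‖ ≤ 1 := h ▸ ContinuousLinearMap.norm_id_le
  nlinarith [norm_nonneg g]

lemma avg_mem (hS : ∀ g ∈ S, g ∈ M) {x : H →L[ℂ] H} (hx : x ∈ M) : avg S x ∈ M :=
  smul_mem_vna M _ (sum_mem fun g hg => MulMemClass.mul_mem (MulMemClass.mul_mem (hS g hg) hx)
      (StarMemClass.star_mem (hS g hg)))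

lemma norm_avg_le (hS : UGroup S) (x : H →L[ℂ] H) : ‖avg S x‖ ≤ ‖x‖ := by
  have hk : (0 : ℝ) < S.card := by exact_mod_cast Finset.card_pos.2 ⟨1, hS.one_mem⟩
  rw [avg, norm_smul, norm_inv, Complex.norm_natCast, inv_mul_le_iff₀ hk]
  refine (norm_sum_le _ _).trans ?_
  calc ∑ g ∈ S, ‖g * x * star g‖ ≤ ∑ _g ∈ S, ‖x‖ := Finset.sum_le_sum fun g hg => by
        have h1 := norm_le_one_of_iso (hS.unit g hg).1
        refine (norm_mul_le _ _).trans ((mul_le_of_le_one_right (norm_nonneg _) ?_).trans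
          ((norm_mul_le _ _).trans (mul_le_of_le_one_left (norm_nonneg _) h1)))
        rwa [norm_star]
    _ = S.card * ‖x‖ := by rw [Finset.sum_const, nsmul_eq_mul]

lemma comm_avg (hS : UGroup S) {h : H →L[ℂ] H} (hh : h ∈ S) (x : H →L[ℂ] H) : h * avg S x = avg S
    x * h := by
  have e : h * avg S x * star h = avg S x := by
    simp only [avg, mul_smul_comm, smul_mul_assoc, Finset.mul_sum, Finset.sum_mul]
    congr 1
    refine Finset.sum_bij' (fun g _ => h * g) (fun g _ => star h * g)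
      (fun g hg => hS.mul_mem h hh g hg) (fun g hg => hS.mul_mem _ (hS.star_mem h hh) g hg)
      (fun g _ => by rw [← mul_assoc, (hS.unit h hh).1, one_mul])
      (fun g _ => by rw [← mul_assoc, (hS.unit h hh).2, one_mul])
      (fun g _ => by simp only [star_mul, mul_assoc])
  conv_rhs => rw [← e]
  rw [mul_assoc _ (star h), (hS.unit h hh).1, mul_one]

lemma avg_fixed (hS : UGroup S) {x : H →L[ℂ] H} (h : ∀ g ∈ S, g * x = x * g) : avg S x = x := by
  have hk : (S.card : ℂ) ≠ 0 := by exact_mod_cast (Finset.card_pos.2 ⟨1, hS.one_mem⟩).ne'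
  rw [avg, Finset.sum_congr rfl fun g hg => show g * x * star g = x by
    rw [h g hg, mul_assoc, (hS.unit g hg).2, mul_one], Finset.sum_const,
    ← Nat.cast_smul_eq_nsmul ℂ, smul_smul, inv_mul_cancel₀ hk, one_smul]

lemma avg_sub (S : Finset (H →L[ℂ] H)) (x y : H →L[ℂ] H) : avg S (x - y) = avg S x - avg S y := by
  simp only [avg, mul_sub, sub_mul, Finset.sum_sub_distrib, smul_sub]

lemma star_avg (S : Finset (H →L[ℂ] H)) (x : H →L[ℂ] H) : star (avg S x) = avg S (star x) := by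
  simp only [avg, star_smul, star_inv₀, star_natCast, star_sum, star_mul, star_star, mul_assoc]

lemma avg_mul_left (S : Finset (H →L[ℂ] H)) {e : H →L[ℂ] H} (he : ∀ g ∈ S, g * e = e * g) (x : H
    →L[ℂ] H) :
    avg S (e * x) = e * avg S x := by
  simp only [avg, mul_smul_comm, Finset.mul_sum]
  refine congrArg _ (Finset.sum_congr rfl fun g hg => ?_)
  rw [← mul_assoc g e, he g hg]
  simp only [mul_assoc]

lemma avg_mul_right (hS : UGroup S) {e : H →L[ℂ] H} (he : ∀ g ∈ S, g * e = e * g) (x : H →L[ℂ] H) :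
    avg S (x * e) = avg S x * e := by
  simp only [avg, smul_mul_assoc, Finset.sum_mul]
  refine congrArg _ (Finset.sum_congr rfl fun g hg => ?_)
  simp only [mul_assoc, he _ (hS.star_mem g hg)]

lemma re_inner_avg_nonneg (S : Finset (H →L[ℂ] H)) {a : H →L[ℂ] H} (ha : IsSelfAdjoint a) (v : H) :
    0 ≤ (⟪avg S (a * a) v, v⟫_ℂ).re := by
  have hg : ∀ g : H →L[ℂ] H, ⟪(g * (a * a) * star g) v, v⟫_ℂ = ((‖a (star g v)‖ ^ 2 : ℝ) : ℂ) :=
      fun g => by
    simp only [mul_apply_eq_comp]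
    rw [show ⟪g (a (a (star g v))), v⟫_ℂ = ⟪a (a (star g v)), star g v⟫_ℂ by
      rw [ContinuousLinearMap.star_eq_adjoint, ContinuousLinearMap.adjoint_inner_right],
      Tomita.inner_sa_left ha, inner_self_eq_norm_sq_to_K]
    norm_cast
  simp only [avg, smul_apply, inner_smul_left, sum_apply, sum_inner, hg, map_inv₀, map_natCast]
  rw [← Complex.ofReal_sum, show ((S.card : ℂ))⁻¹ = (((S.card : ℝ)⁻¹ : ℝ) : ℂ) by push_cast; rfl,
    Complex.re_ofReal_mul, Complex.ofReal_re]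
  exact mul_nonneg (inv_nonneg.2 (Nat.cast_nonneg _)) (Finset.sum_nonneg fun g _ => sq_nonneg _)

/-- The vector state does not see the averages. -/
lemma _root_.Vale.Agent.P096.AT.Gauge.inner_avg (h : Gauge M ξ G) {x : H →L[ℂ] H} (hx : x ∈ M) (n
    : ℕ) :
    ⟪ξ, avg (G n) x ξ⟫_ℂ = ⟪ξ, x ξ⟫_ℂ := by
  have hk : ((G n).card : ℂ) ≠ 0 := by
    exact_mod_cast (Finset.card_pos.2 ⟨1, h.one_mem n⟩).ne'
  have hg : ∀ g ∈ G n, ⟪ξ, (g * x * star g) ξ⟫_ℂ = ⟪ξ, x ξ⟫_ℂ := fun g hg => by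
    rw [mul_assoc, mul_apply_eq_comp, h.cent n g hg _ (MulMemClass.mul_mem hx
        (StarMemClass.star_mem (h.mem n g hg))),
      mul_apply_eq_comp, ← mul_apply_eq_comp (star g) g, (h.unit n g hg).1, one_apply_eq_self]
  rw [avg, smul_apply, sum_apply, inner_smul_right, inner_sum, Finset.sum_congr rfl hg,
    Finset.sum_const, nsmul_eq_mul, ← mul_assoc, inv_mul_cancel₀ hk, one_mul]

/-- The averages of an element applied to the vector converge in norm. -/
lemma _root_.Vale.Agent.P096.AT.Gauge.cauchySeq_avg (h : Gauge M ξ G) {x : H →L[ℂ] H} (hx : x ∈ M) :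
    CauchySeq fun n => avg (G n) x ξ := by
  set a : ℕ → H := fun n => avg (G n) x ξ with ha
  have hmem : ∀ n, avg (G n) x ∈ M := fun n => avg_mem (h.mem n) hx
  have key : ∀ n m, n ≤ m → ⟪a n, a m⟫_ℂ = ⟪ξ, (star x * avg (G m) x) ξ⟫_ℂ := fun n m hnm => by
    have e : avg (G n) (star x * avg (G m) x) = star (avg (G n) x) * avg (G m) x := by
      rw [star_avg, avg_mul_right (h.uGroup n)]
      exact fun g hg => comm_avg (h.uGroup m) (h.mem_of_le hnm hg) x
    rw [← h.inner_avg (MulMemClass.mul_mem (StarMemClass.star_mem hx) (hmem m)) n, e,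
        mul_apply_eq_comp]
    conv_rhs => rw [← Tomita.inner_star_left, star_star]
  set b : ℕ → ℝ := fun n => ‖a n‖ ^ 2 with hb
  have hd : ∀ n m, n ≤ m → ‖a n - a m‖ ^ 2 = b n - b m := fun n m hnm => by
    rw [@norm_sub_sq ℂ, key n m hnm, ← key m m le_rfl, inner_self_eq_norm_sq_to_K]
    simp only [hb]
    norm_cast
    ring
  have hanti : Antitone b := fun n m hnm => by nlinarith [hd n m hnm]
  have hlim : CauchySeq b := (tendsto_atTop_ciInf hanti
    ⟨0, by rintro _ ⟨n, rfl⟩; exact sq_nonneg _⟩).cauchySeq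
  refine Metric.cauchySeq_iff.2 fun ε hε => ?_
  obtain ⟨K, hK⟩ := Metric.cauchySeq_iff.1 hlim (ε ^ 2) (by positivity)
  refine ⟨K, fun n hn m hm => ?_⟩
  rw [dist_eq_norm]
  have hbd := hK n hn m hm
  rw [Real.dist_eq, abs_lt] at hbd
  refine lt_of_pow_lt_pow_left₀ 2 hε.le ?_
  rcases le_total n m with hl | hl
  · rw [hd n m hl]; exact hbd.2
  · rw [norm_sub_rev, hd m n hl]; linarith [hbd.1]

/-- The averages converge strongly to a central element. -/
theorem _root_.Vale.Agent.P096.AT.Gauge.exists_avg_limit (h : Gauge M ξ G) {x : H →L[ℂ] H} (hx : x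
    ∈ M) :
    ∃ z ∈ M, z ∈ M.commutant ∧ ‖z‖ ≤ ‖x‖ ∧ ⟪ξ, z ξ⟫_ℂ = ⟪ξ, x ξ⟫_ℂ ∧
      ∀ v, Tendsto (fun n => avg (G n) x v) atTop (𝓝 (z v)) := by
  have hmem : ∀ n, avg (G n) x ∈ M := fun n => avg_mem (h.mem n) hx
  have hbd : ∀ n v, ‖avg (G n) x v‖ ≤ ‖x‖ * ‖v‖ := fun n v =>
    ((avg (G n) x).le_opNorm v).trans
      (mul_le_mul_of_nonneg_right (norm_avg_le (h.uGroup n) x) (norm_nonneg v))
  obtain ⟨l, hl⟩ := cauchySeq_tendsto_of_complete (h.cauchySeq_avg hx)
  obtain ⟨z, hz⟩ := Tomita.exists_limit (σ := RingHom.id ℂ) (fun n => avg (G n) x) ‖x‖ hbd _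
    h.cs.commutant.cyclic (by
      rintro _ ⟨y, hy, rfl⟩
      refine ⟨y l, ?_⟩
      simp only [← Tomita.commute_apply (hmem _) hy]
      exact (y.continuous.tendsto _).comp hl)
  have hzM : z ∈ M := mem_of_comm_commutant fun c hc => ContinuousLinearMap.ext fun v => by
    refine tendsto_nhds_unique ?_ (hz (c v))
    refine ((c.continuous.tendsto _).comp (hz v)).congr fun n => ?_
    exact Tomita.commute_apply (hmem n) hc v
  refine ⟨z, hzM, h.irred z hzM fun k g hg => ContinuousLinearMap.ext fun v => ?_,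
    z.opNorm_le_bound (norm_nonneg x) fun v => le_of_tendsto (hz v).norm (.of_forall (hbd · v)),
    tendsto_nhds_unique (Tendsto.inner tendsto_const_nhds (hz ξ))
      (tendsto_const_nhds.congr fun n => (h.inner_avg hx n).symm), hz⟩
  refine tendsto_nhds_unique ((g.continuous.tendsto _).comp (hz v)) ?_
  refine (hz (g v)).congr' ((eventually_ge_atTop k).mono fun n hn => ?_)
  exact (DFunLike.congr_fun (comm_avg (h.uGroup n) (h.mem_of_le hn hg) x) v).symm

/-- (A2) the averages converge strongly to a central element. -/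
theorem _root_.Vale.Agent.P096.AT.avgOut : CentOut.{u} → AvgOut.{u} := fun _ _ _ _ _ _ _ _ h _ hx
    => h.exists_avg_limit hx

/-! ## Nearness to the centre -/

lemma exists_near {d : ℝ} (h : MatWithin M N d) {x : H →L[ℂ] H} (hx : x ∈ M) :
    ∃ y ∈ N, ‖x - y‖ ≤ |d| * ‖x‖ := by
  rcases (norm_nonneg x).eq_or_lt with h0 | h0
  · exact ⟨0, zero_mem N, by rw [norm_eq_zero.1 h0.symm]; simp⟩
  set c : ℂ := ((‖x‖⁻¹ : ℝ) : ℂ) with hc
  have hcx : ‖c • x‖ ≤ 1 := by
    rw [norm_smul, hc, Complex.norm_real, norm_inv, norm_norm, inv_mul_cancel₀ h0.ne']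
  obtain ⟨Y, hY, -, hd⟩ := h 1 (fun _ _ => c • x) (fun _ _ => smul_mem_vna M c hx) fun v => by
    simp only [Fin.sum_univ_one]
    exact pow_le_pow_left₀ (norm_nonneg _)
      (((c • x).le_opNorm _).trans (mul_le_of_le_one_left (norm_nonneg _) hcx)) 2
  refine ⟨(‖x‖ : ℂ) • Y 0 0, smul_mem_vna N _ (hY 0 0),
    ContinuousLinearMap.opNorm_le_bound _ (by positivity) fun v => ?_⟩
  have e : x = (‖x‖ : ℂ) • (c • x) := by
    rw [smul_smul, hc, ← Complex.ofReal_mul, mul_inv_cancel₀ h0.ne', Complex.ofReal_one, one_smul]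
  have h1 := hd fun _ => v
  simp only [Fin.sum_univ_one] at h1
  rw [show x - (‖x‖ : ℂ) • Y 0 0 = (‖x‖ : ℂ) • (c • x - Y 0 0) by rw [smul_sub, ← e],
    smul_apply, norm_smul, Complex.norm_real, norm_norm, mul_right_comm, mul_comm _ ‖x‖]
  refine mul_le_mul_of_nonneg_left ?_ (norm_nonneg x)
  refine le_of_pow_le_pow_left₀ two_ne_zero (by positivity) (h1.trans_eq ?_)
  rw [mul_pow, sq_abs]

/-- An operator commuting with the groups is as near to the centre as to the algebra. -/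
lemma _root_.Vale.Agent.P096.AT.Gauge.near_central (hA : AvgOut.{u}) (h : Gauge M ξ G) {T : H
    →L[ℂ] H}
    (hT : ∀ n, ∀ g ∈ G n, g * T = T * g) {m : H →L[ℂ] H} (hm : m ∈ M) :
    ∃ z ∈ M, z ∈ M.commutant ∧ ‖T - z‖ ≤ ‖T - m‖ := by
  obtain ⟨z, hz, hz', -, -, hlim⟩ := hA H M ξ G h m hm
  refine ⟨z, hz, hz', ContinuousLinearMap.opNorm_le_bound _ (norm_nonneg _) fun v => ?_⟩
  refine le_of_tendsto ((tendsto_const_nhds (x := T v)).sub (hlim v)).norm (.of_forall fun n => ?_)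
  calc ‖T v - avg (G n) m v‖ = ‖avg (G n) (T - m) v‖ := by
        rw [avg_sub, avg_fixed (h.uGroup n) (hT n), sub_apply]
    _ ≤ ‖T - m‖ * ‖v‖ := ((avg (G n) (T - m)).le_opNorm v).trans
        (mul_le_mul_of_nonneg_right (norm_avg_le (h.uGroup n) _) (norm_nonneg v))

/-- A set stable under the centre and uniformly near it lies in it. -/
lemma mem_center_of_near {p : (H →L[ℂ] H) → Prop} {d : ℝ} (hd : d < 1) (hd0 : 0 ≤ d)
    (hsub : ∀ x, p x → ∀ z ∈ M, z ∈ M.commutant → p (x - z))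
    (hnear : ∀ x, p x → ∃ z ∈ M, z ∈ M.commutant ∧ ‖x - z‖ ≤ d * ‖x‖) {x : H →L[ℂ] H} (hx : p x) :
    x ∈ M ∧ x ∈ M.commutant := by
  have hk : ∀ k : ℕ, ∃ z : H →L[ℂ] H, (z ∈ M ∧ z ∈ M.commutant) ∧ p (x - z) ∧
      ‖x - z‖ ≤ d ^ k * ‖x‖ := fun k => by
    induction k with
    | zero => exact ⟨0, ⟨zero_mem _, zero_mem _⟩, by simpa using hx, by simp⟩
    | succ k ih =>
      obtain ⟨z, ⟨hz, hz'⟩, hp, hle⟩ := ih
      obtain ⟨w, hw, hw', hwle⟩ := hnear _ hp
      refine ⟨z + w, ⟨add_mem hz hw, add_mem hz' hw'⟩, ?_, ?_⟩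
      · rw [← sub_sub]; exact hsub _ hp w hw hw'
      · rw [← sub_sub, pow_succ', mul_assoc]
        exact hwle.trans (mul_le_mul_of_nonneg_left hle hd0)
  choose z hz _ hle using hk
  have hlim : Tendsto z atTop (𝓝 x) := by
    rw [tendsto_iff_norm_sub_tendsto_zero]
    refine squeeze_zero (fun k => norm_nonneg _) (fun k => (norm_sub_rev _ _).trans_le (hle k)) ?_
    simpa using (tendsto_pow_atTop_nhds_zero_of_lt_one hd0 hd).mul_const ‖x‖
  exact ⟨(isClosed_vna M).mem_of_tendsto hlim (.of_forall fun k => (hz k).1),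
    (isClosed_vna M.commutant).mem_of_tendsto hlim (.of_forall fun k => (hz k).2)⟩

/-! ## Conjugation by the modular involution -/

lemma Jconj_mul (h : Tomita.CycSep M ξ) (a b : H →L[ℂ] H) :
    Tomita.Jconj M ξ (a * b) = Tomita.Jconj M ξ a * Tomita.Jconj M ξ b := by
  refine ContinuousLinearMap.ext fun v => ?_
  simp only [mul_apply_eq_comp, Tomita.Jconj_apply, h.J_J]

lemma Jconj_sub (M : VonNeumannAlgebra H) (ξ : H) (a b : H →L[ℂ] H) :
    Tomita.Jconj M ξ (a - b) = Tomita.Jconj M ξ a - Tomita.Jconj M ξ b := by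
  refine ContinuousLinearMap.ext fun v => ?_
  simp only [sub_apply, Tomita.Jconj_apply, map_sub]

lemma norm_Jconj_le (h : Tomita.CycSep M ξ) (a : H →L[ℂ] H) : ‖Tomita.Jconj M ξ a‖ ≤ ‖a‖ :=
  ContinuousLinearMap.opNorm_le_bound _ (norm_nonneg a) fun v => by
    rw [Tomita.Jconj_apply, h.norm_J]
    exact (a.le_opNorm _).trans_eq (by rw [h.norm_J])

lemma star_Jconj (h : Tomita.CycSep M ξ) (a : H →L[ℂ] H) :
    star (Tomita.Jconj M ξ a) = Tomita.Jconj M ξ (star a) := by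
  have hJ : ∀ u w : H, ⟪u, Tomita.J₀ M ξ w⟫_ℂ = ⟪w, Tomita.J₀ M ξ u⟫_ℂ := fun u w => by
    rw [← inner_conj_symm, h.inner_J, inner_conj_symm]
  rw [ContinuousLinearMap.star_eq_adjoint]
  refine ((ContinuousLinearMap.eq_adjoint_iff _ _).2 fun u v => ?_).symm
  rw [Tomita.Jconj_apply, Tomita.Jconj_apply, h.inner_J, hJ, ← Tomita.inner_star_left, star_star]

/-! ## Projections on orbits -/

/-- The projection on the closed orbit of `ξ` and the operators commuting with it. -/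
lemma exists_orbit_proj (A : VonNeumannAlgebra H) (ξ : H) :
    ∃ p ∈ A.commutant, p ξ = ξ ∧ (p = 1 → Dense ((fun a : (H →L[ℂ] H) => a ξ) '' (A : Set (H →L[ℂ]
        H)))) ∧
      ∀ T : H →L[ℂ] H, (∀ a ∈ A, ∃ b ∈ A, T (a ξ) = b ξ) → (∀ a ∈ A, ∃ b ∈ A, star T (a ξ) = b ξ) →
        T * p = p * T := by
  let s : Submodule ℂ H :=
    { carrier := (fun a : (H →L[ℂ] H) => a ξ) '' (A : Set (H →L[ℂ] H))
      add_mem' := by rintro _ _ ⟨a, ha, rfl⟩ ⟨b, hb, rfl⟩; exact ⟨a + b, add_mem ha hb, rfl⟩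
      zero_mem' := ⟨0, zero_mem A, rfl⟩
      smul_mem' := by rintro c _ ⟨a, ha, rfl⟩; exact ⟨c • a, smul_mem_vna A c ha, rfl⟩ }
  have : CompleteSpace s.topologicalClosure := s.isClosed_topologicalClosure.completeSpace_coe
  have hinv : ∀ T : H →L[ℂ] H, (∀ a ∈ A, ∃ b ∈ A, T (a ξ) = b ξ) → ∀ v ∈ s.topologicalClosure,
      T v ∈ s.topologicalClosure := fun T hT v hv => by
    refine map_mem_closure (f := T) T.continuous hv ?_
    rintro _ ⟨a, ha, rfl⟩
    obtain ⟨b, hb, e⟩ := hT a ha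
    exact ⟨b, hb, e.symm⟩
  have hcom : ∀ T : H →L[ℂ] H, (∀ a ∈ A, ∃ b ∈ A, T (a ξ) = b ξ) →
      (∀ a ∈ A, ∃ b ∈ A, star T (a ξ) = b ξ) →
      T * s.topologicalClosure.starProjection = s.topologicalClosure.starProjection * T :=
    fun T h1 h2 => Vale.Agent.P078.General.starProjection_commute _ T (hinv T h1) (hinv _ h2)
  refine ⟨s.topologicalClosure.starProjection, VonNeumannAlgebra.mem_commutant_iff.2 fun a ha =>
      hcom a (fun b hb => ⟨a * b, MulMemClass.mul_mem ha hb, rfl⟩)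
        (fun b hb => ⟨star a * b, MulMemClass.mul_mem (StarMemClass.star_mem ha) hb, rfl⟩),
    Submodule.starProjection_eq_self_iff.2 (s.le_topologicalClosure ⟨1, OneMemClass.one_mem A,
        rfl⟩),
    fun h1 v => ?_, hcom⟩
  have hv : v ∈ s.topologicalClosure := by
    have := s.topologicalClosure.starProjection_apply_mem v
    rwa [h1] at this
  exact hv

/-! ## A gauge inside a nearby algebra -/

/-- (A3) a gauge inside a nearby algebra is a gauge of it, with the same centre and right legs. -/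
theorem _root_.Vale.Agent.P096.AT.nearGaugeOut : CentOut.{u} → AvgOut.{u} → NearGaugeOut.{u} := by
  intro hC hA
  refine ⟨1 / 2, by norm_num, ?_⟩
  intro H _ _ _ M N ξ G d hP hd
  have h := hP.gauge
  have hd0 := hP.near.nonneg
  have hd1 : |d| < 1 := by rw [abs_of_nonneg hd0]; linarith
  have hc : ∀ n, ∀ g ∈ G n, _ := fun n g hg =>
    hC H M ξ g h.cs (h.mem n g hg) (h.unit n g hg).1 (h.unit n g hg).2 (h.cent n g hg)
  have hJr : ∀ g, Tomita.Jconj M ξ (right M ξ g) = g := fun g => h.cs.Jconj_Jconj g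
  have hZN : ∀ z ∈ M, z ∈ M.commutant → z ∈ N := fun z hz hz' =>
    mem_of_comm_commutant fun T hT =>
      (h.central z hz hz' T fun n g hg => comm_vna (hP.inN n g hg).1 hT).symm
  have hJZ : ∀ z ∈ M, z ∈ M.commutant →
      Tomita.Jconj M ξ z ∈ M ∧ Tomita.Jconj M ξ z ∈ M.commutant := fun z hz hz' =>
    ⟨h.cs.Jconj_mem hz', h.cs.Jconj_mem_commutant hz⟩
  have hJg : ∀ T : H →L[ℂ] H, (∀ n, ∀ g ∈ G n, right M ξ g * T = T * right M ξ g) →
      ∀ n, ∀ g ∈ G n, g * Tomita.Jconj M ξ T = Tomita.Jconj M ξ T * g := fun T hT n g hg => by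
    rw [← hJr g, ← Jconj_mul h.cs, hT n g hg, Jconj_mul h.cs]
  have hZN' : ∀ z ∈ M, z ∈ M.commutant → z ∈ N.commutant := fun z hz hz' =>
    VonNeumannAlgebra.mem_commutant_iff.2 fun T hT => by
      have e := h.central _ (hJZ z hz hz').1 (hJZ z hz hz').2 _ (hJg T fun n g hg =>
        (comm_vna hT (hP.inN n g hg).2).symm)
      rw [← Jconj_mul h.cs, ← Jconj_mul h.cs] at e
      have e' := congrArg (Tomita.Jconj M ξ) e
      rw [h.cs.Jconj_Jconj, h.cs.Jconj_Jconj] at e'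
      exact e'.symm
  -- the relative commutants in `N` and in its commutant are the centre of `M`
  have hirr : ∀ x, x ∈ N → (∀ n, ∀ g ∈ G n, g * x = x * g) → x ∈ M ∧ x ∈ M.commutant :=
    fun x hx hxg => by
    refine mem_center_of_near (p := fun x => x ∈ N ∧ ∀ n, ∀ g ∈ G n, g * x = x * g) hd1
      (abs_nonneg d) (fun x hx z hz hz' => ⟨sub_mem hx.1 (hZN z hz hz'), fun n g hg => by
        rw [mul_sub, sub_mul, hx.2 n g hg, comm_vna (h.mem n g hg) hz']⟩)
      (fun x hx => ?_) ⟨hx, hxg⟩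
    obtain ⟨m, hm, hxm⟩ := exists_near hP.near.bwd hx.1
    obtain ⟨z, hz, hz', hle⟩ := h.near_central hA hx.2 hm
    exact ⟨z, hz, hz', hle.trans hxm⟩
  have hirr' : ∀ x, x ∈ N.commutant → (∀ n, ∀ g ∈ G n, right M ξ g * x = x * right M ξ g) →
      x ∈ M ∧ x ∈ M.commutant := fun x hx hxg => by
    refine mem_center_of_near
      (p := fun x => x ∈ N.commutant ∧ ∀ n, ∀ g ∈ G n, right M ξ g * x = x * right M ξ g) hd1
      (abs_nonneg d) (fun x hx z hz hz' => ⟨sub_mem hx.1 (hZN' z hz hz'), fun n g hg => by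
        rw [mul_sub, sub_mul, hx.2 n g hg, comm_vna hz (hc n g hg).1]⟩)
      (fun x hx => ?_) ⟨hx, hxg⟩
    obtain ⟨y, hy, hxy⟩ := exists_near hP.near.bwd' hx.1
    obtain ⟨z, hz, hz', hle⟩ := h.near_central hA (hJg x hx.2) (h.cs.Jconj_mem hy)
    refine ⟨_, (hJZ z hz hz').1, (hJZ z hz hz').2, ?_⟩
    calc ‖x - Tomita.Jconj M ξ z‖
        = ‖Tomita.Jconj M ξ (Tomita.Jconj M ξ x - z)‖ := by rw [Jconj_sub, h.cs.Jconj_Jconj]
      _ ≤ ‖Tomita.Jconj M ξ x - Tomita.Jconj M ξ y‖ := (norm_Jconj_le h.cs _).trans hle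
      _ ≤ ‖x - y‖ := by rw [← Jconj_sub]; exact norm_Jconj_le h.cs _
      _ ≤ _ := hxy
  have hz_iff : ∀ z, (z ∈ M ∧ z ∈ M.commutant) ↔ (z ∈ N ∧ z ∈ N.commutant) := fun z =>
    ⟨fun hz => ⟨hZN z hz.1 hz.2, hZN' z hz.1 hz.2⟩,
      fun hz => hirr z hz.1 fun n g hg => comm_vna (hP.inN n g hg).1 hz.2⟩
  -- the moves of `ξ`
  have hgξ : ∀ n, ∀ g ∈ G n, g ξ = right M ξ (star g) ξ := fun n g hg => by
    rw [(hc n _ (h.star_mem n g hg)).2.1, star_star]
  have hrs : ∀ g, star (right M ξ g) = right M ξ (star g) := star_Jconj h.cs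
  obtain ⟨p, hp, hpξ, hp1, hpc⟩ := exists_orbit_proj N.commutant ξ
  rw [N.commutant_commutant] at hp
  have hpG : ∀ n, ∀ g ∈ G n, ∀ a ∈ N.commutant, ∃ b ∈ N.commutant, g (a ξ) = b ξ :=
    fun n g hg a ha => ⟨a * right M ξ (star g),
      MulMemClass.mul_mem ha (hP.inN n _ (h.star_mem n g hg)).2, by
        rw [← Tomita.commute_apply (hP.inN n g hg).1 ha, hgξ n g hg]; rfl⟩
  have hpZ := hirr p hp fun n g hg =>
    hpc g (hpG n g hg) (hpG n _ (h.star_mem n g hg))
  have hp1' : p = 1 := (sub_eq_zero.1 (h.cs.separating (1 - p)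
    (sub_mem (OneMemClass.one_mem M) hpZ.1) (by rw [sub_apply, hpξ, one_apply_eq_self,
        sub_self]))).symm
  obtain ⟨q, hq, hqξ, hq1, hqc⟩ := exists_orbit_proj N ξ
  have hqG : ∀ n, ∀ g ∈ G n, ∀ a ∈ N, ∃ b ∈ N, right M ξ g (a ξ) = b ξ :=
    fun n g hg a ha => ⟨a * star g, MulMemClass.mul_mem ha (StarMemClass.star_mem (hP.inN n g
        hg).1), by
      rw [Tomita.commute_apply ha (hP.inN n g hg).2, (hc n g hg).2.1]; rfl⟩
  have hqZ := hirr' q hq fun n g hg =>
    hqc _ (hqG n g hg) (by rw [hrs]; exact hqG n _ (h.star_mem n g hg))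
  have hq1' : q = 1 := (sub_eq_zero.1 (h.cs.separating (1 - q)
    (sub_mem (OneMemClass.one_mem M) hqZ.1) (by rw [sub_apply, hqξ, one_apply_eq_self,
        sub_self]))).symm
  have cs : Tomita.CycSep N ξ := by
    refine ⟨h.cs.norm_one, hq1 hq1', fun a ha haξ => ?_⟩
    refine DFunLike.coe_injective (Continuous.ext_on (hp1 hp1') a.continuous
      (0 : H →L[ℂ] H).continuous ?_)
    rintro _ ⟨b, hb, rfl⟩
    rw [← Tomita.commute_apply ha hb, haξ, map_zero]
    rfl
  have hcentN : ∀ n, ∀ g ∈ G n, ∀ y ∈ N, ⟪ξ, g (y ξ)⟫_ℂ = ⟪ξ, y (g ξ)⟫_ℂ :=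
    fun n g hg y hy => by
    rw [hgξ n g hg, ← Tomita.commute_apply hy (hP.inN n _ (h.star_mem n g hg)).2,
      ← hrs, ← Tomita.inner_star_left (star _), star_star, (hc n g hg).2.1,
      Tomita.inner_star_left]
  refine ⟨⟨cs, h.one_mem, h.mul_mem, h.star_mem, h.mono, fun n g hg => (hP.inN n g hg).1,
    h.unit, hcentN, fun x hx hxg => hZN' x (hirr x hx hxg).1 (hirr x hx hxg).2,
    fun z hz hz' => h.central z ((hz_iff z).2 ⟨hz, hz'⟩).1 ((hz_iff z).2 ⟨hz, hz'⟩).2⟩,
    hz_iff, fun n g hg => ?_⟩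
  obtain ⟨hm, he, -⟩ :=
    hC H N ξ g cs (hP.inN n g hg).1 (h.unit n g hg).1 (h.unit n g hg).2 (hcentN n g hg)
  exact sub_eq_zero.1 (cs.commutant.separating _ (sub_mem hm (hP.inN n g hg).2)
    (by rw [sub_apply, he, (hc n g hg).2.1, sub_self]))

/-! ## Balance -/

/-- Flattening of the square of a self-adjoint element. -/
lemma _root_.Vale.Agent.P096.AT.Gauge.flat (hA : AvgOut.{u}) (h : Gauge M ξ G) {a : H →L[ℂ] H} (ha
    : a ∈ M) (has : IsSelfAdjoint a)
    {η : ℝ} (hη : 0 < η) :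
    ∃ (Z : Finset (H →L[ℂ] H)) (q : ℕ → (H →L[ℂ] H)),
      (∀ z ∈ Z, IsStarProjection z ∧ z ∈ M ∧ z ∈ M.commutant) ∧
      (∀ z ∈ Z, ∀ w ∈ Z, z ≠ w → z * w = 0) ∧ ∑ z ∈ Z, z = 1 ∧
      (∀ n, IsStarProjection (q n) ∧ q n ∈ M ∧ ∀ g ∈ G n, g * q n = q n * g) ∧
      (∀ v, Tendsto (fun n => q n v) atTop (𝓝 v)) ∧
      ∀ n, ∀ z ∈ Z, ‖z * q n * avg (G n) (a * a) * q n‖ * ‖z ξ‖ ^ 2 ≤
        1 * ‖a (z ξ)‖ ^ 2 + η * ‖z ξ‖ ^ 2 := by
  classical
  obtain ⟨z₀, hz₀, hz₀', -, -, hlim⟩ := hA H M ξ G h _ (MulMemClass.mul_mem ha ha)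
  have hAs : ∀ n, IsSelfAdjoint (avg (G n) (a * a)) := fun n => by
    rw [IsSelfAdjoint, star_avg, star_mul, has.star_eq]
  have hz₀s : IsSelfAdjoint z₀ := ContinuousLinearMap.isSelfAdjoint_iff_isSymmetric.2 fun u v =>
    tendsto_nhds_unique ((hlim u).inner (tendsto_const_nhds (x := v)))
      ((tendsto_const_nhds (x := u).inner (hlim v)).congr fun n =>
        (Tomita.inner_sa_left (hAs n) u v).symm)
  set θ : ℝ := η / 3 with hθ
  have hθ0 : 0 < θ := by positivity
  obtain ⟨k, c, E, hE, horth, hsum, -, happ⟩ := P085.exists_spectral_partition hz₀s hθ0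
  have hEM : ∀ i, E i ∈ M ∧ E i ∈ M.commutant := fun i =>
    ⟨(hE i).2.mem hz₀, (hE i).2.mem hz₀'⟩
  have hEE : ∀ i v, E i (E i v) = E i v := fun i v =>
    DFunLike.congr_fun (hE i).1.isIdempotentElem.eq v
  set C : (H →L[ℂ] H) := ∑ i, (c i : ℂ) • E i with hC
  have hCM : C ∈ M ∧ C ∈ M.commutant :=
    ⟨sum_mem fun i _ => smul_mem_vna M _ (hEM i).1, sum_mem fun i _ => smul_mem_vna _ _ (hEM i).2⟩
  have hCs : IsSelfAdjoint C := by
    rw [IsSelfAdjoint, hC, star_sum]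
    refine Finset.sum_congr rfl fun i _ => ?_
    rw [star_smul, (hE i).1.isSelfAdjoint.star_eq, Complex.star_def, Complex.conj_ofReal]
  have hEC : ∀ i v, E i (C v) = (c i : ℂ) • E i v := fun i v => by
    simp only [hC, sum_apply, smul_apply, map_sum, map_smul]
    rw [Finset.sum_eq_single i (fun j _ hj => by
      rw [show E i (E j v) = (E i * E j) v from rfl, horth i j (Ne.symm hj), zero_apply, smul_zero])
      (by simp), hEE]
  -- the form of the centred limit
  have hW : ∀ u, (⟪z₀ u - C u, u⟫_ℂ).re ≤ θ * ‖u‖ ^ 2 := fun u => by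
    have e1 : ∀ i w, ⟪w, E i u⟫_ℂ = ⟪E i w, E i u⟫_ℂ := fun i w => by
      rw [Tomita.inner_sa_left (hE i).1.isSelfAdjoint, hEE]
    have eu : ∑ i, E i u = u := by rw [← sum_apply, hsum, one_apply_eq_self]
    have e2 : ∑ i, ‖E i u‖ ^ 2 = ‖u‖ ^ 2 := by
      have : ∀ i, ‖E i u‖ ^ 2 = (⟪u, E i u⟫_ℂ).re := fun i => by
        rw [e1, inner_self_eq_norm_sq_to_K]
        norm_cast
      simp only [this, ← Complex.re_sum, ← inner_sum, eu, inner_self_eq_norm_sq_to_K]
      norm_cast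
    conv_lhs => arg 1; arg 3; rw [← eu]
    rw [inner_sum, Complex.re_sum, ← e2, Finset.mul_sum]
    refine Finset.sum_le_sum fun i _ => ?_
    rw [e1, map_sub, hEC, Tomita.commute_apply hz₀ (hEM i).2]
    refine (Complex.re_le_norm _).trans ((norm_inner_le_norm _ _).trans ?_)
    rw [sq, ← mul_assoc]
    exact mul_le_mul_of_nonneg_right (happ i _ (hEE i u)) (norm_nonneg _)
  -- the cuts
  set B : ℕ → (H →L[ℂ] H) := fun n => avg (G n) (a * a) - C with hB
  have hBs : ∀ n, IsSelfAdjoint (B n) := fun n => (hAs n).sub hCs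
  have hBM : ∀ n, B n ∈ M := fun n => sub_mem (avg_mem (h.mem n) (MulMemClass.mul_mem ha ha)) hCM.1
  have hBG : ∀ n, ∀ g ∈ G n, Commute (B n) g := fun n g hg => by
    rw [Commute, SemiconjBy, hB, sub_mul, mul_sub, comm_avg (h.uGroup n) hg,
      comm_vna (h.mem n g hg) hCM.2]
  set T : ℕ → (H →L[ℂ] H) := fun n => B n + (‖B n‖ : ℂ) • 1 with hT
  have hTv : ∀ n v, (⟪T n v, v⟫_ℂ).re = (⟪B n v, v⟫_ℂ).re + ‖B n‖ * ‖v‖ ^ 2 := fun n v => by
    rw [hT, add_apply, smul_apply, one_apply_eq_self, inner_add_left, inner_smul_left,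
      Complex.conj_ofReal, inner_self_eq_norm_sq_to_K, Complex.add_re, Complex.re_ofReal_mul]
    norm_cast
  have hTc : ∀ n {y : H →L[ℂ] H}, Commute (B n) y → Commute (T n) y := fun n {y} hy => by
    simp only [hT]
    exact hy.add_left ((Commute.one_left y).smul_left _)
  have hcut : ∀ n, ∃ s : H →L[ℂ] H, IsStarProjection s ∧
      (∀ y, Commute (T n) y → Commute (T n) (star y) → y * s = s * y) ∧
      (∀ v, (‖B n‖ + 2 * θ) * ‖s v‖ ^ 2 ≤ (⟪T n v, v⟫_ℂ).re) ∧
      ∀ v, s v = 0 → (⟪T n v, v⟫_ℂ).re ≤ (‖B n‖ + 2 * θ) * ‖v‖ ^ 2 := fun n => by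
    obtain ⟨s, h1, h2, h3, h4, -⟩ := P078.General.exists_cut (T := T n)
      ((hBs n).add (by rw [IsSelfAdjoint, star_smul, star_one, Complex.star_def,
        Complex.conj_ofReal])) (fun v => by
        rw [hTv]
        have := neg_le_of_abs_le ((Complex.abs_re_le_norm ⟪B n v, v⟫_ℂ).trans
          ((norm_inner_le_norm _ _).trans
            (mul_le_mul_of_nonneg_right ((B n).le_opNorm v) (norm_nonneg v))))
        nlinarith [this]) (t := ‖B n‖ + 2 * θ) (by positivity)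
    exact ⟨s, h1, h2, h3, h4⟩
  choose s hs hsc hlow hup using hcut
  have hsM : ∀ n, s n ∈ M := fun n => mem_of_comm_commutant fun y hy =>
    hsc n y (hTc n (comm_vna (hBM n) hy)) (hTc n (comm_vna (hBM n) (StarMemClass.star_mem hy)))
  have hsG : ∀ n, ∀ g ∈ G n, g * s n = s n * g := fun n g hg =>
    hsc n g (hTc n (hBG n g hg)) (hTc n (hBG n _ (h.star_mem n g hg)))
  have hsB : ∀ n, B n * s n = s n * B n := fun n =>
    hsc n (B n) (hTc n (Commute.refl _)) (by rw [(hBs n).star_eq]; exact hTc n (Commute.refl _))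
  -- the cuts tend to one
  have hsmall : ∀ n v, θ * ‖s n v‖ ≤ ‖avg (G n) (a * a) v - z₀ v‖ := fun n v => by
    have hss : s n (s n v) = s n v := DFunLike.congr_fun (hs n).isIdempotentElem.eq v
    have h1 : 2 * θ * ‖s n v‖ ^ 2 ≤ (⟪B n (s n v), s n v⟫_ℂ).re := by
      have := hlow n (s n v)
      rw [hss, hTv] at this
      linarith
    have hcm : (B n - (z₀ - C)) (s n v) = s n ((B n - (z₀ - C)) v) := by
      have e := DFunLike.congr_fun (show (B n - (z₀ - C)) * s n = s n * (B n - (z₀ - C)) by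
        rw [sub_mul, mul_sub, hsB n, comm_vna (hsM n) (sub_mem hz₀' hCM.2)]) v
      exact e
    have h2 : θ * ‖s n v‖ ^ 2 ≤ (⟪(B n - (z₀ - C)) (s n v), s n v⟫_ℂ).re := by
      have hw := hW (s n v)
      simp only [hB, sub_apply, inner_sub_left, Complex.sub_re] at h1 hw ⊢
      linarith
    have h3 : (⟪(B n - (z₀ - C)) (s n v), s n v⟫_ℂ).re ≤
        ‖avg (G n) (a * a) v - z₀ v‖ * ‖s n v‖ := by
      refine (Complex.re_le_norm _).trans ((norm_inner_le_norm _ _).trans ?_)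
      refine mul_le_mul_of_nonneg_right ?_ (norm_nonneg _)
      rw [hcm, hB, sub_sub_sub_cancel_right, ← sub_apply]
      exact P085.norm_proj_apply_le (hs n) _
    rcases (norm_nonneg (s n v)).eq_or_lt with h0 | h0
    · rw [← h0, mul_zero]; exact norm_nonneg _
    · exact le_of_mul_le_mul_right (by linarith) h0
  -- the norm on one piece
  have hnorm : ∀ n i, ‖E i * (1 - s n) * avg (G n) (a * a) * (1 - s n)‖ ≤ max (c i + 2 * θ) 0 := by
    intro n i
    set A := avg (G n) (a * a)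
    have hcp : E i * (1 - s n) = (1 - s n) * E i :=
      (comm_vna (sub_mem (OneMemClass.one_mem M) (hsM n)) (hEM i).2).symm
    set p := (1 - s n) * E i with hp
    have hpp : IsStarProjection p := P085.isStarProjection_mul (hs n).one_sub (hE i).1 hcp.symm
    have hX : E i * (1 - s n) * A * (1 - s n) = p * A * p := by
      have hAM : (1 - s n) * A * (1 - s n) ∈ M :=
        MulMemClass.mul_mem (MulMemClass.mul_mem (sub_mem (OneMemClass.one_mem M) (hsM n))
            (avg_mem (h.mem n) (MulMemClass.mul_mem ha ha)))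
          (sub_mem (OneMemClass.one_mem M) (hsM n))
      calc E i * (1 - s n) * A * (1 - s n) = E i * (E i * ((1 - s n) * A * (1 - s n))) := by
            simp only [← mul_assoc, (hE i).1.isIdempotentElem.eq]
        _ = E i * ((1 - s n) * A * (1 - s n)) * E i := by
            rw [mul_assoc (E i) _ (E i), comm_vna hAM (hEM i).2]
        _ = p * A * p := by
            rw [show E i * ((1 - s n) * A * (1 - s n)) * E i =
              E i * (1 - s n) * A * ((1 - s n) * E i) by simp only [mul_assoc], hcp]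
    rw [hX]
    refine P085.Toolkit.norm_le_of_form ?_ (le_max_right _ _) fun v => ?_
    · simpa [hpp.isSelfAdjoint.star_eq] using (hAs n).conjugate p
    set w := p v with hw
    have hiv : ⟪(p * A * p) v, v⟫_ℂ = ⟪A w, w⟫_ℂ := by
      simp only [mul_apply_eq_comp]
      rw [Tomita.inner_sa_left hpp.isSelfAdjoint]
    have hsw : s n w = 0 := by
      rw [hw, hp, mul_apply_eq_comp, ← mul_apply_eq_comp (s n),
        (hs n).isIdempotentElem.mul_one_sub_self, zero_apply]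
    have hCw : C w = (c i : ℂ) • w := by
      have hEw : E i w = w := by
        show E i (p v) = p v
        rw [← hcp, mul_apply_eq_comp, hEE]
      calc C w = C (E i w) := by rw [hEw]
        _ = E i (C w) := Tomita.commute_apply (hEM i).1 hCM.2 w
        _ = (c i : ℂ) • w := by rw [hEC, hEw]
    have hup' := hup n w hsw
    rw [hTv, show B n w = A w - C w from rfl, inner_sub_left, Complex.sub_re, hCw, inner_smul_left,
      Complex.conj_ofReal, Complex.re_ofReal_mul, inner_self_ofReal, Complex.ofReal_re] at hup'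
    rw [hiv, abs_of_nonneg (re_inner_avg_nonneg (G n) has w)]
    calc (⟪A w, w⟫_ℂ).re ≤ (c i + 2 * θ) * ‖w‖ ^ 2 := by linarith
      _ ≤ max (c i + 2 * θ) 0 * ‖w‖ ^ 2 :=
          mul_le_mul_of_nonneg_right (le_max_left _ _) (sq_nonneg _)
      _ ≤ _ := mul_le_mul_of_nonneg_left
          (pow_le_pow_left₀ (norm_nonneg _) (P085.norm_proj_apply_le hpp v) 2) (le_max_right _ _)
  -- the value of the state on one piece
  have hstate : ∀ i, (c i - θ) * ‖E i ξ‖ ^ 2 ≤ ‖a (E i ξ)‖ ^ 2 := fun i => by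
    have e1 : ⟪E i ξ, z₀ (E i ξ)⟫_ℂ = ((‖a (E i ξ)‖ ^ 2 : ℝ) : ℂ) := by
      have hg : ∀ n, ⟪ξ, E i (avg (G n) (a * a) ξ)⟫_ℂ = ⟪ξ, (E i * (a * a)) ξ⟫_ℂ := fun n => by
        rw [← h.inner_avg (MulMemClass.mul_mem (hEM i).1 (MulMemClass.mul_mem ha ha)) n,
          avg_mul_left _ (fun g hg => comm_vna (h.mem n g hg) (hEM i).2)]
        rfl
      have e := tendsto_nhds_unique
        (tendsto_const_nhds (x := ξ).inner (((E i).continuous.tendsto _).comp (hlim ξ)))
        (tendsto_const_nhds.congr fun n => (hg n).symm)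
      have ea : E i * (a * a) = star (a * E i) * (a * E i) := by
        rw [star_mul, has.star_eq, (hE i).1.isSelfAdjoint.star_eq,
          show E i * a * (a * E i) = E i * ((a * a) * E i) by simp only [mul_assoc],
          comm_vna (MulMemClass.mul_mem ha ha) (hEM i).2]
        simp only [← mul_assoc, (hE i).1.isIdempotentElem.eq]
      rw [Tomita.inner_sa_left (hE i).1.isSelfAdjoint, ← Tomita.commute_apply hz₀ (hEM i).2, hEE, e,
        ea, mul_apply_eq_comp, ← Tomita.inner_star_left, star_star, mul_apply_eq_comp,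
        inner_self_eq_norm_sq_to_K]
      norm_cast
    have h2 := happ i (E i ξ) (hEE i ξ)
    have h3 : |(⟪E i ξ, z₀ (E i ξ) - (c i : ℂ) • E i ξ⟫_ℂ).re| ≤ θ * ‖E i ξ‖ ^ 2 := by
      refine (Complex.abs_re_le_norm _).trans ((norm_inner_le_norm _ _).trans ?_)
      rw [sq, mul_comm θ, mul_assoc, mul_comm _ θ]
      exact mul_le_mul_of_nonneg_left h2 (norm_nonneg _)
    rw [inner_sub_right, inner_smul_right, e1, inner_self_ofReal, Complex.sub_re,
      Complex.re_ofReal_mul, Complex.ofReal_re, Complex.ofReal_re] at h3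
    nlinarith [abs_le.1 h3]
  refine ⟨(Finset.univ.filter fun i => E i ≠ 0).image E, fun n => 1 - s n, ?_, ?_, ?_, ?_, ?_, ?_⟩
  · simp only [Finset.forall_mem_image]
    exact fun i _ => ⟨(hE i).1, hEM i⟩
  · simp only [Finset.forall_mem_image]
    exact fun i _ j _ hij => horth i j fun e => hij (by rw [e])
  · have hinj : ∀ i ∈ Finset.univ.filter (fun i => E i ≠ 0),
        ∀ j ∈ Finset.univ.filter (fun i => E i ≠ 0), E i = E j → i = j := fun i hi j _ e =>
      by_contra fun hij => (Finset.mem_filter.1 hi).2 (by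
        rw [← (hE i).1.isIdempotentElem.eq]
        conv_lhs => arg 2; rw [e]
        exact horth i j hij)
    rw [Finset.sum_image hinj, Finset.sum_filter_ne_zero, hsum]
  · exact fun n => ⟨(hs n).one_sub, sub_mem (OneMemClass.one_mem M) (hsM n), fun g hg => by
      rw [mul_sub, sub_mul, mul_one, one_mul, hsG n g hg]⟩
  · intro v
    have h0 : Tendsto (fun n => s n v) atTop (𝓝 0) := by
      refine squeeze_zero_norm (fun n => (le_div_iff₀' hθ0).2 (hsmall n v)) ?_
      simpa using (tendsto_iff_norm_sub_tendsto_zero.1 (hlim v)).div_const θ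
    simpa using (tendsto_const_nhds (x := v)).sub h0
  · simp only [Finset.forall_mem_image]
    intro n i _
    refine (mul_le_mul_of_nonneg_right (hnorm n i) (sq_nonneg _)).trans ?_
    rw [one_mul]
    rcases le_total (c i + 2 * θ) 0 with hc0 | hc0
    · rw [max_eq_right hc0, zero_mul]; positivity
    · rw [max_eq_left hc0]
      have := hstate i
      nlinarith [hθ]

/-- A gauge common to two algebras with the same centre and right legs balances them. -/
lemma _root_.Vale.Agent.P096.AT.Gauge.balanced (hC : CentOut.{u}) (hA : AvgOut.{u}) (hM : Gauge M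
    ξ G) (hN : Gauge N ξ G)
    (hZ : ∀ z, (z ∈ M ∧ z ∈ M.commutant) → (z ∈ N ∧ z ∈ N.commutant))
    (hr : ∀ n, ∀ g ∈ G n, right N ξ g = right M ξ g) : Balanced M N ξ G 1 where
  csM := hM.cs
  csN := hN.cs
  one_mem := hM.one_mem
  mul_mem := hM.mul_mem
  star_mem := hM.star_mem
  mem n g hg := ⟨hM.mem n g hg, hM.unit n g hg⟩
  fix n g hg :=
    let e := hC H M ξ g hM.cs (hM.mem n g hg) (hM.unit n g hg).1 (hM.unit n g hg).2 (hM.cent n g hg)
    ⟨e.1, e.2.2.1⟩
  sym n g hg v := by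
    rw [← hr n g hg]
    exact (hC H N ξ g hN.cs (hN.mem n g hg) (hN.unit n g hg).1 (hN.unit n g hg).2
      (hN.cent n g hg)).2.2.2.1 v
  flat a ha has η hη := by
    obtain ⟨Z, q, h1, h2⟩ := hM.flat hA ha has hη
    exact ⟨Z, q, fun z hz => ⟨(h1 z hz).1, (h1 z hz).2.1, (h1 z hz).2.2,
      hZ z ⟨(h1 z hz).2.1, (h1 z hz).2.2⟩⟩, h2⟩

/-- (B1') a gauge inside both algebras balances each against the other. -/
theorem _root_.Vale.Agent.P096.AT.balancedOut : CentOut.{u} → AvgOut.{u} → NearGaugeOut.{u} →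
    BalancedOut.{u} := by
  intro hC hA ⟨d₀, hd₀, hN⟩
  refine ⟨d₀, hd₀, fun H _ _ _ M N ξ G d hP hd => ?_⟩
  obtain ⟨hg, hz, hr⟩ := hN H M N ξ G d hP hd
  exact ⟨hP.gauge.balanced hC hA hg (fun z => (hz z).1) hr,
    hg.balanced hC hA hP.gauge (fun z => (hz z).2) fun n g h => (hr n g h).symm⟩

end Averages

end Vale.Agent.P096.AT
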