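import Vale.Agent.P096.AT.Setting

/-!
# A centralised unitary and its right multiplication

The vector of a centralised element is fixed by `R` and sent by `D` to the vector of the adjoint.
Hence it is fixed by the modular group, `J` sends it to the vector of the adjoint, and
`g J g J` is a unitary fixing the real subspace.
-/

noncomputable section

namespace Vale.Agent.P096.AT

open Complex Set Filter Topology
open scoped InnerProductSpace ComplexConjugate Vale.Agent.P132.Tomita
open Vale.Agent.P132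

universe u

variable {H : Type u} [NormedAddCommGroup H] [InnerProductSpace ℂ H] [CompleteSpace H]
variable {M : VonNeumannAlgebra H} {ξ : H}

/-- A vector fixed by `R` is an eigenvector of every function of `R`. -/
lemma fR_fixed {v : H} (hv : Tomita.R M ξ v = v) {f : ℝ → ℂ} (hf : ContinuousOn f (Icc 0 2)) :
    Tomita.fR M ξ f v = f 1 • v := by
  rw [← sub_eq_zero]
  refine Tomita.fR_induction (fun g => Tomita.fR M ξ g v - g 1 • v) (C := 2 * ‖v‖) ?_ ?_ ?_ hf
  · intro g _ c hc hb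
    refine (norm_sub_le _ _).trans ?_
    have h1 : ‖Tomita.fR M ξ g v‖ ≤ c * ‖v‖ := Tomita.norm_fR_apply_le hc hb v
    have h2 : ‖g 1 • v‖ ≤ c * ‖v‖ := by
      rw [norm_smul]; gcongr; exact hb 1 ⟨by norm_num, by norm_num⟩
    nlinarith
  · intro g g' hg hg'
    rw [Tomita.fR_add hg hg', add_apply, add_smul]
    abel
  · intro c n
    rw [sub_eq_zero, Tomita.fR_pow, smul_apply]
    simp only [Complex.ofReal_one, one_pow, mul_one]
    congr 1
    induction n with
    | zero => rfl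
    | succ n ih => rw [pow_succ, mul_apply_eq_comp, hv, ih]

/-- The vector of a centralised element: `R` fixes it, `D` takes the adjoint. -/
lemma R_D_central {g : H →L[ℂ] H} (hg : g ∈ M)
    (hc : ∀ y ∈ M, ⟪ξ, g (y ξ)⟫_ℂ = ⟪ξ, y (g ξ)⟫_ℂ) :
    Tomita.R M ξ (g ξ) = g ξ ∧ Tomita.D M ξ (g ξ) = star g ξ := by
  obtain ⟨a₁, h₁, a₂, h₂, s₁, s₂, rfl⟩ := Tomita.exists_sa_decomp hg
  set v := (a₁ + I • a₂) ξ with hv
  set w := star (a₁ + I • a₂) ξ with hw
  have hkey : ∀ y ∈ M, IsSelfAdjoint y → ⟪w, y ξ⟫_ℂ = ⟪y ξ, v⟫_ℂ := fun y hy hsy => by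
    rw [hw, Tomita.inner_star_left, hc y hy, Tomita.inner_sa_left hsy]
  have e1 : v = a₁ ξ + I • a₂ ξ := by simp [hv]
  have e2 : w = a₁ ξ - I • a₂ ξ := by
    simp [hw, star_smul, s₁.star_eq, s₂.star_eq, sub_eq_add_neg]
  have hreal : ∀ y ∈ M, IsSelfAdjoint y →
      (⟪y ξ, I • a₂ ξ⟫_ℂ).re = 0 ∧ (⟪y ξ, -I • a₁ ξ⟫_ℂ).re = 0 := by
    intro y hy hsy
    have hk := hkey y hy hsy
    rw [← inner_conj_symm w, e1, e2] at hk
    simp only [inner_add_right, inner_sub_right, inner_smul_right, map_sub, map_mul, conj_I] at hk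
    have hre := congrArg Complex.re hk
    have him := congrArg Complex.im hk
    simp only [sub_re, add_re, mul_re, neg_re, I_re, conj_re, conj_im, sub_im, add_im, mul_im,
      neg_im, I_im, inner_smul_right] at hre him ⊢
    constructor <;> linarith
  have hP : Tomita.proj M ξ (I • a₂ ξ) = 0 :=
    Tomita.proj_eq_zero_of _ fun y hy hsy => (hreal y hy hsy).1
  have hQ : Tomita.projI M ξ (a₁ ξ) = 0 := by
    rw [Tomita.projI, Tomita.proj_eq_zero_of _ fun y hy hsy => (hreal y hy hsy).2, smul_zero]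
  have hq2 : Tomita.projI M ξ (I • a₂ ξ) = I • a₂ ξ := by
    rw [Tomita.projI_I_smul, Tomita.proj_apply_sa h₂ s₂]
  constructor
  · rw [e1, Tomita.R_apply, map_add, Tomita.projI_add, Tomita.proj_apply_sa h₁ s₁, hP, hQ, hq2]
    simp
  · rw [e1, e2, Tomita.D_apply, map_add, Tomita.projI_add, Tomita.proj_apply_sa h₁ s₁, hP, hQ, hq2]
    simp

lemma central_fixed (h : Tomita.CycSep M ξ) {g : H →L[ℂ] H} (hg : g ∈ M)
    (hc : ∀ y ∈ M, ⟪ξ, g (y ξ)⟫_ℂ = ⟪ξ, y (g ξ)⟫_ℂ) :
    Tomita.J₀ M ξ (g ξ) = star g ξ ∧ ∀ t, g * Tomita.U M ξ t = Tomita.U M ξ t * g := by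
  obtain ⟨hR, hD⟩ := R_D_central hg hc
  have hT : Tomita.T M ξ (g ξ) = g ξ := by
    rw [Tomita.T, fR_fixed hR Tomita.continuousOn_sq]
    norm_num [Tomita.sq, Tomita.qd]
  refine ⟨by rw [← hD, ← h.J_T, hT], fun t => ?_⟩
  have hU : Tomita.U M ξ t (g ξ) = g ξ := by
    conv_lhs => rw [← hT, h.U_T]
    rw [fR_fixed hR (Tomita.continuousOn_phase_mul t Tomita.continuousOn_sq Tomita.sq_zero'
      Tomita.sq_two)]
    norm_num [Tomita.sq, Tomita.qd, Tomita.phase_one]
  have h0 : Tomita.U M ξ t * g * Tomita.U M ξ (-t) - g = 0 := by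
    refine h.separating _ (sub_mem (h.sigma_mem t hg) hg) ?_
    simp [mul_apply_eq_comp, h.U_omega, hU]
  calc g * Tomita.U M ξ t = Tomita.U M ξ t * g * Tomita.U M ξ (-t) * Tomita.U M ξ t := by
        rw [sub_eq_zero.1 h0]
    _ = Tomita.U M ξ t * g := by
        rw [mul_assoc, ← h.U_add, neg_add_cancel, h.U_zero, mul_one]

lemma star_right (h : Tomita.CycSep M ξ) (a : H →L[ℂ] H) :
    star (right M ξ a) = right M ξ (star a) := by
  refine ContinuousLinearMap.ext fun v => ext_inner_right ℂ fun w => ?_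
  rw [Tomita.inner_star_left, right, right, Tomita.Jconj_apply, Tomita.Jconj_apply, h.inner_J,
    ← inner_conj_symm, h.inner_J, inner_conj_symm,
    ← Tomita.inner_star_left (star a), star_star]

/-- Conjugation by `g J g J` of the real subspace. -/
lemma mem_K_apply (h : Tomita.CycSep M ξ) {g : H →L[ℂ] H} (hg : g ∈ M)
    (hJ : Tomita.J₀ M ξ (g ξ) = star g ξ) :
    ∀ v ∈ Tomita.K M ξ, g (right M ξ g v) ∈ Tomita.K M ξ := by
  intro v hv
  refine map_mem_closure (f := fun v => g (right M ξ g v)) (by fun_prop) hv ?_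
  rintro _ ⟨a, ha, hsa, rfl⟩
  refine ⟨g * a * star g, mul_mem (mul_mem hg ha) (star_mem hg), ?_, ?_⟩
  · exact hsa.conjugate g
  · simp only [mul_apply_eq_comp]
    rw [right, Tomita.commute_apply ha (h.Jconj_mem_commutant hg) ξ, Tomita.Jconj_apply,
      h.J_omega, hJ]

/-- (A1) -/
theorem centOut : CentOut.{u} := by
  intro H _ _ _ M ξ g h hg hg1 hg2 hc
  obtain ⟨hJ, hU⟩ := central_fixed h hg hc
  have hmem : right M ξ g ∈ M.commutant := h.Jconj_mem_commutant hg
  have hr : right M ξ g ξ = star g ξ := by rw [right, Tomita.Jconj_apply, h.J_omega, hJ]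
  have happ : ∀ (a b : H →L[ℂ] H), a * b = 1 → ∀ v, a (b v) = v := fun a b hab v => by
    have := congrArg (fun T : H →L[ℂ] H => T v) hab
    simpa [mul_apply_eq_comp] using this
  refine ⟨hmem, hr, by rw [hr, happ _ _ hg2], ?_, hU, fun t => ?_⟩
  · intro v
    -- the inverse is `g* J g* J`
    have hJ' : Tomita.J₀ M ξ (star g ξ) = star (star g) ξ := by rw [← hJ, h.J_J, star_star]
    have hinv : ∀ k, g (right M ξ g (star g (right M ξ (star g) k))) = k := fun k => by
      rw [Tomita.commute_apply (star_mem hg) hmem, happ _ _ hg2, right, right,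
        Tomita.Jconj_apply, Tomita.Jconj_apply, h.J_J, happ _ _ hg2, h.J_J]
    have hK := mem_K_apply h hg hJ
    have hK' := mem_K_apply h (star_mem hg) hJ'
    refine Submodule.eq_starProjection_of_mem_orthogonal (hK _ (Tomita.proj_mem v)) ?_
    intro k hk
    rw [← map_sub g, ← map_sub (right M ξ g), ← hinv k, Tomita.real_inner_def,
      ← Tomita.inner_star_left, happ _ _ hg1, ← Tomita.inner_star_left, star_right h,
      right, right, Tomita.Jconj_apply, Tomita.Jconj_apply, Tomita.Jconj_apply, h.J_J,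
      happ _ _ hg1, h.J_J]
    exact Submodule.sub_starProjection_mem_orthogonal v _ (hK' k hk)
  · ext v
    simp only [mul_apply_eq_comp, right, Tomita.Jconj_apply]
    rw [h.J_U, ← h.J_U t (g (Tomita.J₀ M ξ v))]
    congr 1
    simpa [mul_apply_eq_comp] using congrArg (fun T : H →L[ℂ] H => T (Tomita.J₀ M ξ v)) (hU t)

end Vale.Agent.P096.AT
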