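import Vale.Agent.P096.AT.CrossPhase
import Vale.Agent.P132.Tomita.Main
import Vale.Agent.P132.Tomita.Modular

/-!
# P096, algebras of every type: the algebra of the crossed product and its trace vector

`V t = Δ^{it} ⊗ e^{ita}`; the algebra is the commutant of `M' ⊗ 1` and all `V t`. The vector
`e^{a/2} (ξ ⊗ δ₀)` is tracial and separating on it.
-/

noncomputable section

namespace Vale.Agent.P096.AT.Cross

open scoped InnerProductSpace
open Filter Topology Complex
open Vale.Agent.P132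

universe u

variable {H : Type u} [NormedAddCommGroup H] [InnerProductSpace ℂ H] [CompleteSpace H]

omit [CompleteSpace H] in
lemma entry_const_mul (x : H →L[ℂ] H) (X : K H →L[ℂ] K H) (i j : ℤ) :
    entry (const x * X) i j = x * entry X i j :=
  entry_diag_mul (fun _ => le_rfl) X i j

omit [CompleteSpace H] in
lemma entry_mul_const (x : H →L[ℂ] H) (X : K H →L[ℂ] K H) (i j : ℤ) :
    entry (X * const x) i j = entry X i j * x :=
  entry_mul_diag (fun _ => le_rfl) X i j

/-- `Δ^{it} ⊗ e^{ita}`. -/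
def V (M : VonNeumannAlgebra H) (ξ : H) (g t : ℝ) : K H →L[ℂ] K H :=
  const (Tomita.U M ξ t) * ex g (I * (t : ℂ))

variable {M : VonNeumannAlgebra H} {ξ : H} {g : ℝ}

lemma V_zero (h : Tomita.CycSep M ξ) : V M ξ g 0 = 1 := by
  rw [V, h.U_zero, const_one, ofReal_zero, mul_zero, ex_zero, one_mul]

lemma V_add (h : Tomita.CycSep M ξ) (s t : ℝ) :
    V M ξ g (s + t) = V M ξ g s * V M ξ g t := by
  rw [V, h.U_add, const_mul, ofReal_add, mul_add, ex_add, V, V,
    mul_assoc (const (Tomita.U M ξ s)) (const (Tomita.U M ξ t)),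
    mul_assoc (const (Tomita.U M ξ s)) (ex g (I * (s : ℂ)))]
  congr 1
  rw [← mul_assoc, ← mul_assoc, const_comm_ex]

lemma star_V (h : Tomita.CycSep M ξ) (t : ℝ) : star (V M ξ g t) = V M ξ g (-t) := by
  rw [V, star_mul, ← const_star, h.star_U, star_ex, ← const_comm_ex, V]
  simp

lemma V_mem_unitary (h : Tomita.CycSep M ξ) (t : ℝ) :
    V M ξ g t ∈ unitary (K H →L[ℂ] K H) := by
  refine Unitary.mem_iff.2 ⟨?_, ?_⟩ <;> rw [star_V h, ← V_add h] <;> simp [V_zero h]

lemma norm_V_apply_le (h : Tomita.CycSep M ξ) (t : ℝ) (v : K H) : ‖V M ξ g t v‖ ≤ ‖v‖ := by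
  refine le_of_eq ?_
  exact ContinuousLinearMap.norm_map_of_mem_unitary (V_mem_unitary h t) v

lemma V_comm_ex (t : ℝ) (z : ℂ) : V M ξ g t * ex g z = ex g z * V M ξ g t := by
  rw [V, mul_assoc, ex_comm, ← mul_assoc, ← mul_assoc, const_comm_ex]

/-- The flow is strongly continuous. -/
lemma V_continuous (h : Tomita.CycSep M ξ) (v : K H) : Continuous fun t => V M ξ g t v := by
  have hU : ∀ w : K H, Continuous fun t => const (Tomita.U M ξ t) w := fun w => by
    refine continuous_iff_continuousAt.2 fun t₀ => ?_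
    rw [ContinuousAt, tendsto_iff_norm_sub_tendsto_zero]
    have hs : ∀ t, HasSum (fun j => ‖Tomita.U M ξ t (w j) - Tomita.U M ξ t₀ (w j)‖ ^ 2)
        (‖const (Tomita.U M ξ t) w - const (Tomita.U M ξ t₀) w‖ ^ 2) := fun t =>
      summable_sq (const (Tomita.U M ξ t) w - const (Tomita.U M ξ t₀) w)
    have hc : Continuous fun t => ‖const (Tomita.U M ξ t) w - const (Tomita.U M ξ t₀) w‖ ^ 2 := by
      simp_rw [← fun t => (hs t).tsum_eq]
      refine continuous_tsum (fun j => (((h.U_continuous (w j)).sub continuous_const).norm).pow 2)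
        ((summable_sq w).summable.mul_left 4) fun j t => ?_
      rw [Real.norm_of_nonneg (sq_nonneg _), show (4 : ℝ) * ‖w j‖ ^ 2 = (2 * ‖w j‖) ^ 2 by ring]
      refine pow_le_pow_left₀ (norm_nonneg _) ((norm_sub_le _ _).trans ?_) 2
      linarith [h.norm_U_le t (w j), h.norm_U_le t₀ (w j)]
    have hc0 := hc.tendsto t₀
    rw [sub_self, norm_zero, zero_pow two_ne_zero] at hc0
    simpa using hc0.sqrt
  refine continuous_iff_continuousAt.2 fun t₀ => ?_
  rw [ContinuousAt, tendsto_iff_norm_sub_tendsto_zero]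
  have he : Continuous fun t : ℝ => ex g (I * (t : ℂ)) v :=
    (ContinuousLinearMap.apply ℂ (K H) v).continuous.comp
      ((differentiable_ex (H := H) (g := g)).continuous.comp (by fun_prop))
  have h1 : Tendsto (fun t : ℝ => ‖ex g (I * (t : ℂ)) v - ex g (I * (t₀ : ℂ)) v‖ +
      ‖const (Tomita.U M ξ t) (ex g (I * (t₀ : ℂ)) v) -
        const (Tomita.U M ξ t₀) (ex g (I * (t₀ : ℂ)) v)‖) (𝓝 t₀) (𝓝 0) := by
    simpa using (tendsto_iff_norm_sub_tendsto_zero.1 (he.tendsto t₀)).add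
      (tendsto_iff_norm_sub_tendsto_zero.1 ((hU (ex g (I * (t₀ : ℂ)) v)).tendsto t₀))
  refine squeeze_zero (fun _ => norm_nonneg _) (fun t => ?_) h1
  simp only [V, mul_apply_eq_comp]
  refine (norm_sub_le_norm_sub_add_norm_sub _
    (const (Tomita.U M ξ t) (ex g (I * (t₀ : ℂ)) v)) _).trans (add_le_add ?_ le_rfl)
  rw [← map_sub]
  refine ((const (Tomita.U M ξ t)).le_of_opNorm_le (norm_diag_le fun _ => le_rfl) _).trans ?_
  refine (mul_le_mul_of_nonneg_right (ContinuousLinearMap.opNorm_le_bound _ zero_le_one fun w => ?_)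
    (norm_nonneg _)).trans_eq (one_mul _)
  simpa using h.norm_U_le t w

/-- At the grid `V` is the shift with the flow. -/
lemma entry_V_grid (hg : g ≠ 0) (m i j : ℤ) :
    entry (V M ξ g (m * g)) i j = if i = j + m then Tomita.U M ξ (m * g) else 0 := by
  rw [V, entry_const_mul, entry_ex_grid hg]
  by_cases h : i = j + m <;> simp [h]

lemma ex_grid_inj (hg : g ≠ 0) (m j : ℤ) (v : H) :
    ex g (I * ((m * g : ℝ) : ℂ)) (inj j v) = inj (j + m) v := by
  refine lp.ext (funext fun i => ?_)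
  have h1 := DFunLike.congr_fun (entry_ex_grid (H := H) hg m i j) v
  have h2 := coord_inj i (j + m) v
  simp only [coord_apply] at h2
  rw [h2]
  simp only [entry_apply, ← inj_apply] at h1
  rw [h1]
  by_cases h : i = j + m <;> simp [h]

lemma entry_ex_grid_mul (hg : g ≠ 0) (X : K H →L[ℂ] K H) (m i j : ℤ) :
    entry (ex g (I * ((m * g : ℝ) : ℂ)) * X) i j = entry X (i - m) j := by
  refine ContinuousLinearMap.ext fun v => ?_
  have h := hasSum_entry_mul (ex g (I * ((m * g : ℝ) : ℂ))) X i j v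
  refine (h.unique ?_)
  have h1 : ∀ l, entry (ex g (I * ((m * g : ℝ) : ℂ))) i l (entry X l j v) =
      if l = i - m then entry X l j v else 0 := fun l => by
    rw [entry_ex_grid hg]
    by_cases hl : l = i - m
    · simp [hl]
    · rw [if_neg (fun e => hl (by omega)), if_neg hl]; rfl
  simp_rw [h1]
  exact hasSum_ite_eq (i - m) (entry X (i - m) j v) |>.congr_fun fun l => by
    by_cases hl : l = i - m
    · subst hl; simp
    · simp [hl]

/-- The algebra of the crossed product. -/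
def alg (M : VonNeumannAlgebra H) (ξ : H) (g : ℝ) : VonNeumannAlgebra (K H) where
  toStarSubalgebra := StarSubalgebra.centralizer ℂ
    (const '' (M.commutant : Set (H →L[ℂ] H)) ∪ Set.range (V M ξ g))
  centralizer_centralizer' := by
    change Set.centralizer (Set.centralizer (StarSubalgebra.centralizer ℂ
      (const '' (M.commutant : Set (H →L[ℂ] H)) ∪ Set.range (V M ξ g)) :
        Set (K H →L[ℂ] K H))) = _
    rw [StarSubalgebra.coe_centralizer, Set.centralizer_centralizer_centralizer]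
    rfl

lemma mem_alg (h : Tomita.CycSep M ξ) {X : K H →L[ℂ] K H} :
    X ∈ alg M ξ g ↔ (∀ y ∈ M.commutant, const y * X = X * const y) ∧
      ∀ t, V M ξ g t * X = X * V M ξ g t := by
  change X ∈ StarSubalgebra.centralizer ℂ _ ↔ _
  rw [StarSubalgebra.mem_centralizer_iff]
  constructor
  · exact fun hX => ⟨fun y hy => (hX _ (Or.inl ⟨y, hy, rfl⟩)).1,
      fun t => (hX _ (Or.inr ⟨t, rfl⟩)).1⟩
  · rintro ⟨h1, h2⟩ Y (⟨y, hy, rfl⟩ | ⟨t, rfl⟩)
    · exact ⟨h1 y hy, by rw [← const_star]; exact h1 _ (star_mem hy)⟩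
    · exact ⟨h2 t, by rw [star_V h]; exact h2 _⟩

/-- The entries lie in `M`. -/
lemma entry_mem (h : Tomita.CycSep M ξ) {X : K H →L[ℂ] K H} (hX : X ∈ alg M ξ g) (i j : ℤ) :
    entry X i j ∈ M := by
  rw [← M.commutant_commutant, VonNeumannAlgebra.mem_commutant_iff]
  exact fun y hy => (commute_const_iff y X).1 (((mem_alg h).1 hX).1 y hy) i j

lemma ex_mem (h : Tomita.CycSep M ξ) (z : ℂ) : ex g z ∈ alg M ξ g :=
  (mem_alg h).2 ⟨fun y _ => const_comm_ex y z, fun t => V_comm_ex t z⟩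

/-- An element of `M` fixed by the flow is in the algebra. -/
lemma const_mem (h : Tomita.CycSep M ξ) {x : H →L[ℂ] H} (hx : x ∈ M)
    (hU : ∀ t, x * Tomita.U M ξ t = Tomita.U M ξ t * x) : const x ∈ alg M ξ g := by
  refine (mem_alg h).2 ⟨fun y hy => ?_, fun t => ?_⟩
  · rw [← const_mul, ← const_mul, (VonNeumannAlgebra.mem_commutant_iff.1 hy x hx).symm]
  · rw [V, mul_assoc, ← const_comm_ex, ← mul_assoc, ← const_mul, ← hU, const_mul, mul_assoc]

/-- Conjugation by the phase is the flow on the entries. -/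
lemma conj_ex_eq (h : Tomita.CycSep M ξ) {X : K H →L[ℂ] K H} (hX : X ∈ alg M ξ g) (t : ℝ) :
    ex g (-(I * (t : ℂ))) * X * ex g (I * (t : ℂ)) =
      const (Tomita.U M ξ t) * X * const (Tomita.U M ξ (-t)) := by
  have h1 : ex g (-(I * (t : ℂ))) * X =
      const (Tomita.U M ξ t) * (X * (const (Tomita.U M ξ (-t)) * ex g (-(I * (t : ℂ))))) := by
    have h2 := ((mem_alg h).1 hX).2 (-t)
    simp only [V, ofReal_neg, mul_neg] at h2
    rw [← h2, ← mul_assoc, ← mul_assoc, ← const_mul, ← h.U_add, add_neg_cancel, h.U_zero,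
      const_one, one_mul]
  rw [h1, mul_assoc, mul_assoc, mul_assoc, ← ex_add, neg_add_cancel, ex_zero, mul_one]
  rw [mul_assoc]

lemma entry_conj_ex (h : Tomita.CycSep M ξ) {X : K H →L[ℂ] K H} (hX : X ∈ alg M ξ g) (t : ℝ)
    (i j : ℤ) : entry (ex g (-(I * (t : ℂ))) * X * ex g (I * (t : ℂ))) i j =
      Tomita.U M ξ t * entry X i j * Tomita.U M ξ (-t) := by
  rw [conj_ex_eq h hX, entry_mul_const, entry_const_mul]

/-- Covariance of the entries. -/
lemma entry_cov (h : Tomita.CycSep M ξ) (hg : g ≠ 0) {X : K H →L[ℂ] K H} (hX : X ∈ alg M ξ g)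
    (m i j : ℤ) : entry X (i + m) (j + m) =
      Tomita.U M ξ (m * g) * entry X i j * Tomita.U M ξ (-(m * g)) := by
  rw [← entry_conj_ex h hX]
  refine ContinuousLinearMap.ext fun v => ?_
  have e : -(I * ((m * g : ℝ) : ℂ)) = I * (((-m : ℤ) * g : ℝ) : ℂ) := by push_cast; ring
  rw [e, mul_assoc, entry_ex_grid_mul hg, sub_neg_eq_add]
  show entry X (i + m) (j + m) v = (X (ex g (I * ((m * g : ℝ) : ℂ)) (inj j v))) (i + m)
  rw [ex_grid_inj hg]
  rfl

/-- The vector `e^{a/2} (ξ ⊗ δ₀)`. -/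
def eta (g : ℝ) (ξ : H) : K H := ex g (1 / 2) (inj 0 ξ)

lemma norm_U_apply (h : Tomita.CycSep M ξ) (t : ℝ) (v : H) : ‖Tomita.U M ξ t v‖ = ‖v‖ := by
  refine le_antisymm (h.norm_U_le t v) ?_
  have h1 := h.norm_U_le (-t) (Tomita.U M ξ t v)
  rwa [h.U_neg_apply] at h1

/-- `ξ ⊗ δ₀` separates the algebra. -/
lemma eq_zero_of_apply_inj (h : Tomita.CycSep M ξ) (hg : g ≠ 0) {X : K H →L[ℂ] K H}
    (hX : X ∈ alg M ξ g) (h0 : X (inj 0 ξ) = 0) : X = 0 := by
  have hcol : ∀ k, entry X k 0 = 0 := fun k => h.separating _ (entry_mem h hX k 0) (by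
    show (X (inj 0 ξ)) k = 0
    rw [h0]; rfl)
  refine ext_entry fun i j => ?_
  have := entry_cov h hg hX j (i - j) 0
  rw [sub_add_cancel, zero_add, hcol, mul_zero, zero_mul] at this
  rw [this]
  exact ContinuousLinearMap.ext fun _ => rfl

/-- The vector separates the algebra. -/
lemma eq_zero_of_apply_eta (h : Tomita.CycSep M ξ) (hg : g ≠ 0) {X : K H →L[ℂ] K H}
    (hX : X ∈ alg M ξ g) (h0 : X (eta g ξ) = 0) : X = 0 := by
  have h1 := eq_zero_of_apply_inj h hg (mul_mem hX (ex_mem h (1 / 2))) h0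
  calc X = X * ex g (1 / 2) * ex g (-(1 / 2)) := by
        rw [mul_assoc, ← ex_add, add_neg_cancel, ex_zero, mul_one]
    _ = 0 := by rw [h1, zero_mul]

lemma eta_ne_zero (h : Tomita.CycSep M ξ) (hg : g ≠ 0) : eta g ξ ≠ 0 := by
  intro h0
  have h1 := eq_zero_of_apply_eta h hg (one_mem (alg M ξ g)) (by simpa using h0)
  have h2 : (inj 0 ξ : K H) 0 = 0 := by
    rw [show (inj 0 ξ : K H) = (1 : K H →L[ℂ] K H) (inj 0 ξ) from rfl, h1]; rfl
  rw [show (inj 0 ξ : K H) 0 = ξ by simp] at h2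
  have := h.norm_one
  rw [h2, norm_zero] at this
  exact zero_ne_one this

/-- A column of `X η` has the norms of a row of `e^{a/2} X`. -/
lemma norm_eta_apply (h : Tomita.CycSep M ξ) (hg : g ≠ 0) {X : K H →L[ℂ] K H}
    (hX : X ∈ alg M ξ g) (k : ℤ) : ‖X (eta g ξ) k‖ = ‖star X (eta g ξ) (-k)‖ := by
  set B := ex g (1 / 2) * X
  have hB : B ∈ alg M ξ g := mul_mem (ex_mem h _) hX
  set v : ℂ → H := fun z => coord k (ex g (-(I * z)) (B (ex g (I * z) (inj 0 ξ))))
  have hv : Differentiable ℂ v := by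
    have h1 : Differentiable ℂ fun z => ex g (I * z) (inj 0 ξ) :=
      ((differentiable_ex (H := H) (g := g)).comp (differentiable_id.const_mul I)).clm_apply
        (differentiable_const _)
    have h2 : Differentiable ℂ fun z : ℂ => (ex g (-(I * z)) : K H →L[ℂ] K H) :=
      (differentiable_ex (H := H) (g := g)).comp (differentiable_id.const_mul I).neg
    exact (coord k).differentiable.comp (h2.clm_apply (B.differentiable.comp h1))
  have he : ∀ t : ℝ, v t = Tomita.U M ξ t (entry B k 0 ξ) := fun t => by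
    show entry (ex g (-(I * (t : ℂ))) * B * ex g (I * (t : ℂ))) k 0 ξ = _
    rw [entry_conj_ex h hB, mul_apply_eq_comp, mul_apply_eq_comp, h.U_omega]
  have hhalf := h.J_half (entry_mem h hB k 0) hv he
  have e1 : v (-(I / 2)) = X (eta g ξ) k := by
    show coord k (ex g (-(I * -(I / 2))) (B (ex g (I * -(I / 2)) (inj 0 ξ)))) = _
    rw [show I * -(I / 2) = (1 / 2 : ℂ) by rw [mul_neg, ← mul_div_assoc, I_mul_I]; ring]
    show coord k ((ex g (-(1 / 2)) * (ex g (1 / 2) * X) : K H →L[ℂ] K H) (eta g ξ)) = _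
    rw [← mul_assoc, ← ex_add, neg_add_cancel, ex_zero, one_mul]
    rfl
  rw [← e1, ← h.norm_J, hhalf, ← entry_star]
  have hc := entry_cov h hg (star_mem hB) k (-k) 0
  rw [neg_add_cancel, zero_add] at hc
  rw [hc, mul_apply_eq_comp, mul_apply_eq_comp, h.U_omega, norm_U_apply h]
  simp only [B, star_mul, star_ex, map_div₀, map_one, map_ofNat]
  rfl

/-- The vector is tracial. -/
theorem norm_eta (h : Tomita.CycSep M ξ) (hg : g ≠ 0) {X : K H →L[ℂ] K H}
    (hX : X ∈ alg M ξ g) : ‖X (eta g ξ)‖ = ‖star X (eta g ξ)‖ := by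
  refine (sq_eq_sq₀ (norm_nonneg _) (norm_nonneg _)).1 ?_
  refine (summable_sq (X (eta g ξ))).unique ?_
  simp_rw [norm_eta_apply h hg hX]
  exact (Equiv.neg ℤ).hasSum_iff.2 (summable_sq (star X (eta g ξ)))

/-- The trace property in inner product form. -/
theorem inner_eta (h : Tomita.CycSep M ξ) (hg : g ≠ 0) {X Y : K H →L[ℂ] K H}
    (hX : X ∈ alg M ξ g) (hY : Y ∈ alg M ξ g) :
    ⟪X (eta g ξ), Y (eta g ξ)⟫_ℂ = ⟪star Y (eta g ξ), star X (eta g ξ)⟫_ℂ := by
  have h1 : ∀ c : ℂ, ‖X (eta g ξ) + c • Y (eta g ξ)‖ =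
      ‖star X (eta g ξ) + starRingEnd ℂ c • star Y (eta g ξ)‖ := fun c => by
    have := norm_eta h hg (add_mem hX ((alg M ξ g).toStarSubalgebra.toSubalgebra.smul_mem hY c))
    rw [star_add, star_smul] at this
    simpa using this
  set a := X (eta g ξ)
  set b := Y (eta g ξ)
  set a' := star X (eta g ξ)
  set b' := star Y (eta g ξ)
  have p1 : ‖a + b‖ = ‖b' + a'‖ := by simpa [add_comm a'] using h1 1
  have p2 : ‖a - b‖ = ‖b' - a'‖ := by
    rw [norm_sub_rev b']; simpa [sub_eq_add_neg] using h1 (-1)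
  have p3 : ‖a - I • b‖ = ‖b' - I • a'‖ := by
    have h2 : ‖a + (-I) • b‖ = ‖a' + I • b'‖ := by simpa using h1 (-I)
    have h3 : b' - I • a' = (-I) • (a' + I • b') := by
      rw [smul_add, smul_smul, neg_mul, I_mul_I, neg_neg, one_smul, neg_smul]; abel
    rw [h3, norm_smul, norm_neg, norm_I, one_mul, ← h2, neg_smul, sub_eq_add_neg]
  have p4 : ‖a + I • b‖ = ‖b' + I • a'‖ := by
    have h2 : ‖a + I • b‖ = ‖a' + (-I) • b'‖ := by simpa using h1 I
    have h3 : b' + I • a' = I • (a' + (-I) • b') := by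
      rw [smul_add, smul_smul, mul_neg, I_mul_I, neg_neg, one_smul]; abel
    rw [h3, norm_smul, norm_I, one_mul, ← h2]
  rw [inner_eq_sum_norm_sq_div_four, inner_eq_sum_norm_sq_div_four]
  simp only [RCLike.I_to_complex, p1, p2, p3, p4]

end Vale.Agent.P096.AT.Cross
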