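import Vale.Agent.P096.KK.WeakLim

/-!
# P096, algebras of every type: the mean over a one-parameter group of unitaries

Finite averages over the semigroup generated by finitely many parameters, followed by a weak limit
along an ultrafilter. The limit is linear, commutes with the group, and every bound on the orbit
passes to it.
-/

noncomputable section

namespace Vale.Agent.P096.AT.Cross

open scoped InnerProductSpace Topology
open Filter
open Vale.Agent.P096.KK (WLim exists_wLim)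

variable {K : Type*} [NormedAddCommGroup K] [InnerProductSpace ℂ K] [CompleteSpace K]

/-- A weak limit of a bounded family of operators. -/
lemma exists_opLim {α : Type*} (l : Ultrafilter α) (T : α → (K →L[ℂ] K)) {C : ℝ}
    (h : ∀ j, ‖T j‖ ≤ C) :
    ∃ S : K →L[ℂ] K, ‖S‖ ≤ C ∧ ∀ v, WLim l (fun j => T j v) (S v) := by
  have hb : ∀ v j, ‖T j v‖ ≤ C * ‖v‖ := fun v j => (T j).le_of_opNorm_le (h j) v
  choose s hs using fun v => exists_wLim l (fun j => T j v) (hb v)
  let f : K →ₗ[ℂ] K :=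
    { toFun := s
      map_add' := fun v w => (hs (v + w)).unique (by simpa using (hs v).add (hs w))
      map_smul' := fun c v => (hs (c • v)).unique (by simpa using (hs v).smul c) }
  have hC : 0 ≤ C := by
    obtain ⟨j, -⟩ := l.nonempty_of_mem (univ_mem (f := (l : Filter α)))
    exact (norm_nonneg _).trans (h j)
  exact ⟨f.mkContinuous C fun v => (hs v).norm_le (Eventually.of_forall (hb v)),
    LinearMap.mkContinuous_norm_le _ hC _, hs⟩

/-- Conjugation by the group. -/
def conjBy (V : ℝ → (K →L[ℂ] K)) (t : ℝ) (X : K →L[ℂ] K) : K →L[ℂ] K := V t * X * V (-t)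

/-- A combination of the parameters in `T`. -/
def param {T : Finset ℝ} {L : ℕ} (n : T → Fin (L + 1)) : ℝ :=
  ∑ t : T, ((n t : ℕ) : ℝ) * (t : ℝ)

/-- The average over the combinations of parameters. -/
def flowAvg (V : ℝ → (K →L[ℂ] K)) (p : Finset ℝ × ℕ) (X : K →L[ℂ] K) : K →L[ℂ] K :=
  ((Fintype.card (p.1 → Fin (p.2 + 1)) : ℂ))⁻¹ •
    ∑ n : p.1 → Fin (p.2 + 1), conjBy V (param n) X

/-- A one-parameter group of unitaries. -/
structure IsFlow (V : ℝ → (K →L[ℂ] K)) : Prop where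
  zero : V 0 = 1
  add : ∀ s t, V (s + t) = V s * V t
  star_eq : ∀ t, star (V t) = V (-t)

variable {V : ℝ → (K →L[ℂ] K)}

namespace IsFlow

variable (hV : IsFlow V)

include hV

lemma inv_mul (t : ℝ) : V (-t) * V t = 1 := by rw [← hV.add, neg_add_cancel, hV.zero]

lemma mul_inv (t : ℝ) : V t * V (-t) = 1 := by rw [← hV.add, add_neg_cancel, hV.zero]

lemma norm_le_one (t : ℝ) : ‖V t‖ ≤ 1 := by
  have h := CStarRing.norm_star_mul_self (x := V t)
  rw [hV.star_eq, hV.inv_mul] at h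
  have h1 : ‖V t‖ * ‖V t‖ ≤ 1 := h ▸ ContinuousLinearMap.norm_id_le
  nlinarith [norm_nonneg (V t)]

lemma norm_conjBy_le (t : ℝ) (X : K →L[ℂ] K) : ‖conjBy V t X‖ ≤ ‖X‖ :=
  ((norm_mul_le _ _).trans (mul_le_of_le_one_right (norm_nonneg _) (hV.norm_le_one _))).trans
    ((norm_mul_le _ _).trans (mul_le_of_le_one_left (norm_nonneg _) (hV.norm_le_one _)))

lemma conjBy_conjBy (s t : ℝ) (X : K →L[ℂ] K) :
    conjBy V s (conjBy V t X) = conjBy V (s + t) X := by
  simp only [conjBy]
  rw [neg_add_rev, hV.add, hV.add]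
  simp only [mul_assoc]

/-- The averages are nearly invariant under the parameters they use. -/
lemma norm_conjBy_flowAvg_sub_le {p : Finset ℝ × ℕ} {s : ℝ} (hs : s ∈ p.1) (X : K →L[ℂ] K) :
    ‖conjBy V s (flowAvg V p X) - flowAvg V p X‖ ≤ 2 * ‖X‖ / (p.2 + 1) := by
  classical
  obtain ⟨T, L⟩ := p
  simp only at hs
  set s₀ : T := ⟨s, hs⟩
  set R := {t : T // t ≠ s₀} → Fin (L + 1)
  set e := Equiv.funSplitAt s₀ (Fin (L + 1))
  set F : R → ℕ → (K →L[ℂ] K) :=
    fun r k => conjBy V ((k : ℝ) * s + ∑ t : {t : T // t ≠ s₀}, ((r t : ℕ) : ℝ) * (t : ℝ)) X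
  have hF : ∀ n : T → Fin (L + 1), conjBy V (param n) X = F (e n).2 ((e n).1 : ℕ) ∧
      conjBy V s (conjBy V (param n) X) = F (e n).2 (((e n).1 : ℕ) + 1) := by
    intro n
    have hp : param n = ((n s₀ : ℕ) : ℝ) * s +
        ∑ t : {t : T // t ≠ s₀}, ((n t : ℕ) : ℝ) * (t : ℝ) :=
      Fintype.sum_eq_add_sum_subtype_ne (fun t : T => ((n t : ℕ) : ℝ) * (t : ℝ)) s₀
    refine ⟨by rw [hp]; rfl, ?_⟩
    rw [hV.conjBy_conjBy, hp]
    simp only [F, e, Equiv.funSplitAt_apply, Nat.cast_add, Nat.cast_one]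
    congr 1
    ring
  have hsum : ∀ k : ℕ → ℕ,
      ∑ n : T → Fin (L + 1), F (e n).2 (k ((e n).1 : ℕ)) =
        ∑ r : R, ∑ j ∈ Finset.range (L + 1), F r (k j) := fun k => by
    rw [e.sum_comp (fun q : Fin (L + 1) × R => F q.2 (k (q.1 : ℕ))), Fintype.sum_prod_type,
      Finset.sum_comm]
    exact Finset.sum_congr rfl fun r _ => Fin.sum_univ_eq_sum_range (fun j => F r (k j)) _
  have hlin : conjBy V s (flowAvg V (T, L) X) = ((Fintype.card (T → Fin (L + 1)) : ℂ))⁻¹ •
      ∑ n : T → Fin (L + 1), conjBy V s (conjBy V (param n) X) := by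
    simp only [flowAvg, conjBy, mul_smul_comm, smul_mul_assoc, Finset.mul_sum, Finset.sum_mul]
  have hcard : Fintype.card (T → Fin (L + 1)) = (L + 1) * Fintype.card R := by
    rw [Fintype.card_congr e, Fintype.card_prod, Fintype.card_fin]
  rw [hlin, flowAvg, ← smul_sub]
  simp only [(hF _).2]
  simp only [(hF _).1]
  rw [hsum (fun j => j + 1), hsum (fun j => j), ← Finset.sum_sub_distrib, norm_smul, norm_inv,
    Complex.norm_natCast, hcard, inv_mul_le_iff₀ (by
      have : 0 < Fintype.card R := Fintype.card_pos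
      positivity)]
  refine (norm_sum_le _ _).trans ((Finset.sum_le_card_nsmul _ _ (2 * ‖X‖) fun r _ => ?_).trans
    (le_of_eq ?_))
  · rw [← Finset.sum_sub_distrib]
    rw [Finset.sum_range_sub (F r)]
    have h1 := hV.norm_conjBy_le ((L + 1 : ℕ) * s +
      ∑ t : {t : T // t ≠ s₀}, ((r t : ℕ) : ℝ) * (t : ℝ)) X
    have h2 := hV.norm_conjBy_le (((0 : ℕ) : ℝ) * s +
      ∑ t : {t : T // t ≠ s₀}, ((r t : ℕ) : ℝ) * (t : ℝ)) X
    refine (norm_sub_le _ _).trans ?_
    simp only [F] at h1 h2 ⊢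
    linarith
  · rw [nsmul_eq_mul, Finset.card_univ]
    push_cast
    field_simp

omit [CompleteSpace K] hV in
lemma norm_flowAvg_bound {Y : Type*} [NormedAddCommGroup Y] [InnerProductSpace ℂ Y]
    (X : K →L[ℂ] K) (A : K →L[ℂ] Y) (v : K) (w : Y) {r : ℝ}
    (h : ∀ t, ‖A (conjBy V t X v) - w‖ ≤ r) (p : Finset ℝ × ℕ) :
    ‖A (flowAvg V p X v) - w‖ ≤ r := by
  set c : ℕ := Fintype.card (p.1 → Fin (p.2 + 1))
  have hc : (c : ℂ) ≠ 0 := Nat.cast_ne_zero.2 Fintype.card_pos.ne'
  have e : A (flowAvg V p X v) - w =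
      (c : ℂ)⁻¹ • ∑ n : p.1 → Fin (p.2 + 1), (A (conjBy V (param n) X v) - w) := by
    rw [Finset.sum_sub_distrib, Finset.sum_const, Finset.card_univ, smul_sub, ← Nat.cast_smul_eq_nsmul ℂ,
      smul_smul, inv_mul_cancel₀ hc, one_smul]
    simp [flowAvg, c, map_sum]
  rw [e, norm_smul, norm_inv, Complex.norm_natCast,
    inv_mul_le_iff₀ (by exact_mod_cast (Fintype.card_pos : 0 < c))]
  refine (norm_sum_le _ _).trans ((Finset.sum_le_card_nsmul _ _ r fun n _ => h _).trans ?_)
  rw [nsmul_eq_mul, Finset.card_univ]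

lemma norm_flowAvg_le (p : Finset ℝ × ℕ) (X : K →L[ℂ] K) : ‖flowAvg V p X‖ ≤ ‖X‖ :=
  ContinuousLinearMap.opNorm_le_bound _ (norm_nonneg X) fun v => by
    have := norm_flowAvg_bound X (ContinuousLinearMap.id ℂ K) v 0 (r := ‖X‖ * ‖v‖)
      (fun t => by simpa using (conjBy V t X).le_of_opNorm_le (hV.norm_conjBy_le t X) v) p
    simpa using this

/-- The mean over the group. -/
theorem exists_mean : ∃ E : (K →L[ℂ] K) →ₗ[ℂ] (K →L[ℂ] K),
    (∀ X t, V t * E X = E X * V t) ∧ (∀ X, ‖E X‖ ≤ ‖X‖) ∧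
    (∀ X B, (∀ t, B * conjBy V t X = conjBy V t X * B) → B * E X = E X * B) ∧
    ∀ (Y : Type u_1) [NormedAddCommGroup Y] [InnerProductSpace ℂ Y] [CompleteSpace Y]
      (X : K →L[ℂ] K) (A : K →L[ℂ] Y) (v : K) (w : Y) (r : ℝ),
      (∀ t, ‖A (conjBy V t X v) - w‖ ≤ r) → ‖A (E X v) - w‖ ≤ r := by
  classical
  set l : Ultrafilter (Finset ℝ × ℕ) := Ultrafilter.of atTop
  have hl : (l : Filter (Finset ℝ × ℕ)) ≤ atTop := Ultrafilter.of_le _
  choose S hS1 hS using fun X => exists_opLim l (fun p => flowAvg V p X)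
    (fun p => hV.norm_flowAvg_le p X)
  let E : (K →L[ℂ] K) →ₗ[ℂ] (K →L[ℂ] K) :=
    { toFun := S
      map_add' := fun X Y => ContinuousLinearMap.ext fun v => (hS (X + Y) v).unique (by
        have := (hS X v).add (hS Y v)
        simpa [flowAvg, conjBy, mul_add, add_mul, Finset.sum_add_distrib] using this)
      map_smul' := fun c X => ContinuousLinearMap.ext fun v => (hS (c • X) v).unique (by
        have := (hS X v).smul c
        simpa [flowAvg, conjBy, ← Finset.smul_sum, smul_smul, mul_comm c] using this) }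
  refine ⟨E, fun X s => ?_, hS1, fun X B hB => ?_, fun Y _ _ _ X A v w r h => ?_⟩
  · refine ContinuousLinearMap.ext fun v => ?_
    show V s (S X v) = S X (V s v)
    have h1 := ((hS X v).map (V s)).sub (hS X (V s v))
    refine sub_eq_zero.1 (norm_eq_zero.1 (le_antisymm ?_ (norm_nonneg _)))
    refine le_of_forall_pos_le_add fun ε hε => ?_
    rw [zero_add]
    refine h1.norm_le (hl ?_)
    obtain ⟨m, hm⟩ := exists_nat_gt (2 * ‖X‖ * ‖V s v‖ / ε)
    filter_upwards [eventually_ge_atTop (({s} : Finset ℝ), m)] with p hp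
    have hd : (0 : ℝ) < p.2 + 1 := by positivity
    have e : V s (flowAvg V p X v) - flowAvg V p X (V s v) =
        (conjBy V s (flowAvg V p X) - flowAvg V p X) (V s v) := by
      have h2 : V (-s) (V s v) = v := by rw [← mul_apply_eq_comp, hV.inv_mul]; rfl
      simp [conjBy, h2]
    rw [e]
    refine (ContinuousLinearMap.le_of_opNorm_le _
      (hV.norm_conjBy_flowAvg_sub_le (hp.1 (Finset.mem_singleton_self s)) X) _).trans ?_
    rw [div_mul_eq_mul_div, div_le_iff₀ hd]
    rw [div_lt_iff₀ hε] at hm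
    have : (m : ℝ) ≤ p.2 := by exact_mod_cast hp.2
    nlinarith
  · refine ContinuousLinearMap.ext fun v => ?_
    show B (S X v) = S X (B v)
    refine ((hS X v).map B).unique ((hS X (B v)).congr (Eventually.of_forall fun p => ?_))
    have := DFunLike.congr_fun (show B * flowAvg V p X = flowAvg V p X * B by
      simp only [flowAvg, mul_smul_comm, smul_mul_assoc, Finset.mul_sum, Finset.sum_mul, hB]) v
    exact this.symm
  · exact (((hS X v).map A).sub (WLim.const w)).norm_le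
      (Eventually.of_forall fun p => norm_flowAvg_bound X A v w h p)

end IsFlow

end Vale.Agent.P096.AT.Cross
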