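import Vale.Agent.P096.AT.Setting
import Vale.Agent.P096.AT.CrossFlow
import Vale.Agent.P096.AT.CrossMean
import Vale.Agent.P096.KK.ReduceFinite

/-!
# P096, algebras of every type: the finite algebras of the crossed product

`alg M ξ g` is the commutant of `M' ⊗ 1` and of `V M ξ g t = Δ^{it} ⊗ e^{ita}`, `a` the
bounded phase divided by `g`. The vector `e^{a/2} (ξ ⊗ δ₀)` gives a faithful normal trace on it,
large matrix units in the double commutant of a gauge give that it has no abelian projection, and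
near algebras with near modular flows give near finite algebras.
-/

noncomputable section

namespace Vale.Agent.P096.AT.Cross

open scoped InnerProductSpace Topology
open Filter
open Vale.Agent.P132
open Vale.Agent.P085 (IsNormalTrace vecState)
open Vale.Agent.P096.KK (WLim)
open Vale.Agent.P104.Sim (MatContraction)

universe u

variable {H : Type u} [NormedAddCommGroup H] [InnerProductSpace ℂ H] [CompleteSpace H]
variable {M N : VonNeumannAlgebra H} {ξ : H} {g : ℝ}

/-! ## Diagonals and the grid -/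

omit [CompleteSpace H] in
lemma const_inj (x : H →L[ℂ] H) (j : ℤ) (h : H) : const x (inj j h) = inj j (x h) := by
  refine lp.ext (funext fun l => ?_)
  rw [const_apply]
  simp only [inj_apply, lp.single_apply]
  by_cases hl : l = j
  · subst hl; simp
  · simp [hl]

omit [CompleteSpace H] in
lemma const_add (x y : H →L[ℂ] H) : const (x + y) = const x + const y :=
  ContinuousLinearMap.ext fun _ => lp.ext (funext fun _ => rfl)

omit [CompleteSpace H] in
lemma norm_const_le (x : H →L[ℂ] H) : ‖const x‖ ≤ ‖x‖ := norm_diag_le fun _ => le_rfl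

/-! ## The flow -/

lemma isFlow (h : Tomita.CycSep M ξ) (g : ℝ) : IsFlow (V M ξ g) :=
  ⟨V_zero h, V_add h, star_V h⟩

lemma conjBy_V_const (y : H →L[ℂ] H) (t : ℝ) :
    conjBy (V M ξ g) t (const y) = const (Tomita.U M ξ t * y * Tomita.U M ξ (-t)) := by
  simp only [conjBy, V]
  rw [const_mul, const_mul]
  calc const (Tomita.U M ξ t) * ex g (Complex.I * (t : ℂ)) * const y *
        (const (Tomita.U M ξ (-t)) * ex g (Complex.I * ((-t : ℝ) : ℂ)))
      = const (Tomita.U M ξ t) * (ex g (Complex.I * (t : ℂ)) * const y) *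
        const (Tomita.U M ξ (-t)) * ex g (Complex.I * ((-t : ℝ) : ℂ)) := by
        simp only [mul_assoc]
    _ = const (Tomita.U M ξ t) * const y * (ex g (Complex.I * (t : ℂ)) *
        const (Tomita.U M ξ (-t))) * ex g (Complex.I * ((-t : ℝ) : ℂ)) := by
        rw [← const_comm_ex y]; simp only [mul_assoc]
    _ = _ := by
        rw [← const_comm_ex]
        simp only [mul_assoc, ← ex_add]
        simp [ex_zero]

lemma sigma_mem_commutant (h : Tomita.CycSep M ξ) (t : ℝ) {y : H →L[ℂ] H}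
    (hy : y ∈ M.commutant) :
    Tomita.U M ξ t * y * Tomita.U M ξ (-t) ∈ M.commutant := by
  rw [VonNeumannAlgebra.mem_commutant_iff]
  intro a ha
  have h1 := h.sigma_mem (-t) ha
  rw [neg_neg] at h1
  have e := (VonNeumannAlgebra.mem_commutant_iff.1 hy) _ h1
  have i1 : Tomita.U M ξ t * Tomita.U M ξ (-t) = 1 := by rw [← h.U_add, add_neg_cancel, h.U_zero]
  calc a * (Tomita.U M ξ t * y * Tomita.U M ξ (-t))
      = Tomita.U M ξ t * (Tomita.U M ξ (-t) * a * Tomita.U M ξ t * y) * Tomita.U M ξ (-t) := by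
        simp only [← mul_assoc, i1, one_mul]
    _ = Tomita.U M ξ t * (y * (Tomita.U M ξ (-t) * a * Tomita.U M ξ t)) * Tomita.U M ξ (-t) := by
        rw [e]
    _ = Tomita.U M ξ t * y * Tomita.U M ξ (-t) * a := by
        simp only [mul_assoc, i1, mul_one]

/-! ## The algebra -/

/-- `X` commutes with `M' ⊗ 1`. -/
def CommConst (M : VonNeumannAlgebra H) (X : K H →L[ℂ] K H) : Prop :=
  ∀ y ∈ M.commutant, const y * X = X * const y

lemma conjBy_eq_self (h : Tomita.CycSep M ξ) {X : K H →L[ℂ] K H} (hX : X ∈ alg M ξ g)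
    (t : ℝ) : conjBy (V M ξ g) t X = X := by
  rw [conjBy, ((mem_alg h).1 hX).2 t, mul_assoc, (isFlow h g).mul_inv, mul_one]

lemma CommConst.conjBy (h : Tomita.CycSep M ξ) {X : K H →L[ℂ] K H} (hX : CommConst M X) (t : ℝ) :
    CommConst M (conjBy (V M ξ g) t X) := by
  intro y hy
  set W := V M ξ g
  have hV := isFlow h g
  have hs := hX _ (sigma_mem_commutant h (-t) hy)
  rw [← conjBy_V_const (g := g) (M := M) (ξ := ξ) y (-t)] at hs
  simp only [Cross.conjBy, neg_neg] at hs ⊢
  calc const y * (W t * X * W (-t))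
      = W t * (W (-t) * const y * W t * X) * W (-t) := by
        simp only [← mul_assoc, W, hV.mul_inv, one_mul]
    _ = W t * (X * (W (-t) * const y * W t)) * W (-t) := by rw [hs]
    _ = W t * X * W (-t) * const y := by
        simp only [mul_assoc, W, hV.mul_inv, mul_one]

lemma CommConst.entry_mem {X : K H →L[ℂ] K H} (hX : CommConst M X) (i j : ℤ) :
    entry X i j ∈ M := by
  rw [← M.commutant_commutant, VonNeumannAlgebra.mem_commutant_iff]
  exact fun y hy => (commute_const_iff y X).1 (hX y hy) i j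

/-- The mean lands in the algebra. -/
lemma mean_mem (h : Tomita.CycSep M ξ) {E : (K H →L[ℂ] K H) → (K H →L[ℂ] K H)}
    (hEf : ∀ X t, V M ξ g t * E X = E X * V M ξ g t)
    (hEc : ∀ X B, (∀ t, B * conjBy (V M ξ g) t X = conjBy (V M ξ g) t X * B) → B * E X = E X * B)
    {X : K H →L[ℂ] K H} (hX : CommConst M X) : E X ∈ alg M ξ g :=
  (mem_alg h).2 ⟨fun y hy => hEc X _ fun t => hX.conjBy h t y hy, hEf X⟩

/-! ## The trace -/

/-- The normalised vector, as a sequence. -/
def traceSeq (ξ : H) (g : ℝ) (n : ℕ) : K H :=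
  if n = 0 then ((‖eta g ξ‖⁻¹ : ℝ) : ℂ) • eta g ξ else 0

lemma vecState_traceSeq (a : K H →L[ℂ] K H) :
    vecState (traceSeq ξ g) a =
      ((‖eta g ξ‖⁻¹ ^ 2 : ℝ) : ℂ) * ⟪eta g ξ, a (eta g ξ)⟫_ℂ := by
  rw [vecState, tsum_eq_single 0 fun n hn => by simp [traceSeq, hn]]
  simp only [traceSeq, if_true, map_smul, inner_smul_left, inner_smul_right, Complex.conj_ofReal]
  push_cast
  ring

/-- The faithful normal trace of the finite algebra. -/
theorem isNormalTrace (h : Tomita.CycSep M ξ) (hg : g ≠ 0) :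
    IsNormalTrace (alg M ξ g) (traceSeq ξ g) := by
  have hη : ‖eta g ξ‖ ≠ 0 := norm_ne_zero_iff.2 (eta_ne_zero h hg)
  have h0 : ∀ n, n ≠ 0 → ‖traceSeq ξ g n‖ ^ 2 = 0 := fun n hn => by simp [traceSeq, hn]
  refine ⟨summable_of_ne_finset_zero (s := {0}) fun n hn => h0 n (by simpa using hn), ?_, ?_, ?_⟩
  · rw [tsum_eq_single 0 h0]
    simp only [traceSeq, if_true, norm_smul, Complex.norm_real, norm_inv, norm_norm]
    rw [inv_mul_cancel₀ hη, one_pow]
  · intro a ha b hb
    rw [vecState_traceSeq, vecState_traceSeq]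
    congr 1
    have e : ∀ (x : K H →L[ℂ] K H) (v : K H), ⟪eta g ξ, x v⟫_ℂ = ⟪star x (eta g ξ), v⟫_ℂ :=
      fun x v => by rw [ContinuousLinearMap.star_eq_adjoint, ContinuousLinearMap.adjoint_inner_left]
    rw [mul_apply_eq_comp, mul_apply_eq_comp, e, e]
    simpa using inner_eta h hg (star_mem ha) hb
  · intro a ha hz
    refine eq_zero_of_apply_eta h hg ha ?_
    rw [vecState_traceSeq, mul_apply_eq_comp, ContinuousLinearMap.star_eq_adjoint,
      ContinuousLinearMap.adjoint_inner_right, inner_self_eq_norm_sq_to_K, mul_eq_zero] at hz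
    rcases hz with hz | hz
    · simp [hη] at hz
    · simpa using hz

/-- Isometries of the finite algebra are unitary. -/
theorem finite_alg (h : Tomita.CycSep M ξ) (hg : g ≠ 0) :
    KK.Reduce.Finite (alg M ξ g) := by
  intro v hv hvv
  have hP := mul_mem hv (star_mem hv)
  refine (sub_eq_zero.1 (eq_zero_of_apply_eta h hg (sub_mem (one_mem _) hP) ?_)).symm
  set η := eta g ξ
  have hiso : ∀ u : K H, ‖v u‖ = ‖u‖ := fun u => by
    have e : ⟪v u, v u⟫_ℂ = ⟪u, u⟫_ℂ := by
      rw [← ContinuousLinearMap.adjoint_inner_right v, ← ContinuousLinearMap.star_eq_adjoint,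
        ← mul_apply_eq_comp, hvv, one_apply_eq_self]
    rw [inner_self_eq_norm_sq_to_K, inner_self_eq_norm_sq_to_K] at e
    exact (sq_eq_sq₀ (norm_nonneg _) (norm_nonneg _)).1 (by exact_mod_cast e)
  have hn : ‖star v η‖ = ‖η‖ := by rw [← norm_eta h hg hv, hiso]
  have e2 : ⟪η, v (star v η)⟫_ℂ = ((‖η‖ ^ 2 : ℝ) : ℂ) := by
    rw [← ContinuousLinearMap.adjoint_inner_left v, ← ContinuousLinearMap.star_eq_adjoint,
      inner_self_eq_norm_sq_to_K, hn]
    norm_cast
  rw [sub_apply, one_apply_eq_self, mul_apply_eq_comp, sub_eq_zero, ← sub_eq_zero,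
    ← norm_eq_zero, ← sq_eq_zero_iff, @norm_sub_sq ℂ, hiso, hn, e2]
  simp only [RCLike.re_to_complex, Complex.ofReal_re]
  ring

/-- The finite algebra of an algebra with large matrix units in the double commutant of its gauge
has no abelian projection. -/
theorem noAbelian_alg (h : Tomita.CycSep M ξ) (hg : g ≠ 0) {G : ℕ → Finset (H →L[ℂ] H)}
    (hU : ∀ n, ∀ x ∈ G n, ∀ t, x * Tomita.U M ξ t = Tomita.U M ξ t * x) (he : Equi M G) :
    P104.Sim.NoAbelian (alg M ξ g) := by
  refine KK.Reduce.noAbelian_of_equi (finite_alg h hg) fun k => ?_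
  obtain ⟨m, hm, e, hu, hcomm⟩ := he k
  have hm0 : 0 < m := by omega
  set o : Fin m := ⟨0, hm0⟩
  have hmem : ∀ i j, const (e i j) ∈ alg M ξ g := fun i j =>
    const_mem h (hu.mem i j) fun t => hcomm i j _ fun n x hx => hU n x hx t
  have hqM : KK.Reduce.Equi M (e o o) fun i => e i o := by
    refine ⟨⟨hu.mem o o, ?_, ?_⟩, fun i => hu.mem i o, fun i j => ?_, ?_⟩
    · show e o o * e o o = e o o
      rw [hu.mul, if_pos rfl]
    · exact hu.star_eq o o
    · rw [hu.star_eq, hu.mul]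
    · simp only [hu.star_eq, hu.mul]
      simpa using hu.total
  exact ⟨m, hm, _, _, hqM.map const ⟨hmem o o, fun i => hmem i o⟩ (fun x _ y _ => const_mul x y)
    (fun x _ => const_star x) (fun x _ y _ => const_add x y) const_one⟩

/-! ## Closeness -/

section Windows

variable {n : ℕ} {f : Fin n → ℤ}

omit [CompleteSpace H] in
lemma norm_sq_sum_inj (hf : Function.Injective f) (u : Fin n → H) :
    ‖∑ i, inj (f i) (u i)‖ ^ 2 = ∑ i, ‖u i‖ ^ 2 := by
  have e : ⟪∑ i, inj (f i) (u i), ∑ i, inj (f i) (u i)⟫_ℂ = ∑ i, ⟪u i, u i⟫_ℂ := by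
    rw [sum_inner]
    refine Finset.sum_congr rfl fun i _ => ?_
    rw [inner_sum, Finset.sum_eq_single i]
    · rw [inj_apply, lp.inner_single_left]; simp
    · intro j _ hij
      rw [inj_apply, inj_apply, lp.inner_single_left, lp.single_apply]
      simp [Pi.single_eq_of_ne (fun e => hij (hf e).symm)]
    · simp
  simp only [inner_self_eq_norm_sq_to_K] at e
  exact Complex.ofReal_injective (by push_cast; exact e)

/-- The operator with the window `Y` at the places `f`. -/
def lift (f : Fin n → ℤ) (Y : Fin n → Fin n → (H →L[ℂ] H)) : K H →L[ℂ] K H :=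
  ∑ i, ∑ j, inj (f i) ∘L Y i j ∘L coord (f j)

omit [CompleteSpace H] in
lemma lift_apply (Y : Fin n → Fin n → (H →L[ℂ] H)) (v : K H) :
    lift f Y v = ∑ i, inj (f i) (∑ j, Y i j (v (f j))) := by
  simp only [lift, FunLike.coe_sum, Finset.sum_apply, ContinuousLinearMap.comp_apply, coord_apply,
    map_sum]

omit [CompleteSpace H] in
lemma sum_sq_window_le (hf : Function.Injective f) (v : K H) :
    ∑ i, ‖v (f i)‖ ^ 2 ≤ ‖v‖ ^ 2 := by
  classical
  rw [← Finset.sum_image (f := fun l => ‖v l‖ ^ 2) hf.injOn]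
  exact sum_le_hasSum _ (fun _ _ => sq_nonneg _) (summable_sq v)

omit [CompleteSpace H] in
lemma norm_lift_apply_le (hf : Function.Injective f) {Y : Fin n → Fin n → (H →L[ℂ] H)} {c : ℝ}
    (hc : 0 ≤ c)
    (hY : ∀ u : Fin n → H, ∑ i, ‖∑ j, Y i j (u j)‖ ^ 2 ≤ c ^ 2 * ∑ j, ‖u j‖ ^ 2) (v : K H) :
    ‖lift f Y v‖ ≤ c * ‖v‖ := by
  refine (sq_le_sq₀ (norm_nonneg _) (by positivity)).1 ?_
  rw [lift_apply, norm_sq_sum_inj hf, mul_pow]
  exact (hY fun j => v (f j)).trans
    (mul_le_mul_of_nonneg_left (sum_sq_window_le hf v) (sq_nonneg _))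

omit [CompleteSpace H] in
lemma const_comm_lift {Y : Fin n → Fin n → (H →L[ℂ] H)} {y : H →L[ℂ] H}
    (hy : ∀ i j, y * Y i j = Y i j * y) : const y * lift f Y = lift f Y * const y := by
  refine ContinuousLinearMap.ext fun v => ?_
  rw [mul_apply_eq_comp, mul_apply_eq_comp, lift_apply, lift_apply, map_sum]
  refine Finset.sum_congr rfl fun i _ => ?_
  rw [const_inj, map_sum]
  refine congrArg _ (Finset.sum_congr rfl fun j _ => ?_)
  rw [const_apply]
  exact DFunLike.congr_fun (hy i j) (v (f j))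

end Windows

/-- An operator commuting with `M' ⊗ 1` is near one commuting with `N' ⊗ 1`. -/
lemma exists_near_commConst {d : ℝ} (hd : 0 ≤ d) (hMN : MatWithin M N d) {X : K H →L[ℂ] K H}
    (hX : CommConst M X) (hX1 : ‖X‖ ≤ 1) :
    ∃ Y : K H →L[ℂ] K H, CommConst N Y ∧ ‖Y‖ ≤ 1 ∧ ∀ v, ‖Y v - X v‖ ≤ d * ‖v‖ := by
  classical
  let f : ∀ F : Finset ℤ, Fin F.card → ℤ := fun F i => (F.equivFin.symm i : ℤ)
  have hf : ∀ F, Function.Injective (f F) := fun F =>
    Subtype.val_injective.comp F.equivFin.symm.injective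
  have hfr : ∀ (F : Finset ℤ) (w : ℤ → K H), ∑ i, w (f F i) = ∑ l ∈ F, w l := fun F w => by
    rw [← F.sum_coe_sort w]
    exact F.equivFin.symm.sum_comp fun l : F => w l
  have hex : ∀ F : Finset ℤ, ∃ Y : Fin F.card → Fin F.card → (H →L[ℂ] H), (∀ i j, Y i j ∈ N) ∧
      MatContraction Y ∧ ∀ u : Fin F.card → H,
        ∑ i, ‖∑ j, (entry X (f F i) (f F j) - Y i j) (u j)‖ ^ 2 ≤ d ^ 2 * ∑ j, ‖u j‖ ^ 2 := by
    intro F
    refine hMN _ _ (fun i j => hX.entry_mem _ _) fun u => ?_
    set w := ∑ j, inj (f F j) (u j)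
    have e : ∀ i, ∑ j, entry X (f F i) (f F j) (u j) = X w (f F i) := fun i => by
      rw [← coord_apply (f F i) (X w)]
      simp only [w, map_sum]
      rfl
    simp only [e]
    refine (sum_sq_window_le (hf F) _).trans ?_
    rw [← norm_sq_sum_inj (hf F)]
    exact pow_le_pow_left₀ (norm_nonneg _) ((X.le_of_opNorm_le hX1 w).trans_eq (one_mul _)) 2
  choose Y hY hY1 hYd using hex
  set l : Ultrafilter (Finset ℤ) := Ultrafilter.of atTop
  have hT : ∀ F, ‖lift (f F) (Y F)‖ ≤ 1 := fun F =>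
    ContinuousLinearMap.opNorm_le_bound _ zero_le_one
      (norm_lift_apply_le (hf F) zero_le_one fun u => by simpa using hY1 F u)
  obtain ⟨S, hS1, hS⟩ := exists_opLim l (fun F => lift (f F) (Y F)) hT
  refine ⟨S, fun y hy => ?_, hS1, fun v => ?_⟩
  · refine ContinuousLinearMap.ext fun v => ?_
    show const y (S v) = S (const y v)
    refine ((hS v).map (const y)).unique
      ((hS (const y v)).congr (Eventually.of_forall fun F => ?_))
    exact (DFunLike.congr_fun (const_comm_lift (f := f F) fun i j =>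
      (VonNeumannAlgebra.mem_commutant_iff.1 hy _ (hY F i j)).symm) v).symm
  set Z : Finset ℤ → K H := fun F => lift (f F) (fun i j => entry X (f F i) (f F j)) v
  have hZ : Tendsto Z atTop (𝓝 (X v)) := by
    have h1 : Tendsto (fun F : Finset ℤ => ∑ l ∈ F, inj l (v l)) atTop (𝓝 v) := hasSum_inj v
    have h2 : Tendsto (fun F : Finset ℤ => ∑ l ∈ F, inj l (X v l)) atTop (𝓝 (X v)) :=
      hasSum_inj (X v)
    have h3 : Tendsto (fun F : Finset ℤ => ‖X (∑ l ∈ F, inj l (v l)) - X v‖) atTop (𝓝 0) :=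
      tendsto_iff_norm_sub_tendsto_zero.1 ((X.continuous.tendsto v).comp h1)
    have hle : ∀ F, ‖Z F - ∑ l ∈ F, inj l (X v l)‖ ≤ ‖X (∑ l ∈ F, inj l (v l)) - X v‖ := by
      intro F
      have e : Z F - ∑ l ∈ F, inj l (X v l) =
          ∑ i, inj (f F i) ((X (∑ l ∈ F, inj l (v l)) - X v) (f F i)) := by
        simp only [Z, lift_apply]
        rw [← hfr F fun l => inj l (X v l), ← Finset.sum_sub_distrib]
        refine Finset.sum_congr rfl fun i _ => ?_
        rw [← map_sub]
        refine congrArg _ ?_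
        rw [lp.coeFn_sub, Pi.sub_apply, ← hfr F fun l => inj l (v l)]
        refine congrArg (· - _) ?_
        rw [← coord_apply, map_sum, map_sum]
        rfl
      rw [e]
      refine (sq_le_sq₀ (norm_nonneg _) (norm_nonneg _)).1 ?_
      rw [norm_sq_sum_inj (hf F)]
      exact sum_sq_window_le (hf F) _
    have h4 := tendsto_zero_iff_norm_tendsto_zero.2
      (squeeze_zero (fun _ => norm_nonneg _) hle h3)
    simpa using h4.add h2
  have hlim : WLim l Z (X v) := fun z =>
    (hZ.mono_left (Ultrafilter.of_le _)).inner tendsto_const_nhds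
  refine ((hS v).sub hlim).norm_le (Eventually.of_forall fun F => ?_)
  rw [norm_sub_rev]
  have e : Z F - lift (f F) (Y F) v =
      lift (f F) (fun i j => entry X (f F i) (f F j) - Y F i j) v := by
    simp only [Z, lift_apply]
    rw [← Finset.sum_sub_distrib]
    refine Finset.sum_congr rfl fun i _ => ?_
    rw [← map_sub, ← Finset.sum_sub_distrib]
    rfl
  rw [e]
  exact norm_lift_apply_le (hf F) hd (hYd F) v

/-- One half of the closeness of the finite algebras. -/
theorem exists_near_alg {d ω : ℝ} (hM : Tomita.CycSep M ξ) (hN : Tomita.CycSep N ξ)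
    (hd : 0 ≤ d) (hMN : MatWithin M N d)
    (hω : ∀ t, ‖Tomita.U N ξ t - Tomita.U M ξ t‖ ≤ ω) {X : K H →L[ℂ] K H}
    (hX : X ∈ alg M ξ g) (hX1 : ‖X‖ ≤ 1) :
    ∃ Z ∈ alg N ξ g, ‖Z‖ ≤ 1 ∧ ‖X - Z‖ ≤ d + 2 * ω := by
  obtain ⟨Y, hY, hY1, hYd⟩ := exists_near_commConst hd hMN ((mem_alg hM).1 hX).1 hX1
  obtain ⟨E, hEf, hE1, hEc, hEb⟩ := (isFlow hN g).exists_mean
  refine ⟨E Y, mean_mem hN hEf hEc hY,
    (hE1 Y).trans hY1, ?_⟩
  have hω0 : 0 ≤ ω := (norm_nonneg _).trans (hω 0)
  rw [norm_sub_rev]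
  refine ContinuousLinearMap.opNorm_le_bound _ (by positivity) fun v => ?_
  rw [sub_apply]
  refine hEb _ Y (ContinuousLinearMap.id ℂ (K H)) v (X v) _ fun t => ?_
  set P := V N ξ g
  set Q := V M ξ g
  have hP : ∀ s, ‖P s‖ ≤ 1 := (isFlow hN g).norm_le_one
  have hQ : ∀ s, ‖Q s‖ ≤ 1 := (isFlow hM g).norm_le_one
  have hdiff : ∀ s, ‖P s - Q s‖ ≤ ω := fun s => by
    have he : ‖(ex g (Complex.I * (s : ℂ)) : K H →L[ℂ] K H)‖ ≤ 1 := by
      have h := CStarRing.norm_star_mul_self (x := (ex g (Complex.I * (s : ℂ)) : K H →L[ℂ] K H))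
      rw [star_ex, ← ex_add] at h
      simp only [map_mul, Complex.conj_I, Complex.conj_ofReal, neg_mul, neg_add_cancel, ex_zero] at h
      have h1 := h ▸ ContinuousLinearMap.norm_id_le (𝕜 := ℂ) (E := K H)
      nlinarith [norm_nonneg (ex g (Complex.I * (s : ℂ)) : K H →L[ℂ] K H)]
    have e : P s - Q s = const (Tomita.U N ξ s - Tomita.U M ξ s) * ex g (Complex.I * (s : ℂ)) := by
      simp only [P, Q, V]
      rw [← sub_mul]
      refine congrArg (· * _) ?_
      exact ContinuousLinearMap.ext fun _ => lp.ext (funext fun _ => rfl)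
    rw [e]
    exact ((norm_mul_le _ _).trans (mul_le_of_le_one_right (norm_nonneg _) he)).trans
      ((norm_const_le _).trans (hω s))
  have hkey : conjBy P t Y - X =
      P t * (Y - X) * P (-t) + ((P t - Q t) * X * P (-t) + Q t * X * (P (-t) - Q (-t))) := by
    conv_lhs => rw [← conjBy_eq_self hM hX t]
    simp only [conjBy, Q]
    noncomm_ring
  have hYX : ‖Y - X‖ ≤ d := ContinuousLinearMap.opNorm_le_bound _ hd hYd
  have hb : ‖conjBy P t Y - X‖ ≤ d + 2 * ω := by
    rw [hkey]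
    refine (norm_add_le _ _).trans ((add_le_add le_rfl (norm_add_le _ _)).trans ?_)
    have a1 : ‖P t * (Y - X) * P (-t)‖ ≤ d :=
      ((isFlow hN g).norm_conjBy_le t (Y - X)).trans hYX
    have a2 : ‖(P t - Q t) * X * P (-t)‖ ≤ ω :=
      ((norm_mul_le _ _).trans (mul_le_of_le_one_right (norm_nonneg _) (hP _))).trans
        (((norm_mul_le _ _).trans (mul_le_of_le_one_right (norm_nonneg _) hX1)).trans (hdiff t))
    have a3 : ‖Q t * X * (P (-t) - Q (-t))‖ ≤ ω :=
      ((norm_mul_le _ _).trans (mul_le_of_le_one_left (norm_nonneg _)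
        ((norm_mul_le _ _).trans (mul_le_one₀ (hQ _) (norm_nonneg _) hX1)))).trans (hdiff _)
    linarith
  simpa using (conjBy P t Y - X).le_of_opNorm_le hb v

/-- Near algebras with near modular flows have near finite algebras. -/
theorem kkDist_alg_le {d ω : ℝ} (hM : Tomita.CycSep M ξ) (hN : Tomita.CycSep N ξ)
    (hd : 0 ≤ d) (hMN : MatWithin M N d) (hNM : MatWithin N M d)
    (hω : ∀ t, ‖Tomita.U N ξ t - Tomita.U M ξ t‖ ≤ ω) (g : ℝ) :
    kkDist (alg M ξ g) (alg N ξ g) ≤ d + 2 * ω := by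
  refine kk_le (by linarith [(norm_nonneg _).trans (hω 0)])
    (fun X hX hX1 => exists_near_alg hM hN hd hMN hω hX hX1)
    (fun X hX hX1 => exists_near_alg hN hM hd hNM (fun t => by rw [norm_sub_rev]; exact hω t)
      hX hX1)

end Vale.Agent.P096.AT.Cross
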