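import Vale.Agent.P096.AT.CrossSpace

/-!
# P096, algebras of every type: the bounded phase of the crossed product

In Fourier coordinates the bilateral shift is the multiplication by `e^{iθ}`, `θ` in `(0, 2π]`.
`Cross.ex g z` is the multiplication by `e^{zθ/g}`, amplified: an entire group of operators which
is the shift by `m` at `z = i m g`.
-/

noncomputable section

namespace Vale.Agent.P096.AT.Cross

open scoped InnerProductSpace ENNReal Real
open Filter Topology MeasureTheory

universe u

instance fact_two_pi : Fact (0 < 2 * π) := ⟨by positivity⟩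

/-- The square integrable functions on the circle. -/
abbrev L2C : Type := Lp ℂ 2 (AddCircle.haarAddCircle : Measure (AddCircle (2 * π)))

/-- The values of the phase. -/
abbrev Ivl : Type := Set.Icc (0 : ℝ) (2 * π)

/-- The phase of a point of the circle. -/
def th (x : AddCircle (2 * π)) : Ivl :=
  ⟨AddCircle.equivIoc (2 * π) 0 x,
    (AddCircle.equivIoc (2 * π) 0 x).2.1.le,
    (AddCircle.equivIoc (2 * π) 0 x).2.2.trans_eq (zero_add _)⟩

lemma coe_th (x : AddCircle (2 * π)) : ((th x : ℝ) : AddCircle (2 * π)) = x :=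
  AddCircle.coe_equivIoc ..

lemma measurable_th : Measurable th :=
  (measurable_subtype_coe.comp (AddCircle.measurableEquivIoc (2 * π) 0).measurable).subtype_mk

lemma memLp_mult (f : C(Ivl, ℂ)) (v : L2C) :
    MemLp (fun x => f (th x) * v x) 2 AddCircle.haarAddCircle := by
  refine MemLp.of_le_mul (c := ‖f‖) (Lp.memLp v)
    ((f.continuous.measurable.comp measurable_th).aestronglyMeasurable.mul
      (Lp.aestronglyMeasurable v)) (Eventually.of_forall fun x => ?_)
  rw [norm_mul]
  exact mul_le_mul_of_nonneg_right (f.norm_coe_le_norm _) (norm_nonneg _)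

/-- Multiplication by a function of the phase, as a linear map. -/
def multLin (f : C(Ivl, ℂ)) : L2C →ₗ[ℂ] L2C where
  toFun v := (memLp_mult f v).toLp _
  map_add' v w := by
    refine Lp.ext ?_
    filter_upwards [(memLp_mult f (v + w)).coeFn_toLp,
      Lp.coeFn_add ((memLp_mult f v).toLp _) ((memLp_mult f w).toLp _),
      (memLp_mult f v).coeFn_toLp, (memLp_mult f w).coeFn_toLp, Lp.coeFn_add v w] with x h1 h2 h3 h4 h5
    simp only [h1, h2, Pi.add_apply, h3, h4, h5, mul_add]
  map_smul' c v := by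
    refine Lp.ext ?_
    filter_upwards [(memLp_mult f (c • v)).coeFn_toLp,
      Lp.coeFn_smul c ((memLp_mult f v).toLp _),
      (memLp_mult f v).coeFn_toLp, Lp.coeFn_smul c v] with x h1 h2 h3 h4
    simp only [h1, h2, Pi.smul_apply, h3, h4, smul_eq_mul, RingHom.id_apply]
    ring

/-- Multiplication by a function of the phase. -/
def mult (f : C(Ivl, ℂ)) : L2C →L[ℂ] L2C :=
  (multLin f).mkContinuous ‖f‖ fun v =>
    Lp.norm_le_mul_norm_of_ae_le_mul (by
      filter_upwards [(memLp_mult f v).coeFn_toLp] with x hx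
      show ‖((memLp_mult f v).toLp _ : L2C) x‖ ≤ _
      rw [hx, norm_mul]
      exact mul_le_mul_of_nonneg_right (f.norm_coe_le_norm _) (norm_nonneg _))

lemma mult_apply_ae (f : C(Ivl, ℂ)) (v : L2C) :
    mult f v =ᵐ[AddCircle.haarAddCircle] fun x => f (th x) * v x :=
  (memLp_mult f v).coeFn_toLp

lemma mult_mul (f k : C(Ivl, ℂ)) : mult (f * k) = mult f * mult k := by
  refine ContinuousLinearMap.ext fun v => Lp.ext ?_
  rw [mul_apply_eq_comp]
  filter_upwards [mult_apply_ae (f * k) v, mult_apply_ae f (mult k v), mult_apply_ae k v]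
    with x h1 h2 h3
  rw [h1, h2, h3, ContinuousMap.mul_apply, mul_assoc]

lemma mult_add (f k : C(Ivl, ℂ)) : mult (f + k) = mult f + mult k := by
  refine ContinuousLinearMap.ext fun v => Lp.ext ?_
  rw [add_apply]
  filter_upwards [mult_apply_ae (f + k) v, Lp.coeFn_add (mult f v) (mult k v), mult_apply_ae f v,
    mult_apply_ae k v] with x h1 h2 h3 h4
  rw [h1, h2, Pi.add_apply, h3, h4, ContinuousMap.add_apply, add_mul]

lemma mult_algebraMap (c : ℂ) : mult (algebraMap ℂ C(Ivl, ℂ) c) = c • 1 := by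
  refine ContinuousLinearMap.ext fun v => Lp.ext ?_
  rw [smul_apply, one_apply_eq_self]
  filter_upwards [mult_apply_ae (algebraMap ℂ C(Ivl, ℂ) c) v, Lp.coeFn_smul c v] with x h1 h2
  rw [h1, h2]
  simp [Algebra.algebraMap_eq_smul_one]

lemma mult_star (f : C(Ivl, ℂ)) : mult (star f) = star (mult f) := by
  rw [ContinuousLinearMap.star_eq_adjoint]
  refine (ContinuousLinearMap.eq_adjoint_iff _ _).2 fun v w => ?_
  rw [L2.inner_def, L2.inner_def]
  refine integral_congr_ae ?_
  filter_upwards [mult_apply_ae (star f) v, mult_apply_ae f w] with x h1 h2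
  rw [h1, h2]
  simp only [RCLike.inner_apply, ContinuousMap.star_apply, map_mul, RCLike.star_def,
    starRingEnd_self_apply]
  ring

/-- Multiplication as a star homomorphism. -/
def multHom : C(Ivl, ℂ) →⋆ₐ[ℂ] (L2C →L[ℂ] L2C) where
  toFun := mult
  map_one' := by simpa using mult_algebraMap 1
  map_mul' := mult_mul
  map_zero' := by simpa using mult_algebraMap 0
  map_add' := mult_add
  commutes' c := by rw [mult_algebraMap, Algebra.algebraMap_eq_smul_one]
  map_star' := mult_star

/-- Multiplication in coefficients. -/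
def scalarHom : C(Ivl, ℂ) →⋆ₐ[ℂ] (L2Z →L[ℂ] L2Z) :=
  (fourierBasis (T := 2 * π)).repr.conjStarAlgEquiv.toStarAlgHom.comp multHom

/-- The phase. -/
def idF : C(Ivl, ℂ) := ⟨fun x => ((x : ℝ) : ℂ), by fun_prop⟩

/-- The exponentials of the phase. -/
def expF (w : ℂ) : C(Ivl, ℂ) := NormedSpace.exp (w • idF)

lemma expF_apply (w : ℂ) (x : Ivl) : expF w x = Complex.exp (w * ((x : ℝ) : ℂ)) := by
  have h := NormedSpace.map_exp
    ((Pi.evalRingHom (fun _ : Ivl => ℂ) x).comp ContinuousMap.coeFnRingHom)
    (continuous_eval_const x) (w • idF)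
  change expF w x = NormedSpace.exp ((w • idF) x) at h
  rw [h, ← Complex.exp_eq_exp_ℂ]
  rfl

lemma expF_zero : expF 0 = 1 := ContinuousMap.ext fun x => by simp [expF_apply]

lemma expF_add (v w : ℂ) : expF (v + w) = expF v * expF w :=
  ContinuousMap.ext fun x => by simp [expF_apply, add_mul, Complex.exp_add]

lemma star_expF (w : ℂ) : star (expF w) = expF (starRingEnd ℂ w) :=
  ContinuousMap.ext fun x => by simp [expF_apply, ← Complex.exp_conj]

lemma differentiable_expF : Differentiable ℂ expF := fun w =>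
  (hasDerivAt_exp_smul_const idF w).differentiableAt

lemma coef_scalarHom (f : C(Ivl, ℂ)) (m : ℤ)
    (hf : ∀ x : AddCircle (2 * π), f (th x) = fourier m x) (i j : ℤ) :
    coef (scalarHom f) i j = if i = j + m then 1 else 0 := by
  set b := fourierBasis (T := 2 * π)
  have e1 : mult f (b j) = b (j + m) := by
    simp only [b, coe_fourierBasis]
    refine Lp.ext ?_
    filter_upwards [mult_apply_ae f (fourierLp 2 j), coeFn_fourierLp 2 j,
      coeFn_fourierLp (T := 2 * π) 2 (j + m)] with x h1 h2 h3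
    rw [h1, h2, h3, hf, fourier_add, mul_comm]
  have e2 : scalarHom f (lp.single 2 j 1) = lp.single 2 (j + m) (1 : ℂ) := by
    show b.repr (mult f (b.repr.symm (lp.single 2 j 1))) = _
    rw [HilbertBasis.repr_symm_single, e1, HilbertBasis.repr_self]
  rw [coef, e2, lp.single_apply]
  by_cases h : i = j + m
  · subst h; simp
  · simp [h]

lemma expF_fourier (m : ℤ) (x : AddCircle (2 * π)) :
    expF (Complex.I * (m : ℂ)) (th x) = fourier m x := by
  conv_rhs => rw [← coe_th x, fourier_coe_apply]
  rw [expF_apply]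
  congr 1
  have : (π : ℂ) ≠ 0 := by exact_mod_cast Real.pi_ne_zero
  push_cast
  field_simp

variable {H : Type u} [NormedAddCommGroup H] [InnerProductSpace ℂ H] [CompleteSpace H]

/-- Multiplication, amplified. -/
def phaseHom : C(Ivl, ℂ) →⋆ₐ[ℂ] (K H →L[ℂ] K H) := ampHom.comp scalarHom

lemma norm_phaseHom_le (f : C(Ivl, ℂ)) : ‖(phaseHom (H := H)) f‖ ≤ ‖f‖ :=
  NonUnitalStarAlgHom.norm_apply_le (phaseHom (H := H)) f

/-- `e^{z a}`, `a` the bounded phase divided by `g`. -/
def ex (g : ℝ) (z : ℂ) : K H →L[ℂ] K H := (phaseHom (H := H)) (expF (z / g))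

variable {g : ℝ}

lemma ex_zero : (ex g 0 : K H →L[ℂ] K H) = 1 := by rw [ex, zero_div, expF_zero, map_one]

lemma ex_add (v w : ℂ) : (ex g (v + w) : K H →L[ℂ] K H) = ex g v * ex g w := by
  rw [ex, ex, ex, add_div, expF_add, map_mul]

lemma ex_comm (v w : ℂ) : (ex g v : K H →L[ℂ] K H) * ex g w = ex g w * ex g v := by
  rw [← ex_add, ← ex_add, add_comm]

lemma star_ex (z : ℂ) : star (ex g z : K H →L[ℂ] K H) = ex g (starRingEnd ℂ z) := by
  rw [ex, ← map_star, star_expF, ex, map_div₀, Complex.conj_ofReal]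

lemma differentiable_ex : Differentiable ℂ (ex g : ℂ → (K H →L[ℂ] K H)) := by
  let L : C(Ivl, ℂ) →L[ℂ] (K H →L[ℂ] K H) :=
    (phaseHom (H := H)).toAlgHom.toLinearMap.mkContinuous 1 fun f => by
      rw [one_mul]; exact norm_phaseHom_le f
  exact L.differentiable.comp (differentiable_expF.comp (differentiable_id.div_const (g : ℂ)))

lemma ex_apply_eq_amp (z : ℂ) :
    (ex g z : K H →L[ℂ] K H) = amp (scalarHom (expF (z / g))) := rfl

/-- The entries of `e^{za}` are scalars. -/
lemma entry_ex (z : ℂ) (i j : ℤ) :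
    entry (ex g z : K H →L[ℂ] K H) i j = coef (scalarHom (expF (z / g))) i j • 1 :=
  entry_amp _ i j

lemma const_comm_ex (x : H →L[ℂ] H) (z : ℂ) : const x * ex g z = ex g z * const x :=
  const_comm_amp x _

/-- At the grid the phase is the shift. -/
lemma entry_ex_grid (hg : g ≠ 0) (m i j : ℤ) :
    entry (ex g (Complex.I * ((m * g : ℝ) : ℂ)) : K H →L[ℂ] K H) i j = if i = j + m then 1 else 0 := by
  have e : Complex.I * ((m * g : ℝ) : ℂ) / (g : ℂ) = Complex.I * (m : ℂ) := by
    have : (g : ℂ) ≠ 0 := by exact_mod_cast hg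
    push_cast
    field_simp
  rw [entry_ex, e, coef_scalarHom _ m (expF_fourier m)]
  by_cases h : i = j + m <;> simp [h]

end Vale.Agent.P096.AT.Cross
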