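import Mathlib

/-!
# P096, algebras of every type: the space of the crossed product

`Cross.K H` is the space of square summable `ℤ`-families in `H`. Operators are given by their
entries; an operator of `ℓ²(ℤ)` is amplified by the identity of `H`.
-/

noncomputable section

namespace Vale.Agent.P096.AT.Cross

open scoped InnerProductSpace ENNReal
open Filter Topology

universe u

/-- Square summable scalar families. -/
abbrev L2Z : Type := lp (fun _ : ℤ => ℂ) 2

/-- The space of the crossed product. -/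
abbrev K (H : Type u) [NormedAddCommGroup H] [InnerProductSpace ℂ H] : Type u :=
  lp (fun _ : ℤ => H) 2

variable {H : Type u} [NormedAddCommGroup H] [InnerProductSpace ℂ H]

/-- The inclusion of a coordinate. -/
def inj (i : ℤ) : H →L[ℂ] K H := lp.singleContinuousLinearMap ℂ (fun _ : ℤ => H) 2 i

/-- A coordinate. -/
def coord (i : ℤ) : K H →L[ℂ] H := lp.evalCLM ℂ (fun _ : ℤ => H) 2 i

/-- A matrix entry. -/
def entry (X : K H →L[ℂ] K H) (i j : ℤ) : H →L[ℂ] H := coord i ∘L X ∘L inj j

@[simp] lemma inj_apply (i : ℤ) (h : H) : inj i h = lp.single 2 i h := rfl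

@[simp] lemma coord_apply (i : ℤ) (v : K H) : coord i v = v i := rfl

lemma entry_apply (X : K H →L[ℂ] K H) (i j : ℤ) (h : H) : entry X i j h = X (lp.single 2 j h) i := rfl

lemma coord_inj (i j : ℤ) (h : H) : coord i (inj j h) = if i = j then h else 0 := by
  simp only [inj_apply, coord_apply]
  rw [lp.single_apply]
  by_cases hij : i = j
  · subst hij; simp
  · simp [hij]

lemma hasSum_inj (v : K H) : HasSum (fun j => inj j (v j)) v :=
  lp.hasSum_single (by norm_num) v

/-- An operator is determined by its entries. -/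
lemma ext_entry {X Y : K H →L[ℂ] K H} (h : ∀ i j, entry X i j = entry Y i j) : X = Y := by
  refine ContinuousLinearMap.ext fun v => ?_
  have hj : ∀ j, X (inj j (v j)) = Y (inj j (v j)) := fun j =>
    lp.ext (funext fun i => DFunLike.congr_fun (h i j) (v j))
  have h1 := X.hasSum (hasSum_inj v)
  have h2 := Y.hasSum (hasSum_inj v)
  simp_rw [hj] at h1
  exact h1.unique h2

/-- The entries of a product. -/
lemma hasSum_entry_mul (X Y : K H →L[ℂ] K H) (i j : ℤ) (h : H) :
    HasSum (fun l => entry X i l (entry Y l j h)) (entry (X * Y) i j h) :=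
  (coord i ∘L X).hasSum (hasSum_inj (Y (inj j h)))

@[simp] lemma entry_one (i j : ℤ) :
    entry (1 : K H →L[ℂ] K H) i j = if i = j then 1 else 0 := by
  refine ContinuousLinearMap.ext fun h => ?_
  rw [entry_apply]
  have := coord_inj i j h
  simp only [inj_apply, coord_apply] at this
  simp only [one_apply_eq_self, this]
  by_cases hij : i = j <;> simp [hij]

lemma entry_add (X Y : K H →L[ℂ] K H) (i j : ℤ) : entry (X + Y) i j = entry X i j + entry Y i j :=
  ContinuousLinearMap.ext fun _ => rfl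

lemma entry_smul (c : ℂ) (X : K H →L[ℂ] K H) (i j : ℤ) : entry (c • X) i j = c • entry X i j :=
  ContinuousLinearMap.ext fun _ => rfl

lemma norm_entry_le (X : K H →L[ℂ] K H) (i j : ℤ) : ‖entry X i j‖ ≤ ‖X‖ := by
  refine ContinuousLinearMap.opNorm_le_bound _ (norm_nonneg X) fun h => ?_
  rw [entry_apply]
  refine (lp.norm_apply_le_norm (by norm_num) _ i).trans ((X.le_opNorm _).trans_eq ?_)
  rw [lp.norm_single (by norm_num)]

section Complete

variable [CompleteSpace H]

omit [CompleteSpace H] in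
lemma inner_inj_left (i : ℤ) (h : H) (v : K H) : ⟪inj i h, v⟫_ℂ = ⟪h, v i⟫_ℂ :=
  lp.inner_single_left i h v

lemma entry_star (X : K H →L[ℂ] K H) (i j : ℤ) : entry (star X) i j = star (entry X j i) := by
  refine ContinuousLinearMap.ext fun h => ext_inner_left ℂ fun k => ?_
  simp only [ContinuousLinearMap.star_eq_adjoint]
  rw [ContinuousLinearMap.adjoint_inner_right, entry_apply, entry_apply, ← inj_apply, ← inj_apply,
    ← inner_inj_left, ContinuousLinearMap.adjoint_inner_right,
    ← inner_conj_symm (X (inj i k)) (inj j h), inner_inj_left, inner_conj_symm]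

end Complete

/-! ## Diagonal operators -/

section Diag

lemma summable_sq (v : K H) : HasSum (fun j => ‖v j‖ ^ 2) (‖v‖ ^ 2) := by
  simpa using lp.hasSum_norm (p := 2) (by norm_num) v

lemma memℓp_two {E : Type*} [NormedAddCommGroup E] {f : ℤ → E}
    (hf : Summable fun j => ‖f j‖ ^ 2) : Memℓp f 2 :=
  memℓp_gen (by simpa using hf)

variable {f : ℤ → (H →L[ℂ] H)} {C : ℝ}

lemma sq_diag_le (hf : ∀ j, ‖f j‖ ≤ C) (v : K H) (j : ℤ) : ‖f j (v j)‖ ^ 2 ≤ C ^ 2 * ‖v j‖ ^ 2 := by
  rw [← mul_pow]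
  exact pow_le_pow_left₀ (norm_nonneg _) ((f j).le_of_opNorm_le (hf j) _) 2

lemma summable_diag (hf : ∀ j, ‖f j‖ ≤ C) (v : K H) : Summable fun j => ‖f j (v j)‖ ^ 2 :=
  Summable.of_nonneg_of_le (fun _ => sq_nonneg _) (sq_diag_le hf v)
    ((summable_sq v).summable.mul_left _)

/-- The diagonal operator as a linear map. -/
def diagLin (f : ℤ → (H →L[ℂ] H)) (C : ℝ) (hf : ∀ j, ‖f j‖ ≤ C) : K H →ₗ[ℂ] K H where
  toFun v := ⟨fun j => f j (v j), memℓp_two (summable_diag hf v)⟩
  map_add' v w := lp.ext (funext fun j => by simp; rfl)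
  map_smul' c v := lp.ext (funext fun j => by simp)

/-- The diagonal operator with entries `f`. -/
def diag (f : ℤ → (H →L[ℂ] H)) (C : ℝ) (hf : ∀ j, ‖f j‖ ≤ C) : K H →L[ℂ] K H :=
  (diagLin f C hf).mkContinuous C fun v => by
    have hC : 0 ≤ C := (norm_nonneg _).trans (hf 0)
    refine (sq_le_sq₀ (norm_nonneg _) (by positivity)).1 ?_
    rw [mul_pow, ← (summable_sq (diagLin f C hf v)).tsum_eq, ← (summable_sq v).tsum_eq, ← tsum_mul_left]
    exact (summable_diag hf v).tsum_le_tsum (sq_diag_le hf v) ((summable_sq v).summable.mul_left _)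

@[simp] lemma diag_apply (hf : ∀ j, ‖f j‖ ≤ C) (v : K H) (j : ℤ) : diag f C hf v j = f j (v j) := rfl

lemma norm_diag_le (hf : ∀ j, ‖f j‖ ≤ C) : ‖diag f C hf‖ ≤ C :=
  LinearMap.mkContinuous_norm_le _ ((norm_nonneg _).trans (hf 0)) _

lemma entry_diag (hf : ∀ j, ‖f j‖ ≤ C) (i j : ℤ) : entry (diag f C hf) i j = if i = j then f i else 0 := by
  refine ContinuousLinearMap.ext fun h => ?_
  have := coord_inj i j h
  simp only [inj_apply, coord_apply] at this
  rw [entry_apply, diag_apply, this]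
  by_cases hij : i = j <;> simp [hij]

lemma entry_diag_mul (hf : ∀ j, ‖f j‖ ≤ C) (X : K H →L[ℂ] K H) (i j : ℤ) :
    entry (diag f C hf * X) i j = f i * entry X i j :=
  ContinuousLinearMap.ext fun _ => rfl

lemma entry_mul_diag (hf : ∀ j, ‖f j‖ ≤ C) (X : K H →L[ℂ] K H) (i j : ℤ) :
    entry (X * diag f C hf) i j = entry X i j * f j := by
  refine ContinuousLinearMap.ext fun h => ?_
  have : diag f C hf (inj j h) = inj j (f j h) := by
    refine lp.ext (funext fun l => ?_)
    rw [diag_apply]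
    simp only [inj_apply, lp.single_apply]
    by_cases hlj : l = j
    · subst hlj; simp
    · simp [hlj]
  show coord i (X (diag f C hf (inj j h))) = _
  rw [this]
  rfl

end Diag

lemma diag_mul {f g : ℤ → (H →L[ℂ] H)} {C D : ℝ} (hf : ∀ j, ‖f j‖ ≤ C) (hg : ∀ j, ‖g j‖ ≤ D) :
    diag f C hf * diag g D hg = diag (fun j => f j * g j) (C * D) (fun j =>
      (norm_mul_le _ _).trans (mul_le_mul (hf j) (hg j) (norm_nonneg _) ((norm_nonneg _).trans (hf j)))) :=
  ContinuousLinearMap.ext fun _ => lp.ext (funext fun _ => rfl)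

/-- The constant diagonal. -/
def const (x : H →L[ℂ] H) : K H →L[ℂ] K H := diag (fun _ => x) ‖x‖ fun _ => le_rfl

@[simp] lemma const_apply (x : H →L[ℂ] H) (v : K H) (j : ℤ) : const x v j = x (v j) := rfl

lemma const_mul (x y : H →L[ℂ] H) : const (x * y) = const x * const y :=
  ContinuousLinearMap.ext fun _ => lp.ext (funext fun _ => rfl)

lemma const_one : const (1 : H →L[ℂ] H) = 1 :=
  ContinuousLinearMap.ext fun _ => lp.ext (funext fun _ => rfl)

/-- Commutation with a constant diagonal is entrywise. -/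
lemma commute_const_iff (x : H →L[ℂ] H) (X : K H →L[ℂ] K H) :
    const x * X = X * const x ↔ ∀ i j, x * entry X i j = entry X i j * x := by
  constructor
  · intro h i j
    have := congrArg (fun Z => entry Z i j) h
    simpa only [const, entry_diag_mul, entry_mul_diag] using this
  · intro h
    refine ext_entry fun i j => ?_
    simpa only [const, entry_diag_mul, entry_mul_diag] using h i j

lemma const_star [CompleteSpace H] (x : H →L[ℂ] H) : const (star x) = star (const x) := by
  refine ext_entry fun i j => ?_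
  rw [entry_star, const, const, entry_diag, entry_diag]
  by_cases hij : i = j
  · subst hij; simp
  · simp [hij, Ne.symm hij]

/-! ## Amplification of the operators of `ℓ²(ℤ)` -/

/-- An entry of a scalar operator. -/
def coef (A : L2Z →L[ℂ] L2Z) (i j : ℤ) : ℂ := A (lp.single 2 j 1) i

lemma summable_coef (A : L2Z →L[ℂ] L2Z) (i : ℤ) : Summable fun j => ‖coef A i j‖ ^ 2 := by
  have h : ∀ j, ‖coef A i j‖ = ‖(star A (lp.single 2 i 1)) j‖ := fun j => by
    have h2 : coef A i j = starRingEnd ℂ ((star A (lp.single 2 i 1)) j) := by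
      have e1 : (star A (lp.single 2 i 1)) j = ⟪(lp.single 2 j 1 : L2Z), star A (lp.single 2 i 1)⟫_ℂ := by
        rw [lp.inner_single_left]; simp
      rw [e1, inner_conj_symm, ContinuousLinearMap.star_eq_adjoint,
        ContinuousLinearMap.adjoint_inner_left, lp.inner_single_left]
      simp [coef]
    rw [h2, RCLike.norm_conj]
  simp_rw [h]
  exact (summable_sq (H := ℂ) _).summable

section Amp

variable [CompleteSpace H]

lemma summable_row (A : L2Z →L[ℂ] L2Z) (v : K H) (i : ℤ) :
    Summable fun j => coef A i j • v j := by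
  refine Summable.of_norm (Summable.of_nonneg_of_le (fun _ => norm_nonneg _) (fun j => ?_)
    ((summable_coef A i).add (summable_sq v).summable))
  rw [norm_smul]
  nlinarith [sq_nonneg (‖coef A i j‖ - ‖v j‖), sq_nonneg ‖coef A i j‖, sq_nonneg ‖v j‖]

omit [CompleteSpace H] in
lemma summable_slice (h : H) (v : K H) : Summable fun j => ‖⟪h, v j⟫_ℂ‖ ^ 2 :=
  Summable.of_nonneg_of_le (fun _ => sq_nonneg _) (fun j => by
    rw [← mul_pow]
    exact pow_le_pow_left₀ (norm_nonneg _) (norm_inner_le_norm _ _) 2)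
    ((summable_sq v).summable.mul_left (‖h‖ ^ 2))

/-- The scalar family seen by a vector. -/
def slice (h : H) (v : K H) : L2Z := ⟨fun j => ⟪h, v j⟫_ℂ, memℓp_two (summable_slice h v)⟩

omit [CompleteSpace H] in
@[simp] lemma slice_apply (h : H) (v : K H) (j : ℤ) : slice h v j = ⟪h, v j⟫_ℂ := rfl

lemma inner_row (A : L2Z →L[ℂ] L2Z) (v : K H) (i : ℤ) (h : H) :
    ⟪h, ∑' j, coef A i j • v j⟫_ℂ = A (slice h v) i := by
  have h1 := (innerSL ℂ h).hasSum (summable_row A v i).hasSum
  have h2 := ((lp.evalCLM ℂ (fun _ : ℤ => ℂ) 2 i) ∘L A).hasSum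
    (lp.hasSum_single (by norm_num : (2 : ℝ≥0∞) ≠ ⊤) (slice h v))
  have e : ∀ j, ((lp.evalCLM ℂ (fun _ : ℤ => ℂ) 2 i) ∘L A) (lp.single 2 j (slice h v j)) =
      innerSL ℂ h (coef A i j • v j) := fun j => by
    have : (lp.single 2 j (slice h v j) : L2Z) = (slice h v j) • lp.single 2 j 1 := by
      rw [← lp.single_smul]; simp
    rw [this, map_smul, map_smul]
    show (slice h v j) * coef A i j = coef A i j * ⟪h, v j⟫_ℂ
    rw [slice_apply, mul_comm]
  simp_rw [e] at h2
  exact h1.unique h2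

lemma sum_row_sq_le (A : L2Z →L[ℂ] L2Z) (v : K H) (s : Finset ℤ) :
    ∑ i ∈ s, ‖∑' j, coef A i j • v j‖ ^ 2 ≤ ‖A‖ ^ 2 * ‖v‖ ^ 2 := by
  obtain ⟨κ, b, -⟩ := exists_hilbertBasis ℂ H
  have hb : ∀ w : H, HasSum (fun k => ‖⟪b k, w⟫_ℂ‖ ^ 2) (‖w‖ ^ 2) := fun w => by
    have := lp.hasSum_norm (p := 2) (by norm_num) (b.repr w)
    simpa [b.repr_apply_apply] using this
  have hsum := hasSum_sum (s := s) fun i _ => hb (∑' j, coef A i j • v j)
  refine le_of_tendsto' hsum fun t => ?_
  calc ∑ k ∈ t, ∑ i ∈ s, ‖⟪b k, ∑' j, coef A i j • v j⟫_ℂ‖ ^ 2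
      = ∑ k ∈ t, ∑ i ∈ s, ‖A (slice (b k) v) i‖ ^ 2 := by simp_rw [inner_row]
    _ ≤ ∑ k ∈ t, ‖A‖ ^ 2 * ‖slice (b k) v‖ ^ 2 := by
        refine Finset.sum_le_sum fun k _ => ?_
        refine (sum_le_hasSum s (fun _ _ => sq_nonneg _) (summable_sq _)).trans ?_
        rw [← mul_pow]
        exact pow_le_pow_left₀ (norm_nonneg _) (A.le_opNorm _) 2
    _ ≤ ‖A‖ ^ 2 * ‖v‖ ^ 2 := by
        rw [← Finset.mul_sum]
        refine mul_le_mul_of_nonneg_left ?_ (sq_nonneg _)
        have h2 := hasSum_sum (s := t) fun k _ => summable_sq (H := ℂ) (slice (b k) v)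
        refine hasSum_le (fun j => ?_) h2 (summable_sq v)
        exact sum_le_hasSum t (fun _ _ => sq_nonneg _) (hb (v j))

lemma memℓp_row (A : L2Z →L[ℂ] L2Z) (v : K H) :
    Memℓp (fun i => ∑' j, coef A i j • v j) 2 :=
  memℓp_two (summable_of_sum_le (fun _ => sq_nonneg _) (sum_row_sq_le A v))

/-- The amplification as a linear map. -/
def ampLin (A : L2Z →L[ℂ] L2Z) : K H →ₗ[ℂ] K H where
  toFun v := ⟨fun i => ∑' j, coef A i j • v j, memℓp_row A v⟩
  map_add' v w := lp.ext (funext fun i => by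
    simp only [lp.coeFn_add, Pi.add_apply, smul_add]
    exact (summable_row A v i).tsum_add (summable_row A w i))
  map_smul' c v := lp.ext (funext fun i => by
    simp only [lp.coeFn_smul, Pi.smul_apply, RingHom.id_apply, smul_comm _ c]
    exact (summable_row A v i).tsum_const_smul c)

/-- `A ⊗ 1`. -/
def amp (A : L2Z →L[ℂ] L2Z) : K H →L[ℂ] K H :=
  (ampLin A).mkContinuous ‖A‖ fun v => by
    refine (sq_le_sq₀ (norm_nonneg _) (by positivity)).1 ?_
    rw [mul_pow]
    exact hasSum_le_of_sum_le (summable_sq (ampLin A v)) (sum_row_sq_le A v)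

lemma amp_apply (A : L2Z →L[ℂ] L2Z) (v : K H) (i : ℤ) :
    amp A v i = ∑' j, coef A i j • v j := rfl

lemma norm_amp_le (A : L2Z →L[ℂ] L2Z) : ‖(amp A : K H →L[ℂ] K H)‖ ≤ ‖A‖ :=
  LinearMap.mkContinuous_norm_le _ (norm_nonneg _) _

lemma slice_amp (A : L2Z →L[ℂ] L2Z) (h : H) (v : K H) : slice h (amp A v) = A (slice h v) :=
  lp.ext (funext fun i => inner_row A v i h)

omit [CompleteSpace H] in
lemma ext_slice {v w : K H} (h : ∀ k : H, slice k v = slice k w) : v = w :=
  lp.ext (funext fun i => ext_inner_left ℂ fun k => by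
    simpa using congrArg (fun z : L2Z => z i) (h k))

lemma entry_amp (A : L2Z →L[ℂ] L2Z) (i j : ℤ) :
    entry (amp A : K H →L[ℂ] K H) i j = coef A i j • 1 := by
  refine ContinuousLinearMap.ext fun h => ?_
  rw [entry_apply, amp_apply, tsum_eq_single j]
  · simp
  · intro l hl; simp [hl]

lemma amp_mul (A B : L2Z →L[ℂ] L2Z) : (amp (A * B) : K H →L[ℂ] K H) = amp A * amp B :=
  ContinuousLinearMap.ext fun v => ext_slice fun k => by
    rw [slice_amp]
    show A (B (slice k v)) = slice k (amp A (amp B v))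
    rw [slice_amp, slice_amp]

lemma amp_one : (amp 1 : K H →L[ℂ] K H) = 1 :=
  ContinuousLinearMap.ext fun v => ext_slice fun k => by rw [slice_amp]; rfl

lemma amp_add (A B : L2Z →L[ℂ] L2Z) : (amp (A + B) : K H →L[ℂ] K H) = amp A + amp B :=
  ContinuousLinearMap.ext fun v => ext_slice fun k => by
    rw [slice_amp, add_apply, ← slice_amp, ← slice_amp]
    exact lp.ext (funext fun i => by simp)

lemma amp_smul (c : ℂ) (A : L2Z →L[ℂ] L2Z) : (amp (c • A) : K H →L[ℂ] K H) = c • amp A :=
  ContinuousLinearMap.ext fun v => ext_slice fun k => by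
    rw [slice_amp, smul_apply, ← slice_amp]
    exact lp.ext (funext fun i => by simp)

lemma amp_star (A : L2Z →L[ℂ] L2Z) : (amp (star A) : K H →L[ℂ] K H) = star (amp A : K H →L[ℂ] K H) := by
  refine ext_entry fun i j => ?_
  rw [entry_star, entry_amp, entry_amp, star_smul, star_one]
  congr 1
  show (star A (lp.single 2 j 1)) i = star (coef A j i)
  have e : (star A (lp.single 2 j 1)) i = ⟪(lp.single 2 i 1 : L2Z), star A (lp.single 2 j 1)⟫_ℂ := by
    rw [lp.inner_single_left]; simp
  rw [e, ContinuousLinearMap.star_eq_adjoint, ContinuousLinearMap.adjoint_inner_right,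
    ← inner_conj_symm, lp.inner_single_left]
  simp [coef]

lemma amp_zero : (amp 0 : K H →L[ℂ] K H) = 0 := by
  simpa using amp_smul (H := H) 0 (0 : L2Z →L[ℂ] L2Z)

/-- Amplification as a star homomorphism. -/
def ampHom : (L2Z →L[ℂ] L2Z) →⋆ₐ[ℂ] (K H →L[ℂ] K H) where
  toFun := amp
  map_one' := amp_one
  map_mul' := amp_mul
  map_zero' := amp_zero
  map_add' := amp_add
  commutes' c := by rw [Algebra.algebraMap_eq_smul_one, Algebra.algebraMap_eq_smul_one, amp_smul, amp_one]
  map_star' := amp_star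

lemma continuous_amp : Continuous (amp : (L2Z →L[ℂ] L2Z) → (K H →L[ℂ] K H)) := by
  show Continuous (ampHom (H := H))
  refine AddMonoidHomClass.continuous_of_bound (ampHom (H := H)) 1 fun A => ?_
  rw [one_mul]
  exact norm_amp_le A

/-- A constant diagonal commutes with an amplification. -/
lemma const_comm_amp (x : H →L[ℂ] H) (A : L2Z →L[ℂ] L2Z) :
    const x * amp A = amp A * const x :=
  (commute_const_iff x _).2 fun i j => by simp [entry_amp]

end Amp

end Vale.Agent.P096.AT.Cross
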