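import Vale.Agent.P096.AT.CrossFlow

/-!
# P096, algebras of every type: the copy of the algebra in the crossed product, and its flow

`Cross.pi` is the diagonal of `σ_{jg} x`. The corner of its conjugates under the flow is an average
of `σ_s x` whose weights live at `|s| ≤ Rg` up to an error which tends to zero with `1/R`, uniformly
in the time of the flow, so the corner tends to `x` as `g` tends to zero.
-/

noncomputable section

namespace Vale.Agent.P096.AT.Cross

open scoped InnerProductSpace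
open Filter Topology Complex
open Vale.Agent.P132

universe u

/-! ## The weights -/

/-- The weights of the flow at time `s`, in units of the mesh. -/
def weight (s : ℝ) (l : ℤ) : ℝ := ‖coef (scalarHom (expF (I * (s : ℂ)))) 0 l‖ ^ 2

lemma coef_star (A : L2Z →L[ℂ] L2Z) (i j : ℤ) : coef (star A) i j = star (coef A j i) := by
  have e : (star A (lp.single 2 j 1)) i =
      ⟪(lp.single 2 i 1 : L2Z), star A (lp.single 2 j 1)⟫_ℂ := by
    rw [lp.inner_single_left]; simp
  rw [coef, coef, e, ContinuousLinearMap.star_eq_adjoint, ContinuousLinearMap.adjoint_inner_right,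
    ← inner_conj_symm, lp.inner_single_left]
  simp

lemma star_expF_I (s : ℝ) : star (expF (I * (s : ℂ))) = expF (-(I * (s : ℂ))) := by
  rw [star_expF, map_mul, conj_I, conj_ofReal, neg_mul]

lemma weight_eq (s : ℝ) (l : ℤ) :
    weight s l = ‖(scalarHom (expF (-(I * (s : ℂ)))) (lp.single 2 0 1)) l‖ ^ 2 := by
  rw [weight, ← star_expF_I, map_star]
  change _ = ‖coef (star (scalarHom (expF (I * (s : ℂ))))) l 0‖ ^ 2
  rw [coef_star, norm_star]

lemma hasSum_weight (s : ℝ) : HasSum (weight s) 1 := by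
  have hu : scalarHom (expF (-(I * (s : ℂ)))) ∈ unitary (L2Z →L[ℂ] L2Z) := by
    have e : star (scalarHom (expF (-(I * (s : ℂ))))) = scalarHom (expF (I * (s : ℂ))) := by
      rw [← map_star, ← star_expF_I, star_star]
    refine Unitary.mem_iff.2 ⟨?_, ?_⟩ <;> rw [e, ← map_mul, ← expF_add] <;> simp [expF_zero]
  have h := summable_sq (H := ℂ) (scalarHom (expF (-(I * (s : ℂ)))) (lp.single 2 0 1))
  rw [ContinuousLinearMap.norm_map_of_mem_unitary hu, lp.norm_single (by norm_num), norm_one,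
    one_pow] at h
  exact h.congr_fun (weight_eq s)

lemma continuous_weight (l : ℤ) : Continuous fun s => weight s l := by
  simp_rw [weight_eq]
  have h1 : Continuous fun s : ℝ => scalarHom (expF (-(I * (s : ℂ)))) :=
    (AddMonoidHomClass.continuous_of_bound scalarHom 1 fun f => by
      rw [one_mul]; exact NonUnitalStarAlgHom.norm_apply_le scalarHom f).comp
      (differentiable_expF.continuous.comp (by fun_prop))
  exact ((((lp.evalCLM ℂ (fun _ : ℤ => ℂ) 2 l).continuous.comp
    ((ContinuousLinearMap.apply ℂ L2Z (lp.single 2 0 1)).continuous.comp h1))).norm).pow 2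

/-- The weights are uniformly concentrated for times up to one. -/
lemma exists_weight_tail {ε : ℝ} (hε : 0 < ε) :
    ∃ F : Finset ℤ, ∀ s ∈ Set.Icc (0 : ℝ) 1, 1 - ε < ∑ l ∈ F, weight s l := by
  classical
  refine (isCompact_Icc (a := (0 : ℝ)) (b := 1)).elim_directed_cover
    (fun F : Finset ℤ => {s | 1 - ε < ∑ l ∈ F, weight s l}) (fun F => ?_) (fun s _ => ?_) ?_
  · exact isOpen_lt continuous_const (continuous_finsetSum _ fun l _ => continuous_weight l)
  · obtain ⟨F, hF⟩ := ((hasSum_weight s).eventually_const_lt (show 1 - ε < 1 by linarith)).exists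
    exact Set.mem_iUnion.2 ⟨F, hF⟩
  · intro F F'
    exact ⟨F ∪ F',
      fun s (hs : 1 - ε < ∑ l ∈ F, weight s l) => hs.trans_le
        (Finset.sum_le_sum_of_subset_of_nonneg Finset.subset_union_left
          fun l _ _ => (sq_nonneg _ : 0 ≤ weight s l)),
      fun s (hs : 1 - ε < ∑ l ∈ F', weight s l) => hs.trans_le
        (Finset.sum_le_sum_of_subset_of_nonneg Finset.subset_union_right
          fun l _ _ => (sq_nonneg _ : 0 ≤ weight s l))⟩

variable {H : Type u} [NormedAddCommGroup H] [InnerProductSpace ℂ H] [CompleteSpace H]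

open scoped Classical in
/-- The copy of `x`: the diagonal of `σ_{jg} x` (zero without modular data). -/
def pi (M : VonNeumannAlgebra H) (ξ : H) (g : ℝ) (x : H →L[ℂ] H) : K H →L[ℂ] K H :=
  if h : ∀ j : ℤ, ‖Tomita.U M ξ (j * g) * x * Tomita.U M ξ (-(j * g))‖ ≤ ‖x‖ then
    diag (fun j => Tomita.U M ξ (j * g) * x * Tomita.U M ξ (-(j * g))) ‖x‖ h
  else 0

variable {M : VonNeumannAlgebra H} {ξ : H} {g : ℝ}

lemma norm_sigma_le (h : Tomita.CycSep M ξ) (t : ℝ) (x : H →L[ℂ] H) :
    ‖Tomita.U M ξ t * x * Tomita.U M ξ (-t)‖ ≤ ‖x‖ := by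
  refine ContinuousLinearMap.opNorm_le_bound _ (norm_nonneg x) fun v => ?_
  rw [mul_apply_eq_comp, mul_apply_eq_comp]
  exact (h.norm_U_le _ _).trans ((x.le_opNorm _).trans
    (mul_le_mul_of_nonneg_left (h.norm_U_le _ _) (norm_nonneg x)))

lemma pi_apply (h : Tomita.CycSep M ξ) (x : H →L[ℂ] H) (v : K H) (j : ℤ) :
    pi M ξ g x v j = Tomita.U M ξ (j * g) (x (Tomita.U M ξ (-(j * g)) (v j))) := by
  rw [pi, dif_pos fun j => norm_sigma_le h _ x]
  rfl

lemma norm_pi_le (h : Tomita.CycSep M ξ) (x : H →L[ℂ] H) : ‖pi M ξ g x‖ ≤ ‖x‖ := by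
  rw [pi, dif_pos fun j => norm_sigma_le h _ x]
  exact norm_diag_le _

lemma entry_pi (h : Tomita.CycSep M ξ) (x : H →L[ℂ] H) (i j : ℤ) :
    entry (pi M ξ g x) i j =
      if i = j then Tomita.U M ξ (i * g) * x * Tomita.U M ξ (-(i * g)) else 0 := by
  rw [pi, dif_pos fun j => norm_sigma_le h _ x, entry_diag]

lemma pi_add (h : Tomita.CycSep M ξ) (x y : H →L[ℂ] H) :
    pi M ξ g (x + y) = pi M ξ g x + pi M ξ g y := by
  refine ext_entry fun i j => ?_
  rw [entry_add, entry_pi h, entry_pi h, entry_pi h]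
  by_cases hij : i = j <;> simp [hij, mul_add, add_mul]

lemma pi_smul (h : Tomita.CycSep M ξ) (c : ℂ) (x : H →L[ℂ] H) :
    pi M ξ g (c • x) = c • pi M ξ g x := by
  refine ext_entry fun i j => ?_
  rw [entry_smul, entry_pi h, entry_pi h]
  by_cases hij : i = j <;> simp [hij]

lemma pi_star (h : Tomita.CycSep M ξ) (x : H →L[ℂ] H) :
    pi M ξ g (star x) = star (pi M ξ g x) := by
  refine ext_entry fun i j => ?_
  rw [entry_star, entry_pi h, entry_pi h]
  by_cases hij : i = j
  · subst hij; simp [h.star_U, mul_assoc]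
  · simp [hij, Ne.symm hij]

lemma pi_comm_const (h : Tomita.CycSep M ξ) {x : H →L[ℂ] H} (hx : x ∈ M) {y : H →L[ℂ] H}
    (hy : y ∈ M.commutant) : const y * pi M ξ g x = pi M ξ g x * const y := by
  refine (commute_const_iff y _).2 fun i j => ?_
  rw [entry_pi h]
  by_cases hij : i = j
  · rw [if_pos hij]
    exact (VonNeumannAlgebra.mem_commutant_iff.1 hy _ (h.sigma_mem _ hx)).symm
  · simp [hij]

/-- The copy commutes with the flow on the grid. -/
lemma pi_comm_V_grid (h : Tomita.CycSep M ξ) (hg : g ≠ 0) (m : ℤ) (x : H →L[ℂ] H) :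
    V M ξ g (m * g) * pi M ξ g x = pi M ξ g x * V M ξ g (m * g) := by
  refine ext_entry fun i j => ?_
  rw [pi, dif_pos fun j => norm_sigma_le h _ x, entry_mul_diag, entry_diag_mul, entry_V_grid hg]
  by_cases hij : i = j + m
  · subst hij
    rw [if_pos rfl, mul_assoc (Tomita.U M ξ _ * x), ← mul_assoc, ← mul_assoc, ← h.U_add, ← h.U_add]
    push_cast
    ring_nf
  · simp [hij]

lemma entry_V (t : ℝ) (i j : ℤ) :
    entry (V M ξ g t) i j = coef (scalarHom (expF (I * ((t / g : ℝ) : ℂ)))) i j • Tomita.U M ξ t := by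
  rw [V, entry_const_mul, entry_ex, mul_smul_comm, mul_one]
  push_cast
  rw [mul_div_assoc]

/-- The corner of a conjugate of the copy is an average of the flow. -/
lemma hasSum_corner (h : Tomita.CycSep M ξ) (x : H →L[ℂ] H) (t : ℝ) (v : H) :
    HasSum (fun l : ℤ => weight (t / g) l •
        Tomita.U M ξ (t + l * g) (x (Tomita.U M ξ (-(t + l * g)) v)))
      (entry (V M ξ g t * pi M ξ g x * V M ξ g (-t)) 0 0 v) := by
  have hs := hasSum_entry_mul (V M ξ g t) (pi M ξ g x * V M ξ g (-t)) 0 0 v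
  rw [← mul_assoc] at hs
  refine hs.congr_fun fun l => ?_
  set c := coef (scalarHom (expF (I * ((t / g : ℝ) : ℂ)))) 0 l
  have hc : coef (scalarHom (expF (I * (((-t) / g : ℝ) : ℂ)))) l 0 = star c := by
    rw [← coef_star, ← map_star, star_expF_I, neg_div, ofReal_neg, mul_neg]
  rw [pi, dif_pos fun j => norm_sigma_le h _ x, entry_diag_mul, entry_V, entry_V, hc]
  simp only [mul_apply_eq_comp, smul_apply, map_smul, smul_smul]
  have e1 : ∀ w : H, Tomita.U M ξ t (Tomita.U M ξ (l * g) w) = Tomita.U M ξ (t + l * g) w :=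
    fun w => by rw [h.U_add]; rfl
  have e2 : Tomita.U M ξ (-(l * g)) (Tomita.U M ξ (-t) v) = Tomita.U M ξ (-(t + l * g)) v := by
    rw [show -(t + l * g) = -(l * g) + -t by ring, h.U_add]; rfl
  rw [e1, e2, weight, ← Complex.coe_smul]
  congr 1
  change ((‖c‖ ^ 2 : ℝ) : ℂ) = _
  rw [Complex.star_def]
  rw [Complex.conj_mul']
  push_cast
  rfl

/-- The corner of the flow of the copy tends to `x`, uniformly in time. -/
theorem corner_tendsto (h : Tomita.CycSep M ξ) (x : H →L[ℂ] H) (v : H) {ε : ℝ} (hε : 0 < ε) :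
    ∃ g₀ : ℝ, 0 < g₀ ∧ ∀ g : ℝ, g ≠ 0 → |g| ≤ g₀ → ∀ t : ℝ,
      ‖entry (V M ξ g t * pi M ξ g x * V M ξ g (-t)) 0 0 v - x v‖ ≤ ε := by
  set φ : ℝ → H := fun s => Tomita.U M ξ s (x (Tomita.U M ξ (-s) v)) with hφ
  have hφb : ∀ s, ‖φ s - x v‖ ≤ 2 * ‖x‖ * ‖v‖ := fun s => by
    have h1 : ‖φ s‖ ≤ ‖x‖ * ‖v‖ := (h.norm_U_le _ _).trans
      ((x.le_opNorm _).trans (mul_le_mul_of_nonneg_left (h.norm_U_le _ _) (norm_nonneg x)))
    linarith [norm_sub_le (φ s) (x v), x.le_opNorm v]
  have hφc : Tendsto φ (𝓝 0) (𝓝 (x v)) := by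
    rw [tendsto_iff_norm_sub_tendsto_zero]
    have h1 : Tendsto (fun s => ‖x (Tomita.U M ξ (-s) v) - x v‖ + ‖Tomita.U M ξ s (x v) - x v‖)
        (𝓝 0) (𝓝 0) := by
      have a1 := (x.continuous.comp ((h.U_continuous v).comp continuous_neg)).tendsto 0
      have a2 := (h.U_continuous (x v)).tendsto 0
      simp only [Function.comp_apply, neg_zero, h.U_zero, one_apply_eq_self] at a1 a2
      simpa using (tendsto_iff_norm_sub_tendsto_zero.1 a1).add
        (tendsto_iff_norm_sub_tendsto_zero.1 a2)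
    refine squeeze_zero (fun _ => norm_nonneg _) (fun s => ?_) h1
    refine (norm_sub_le_norm_sub_add_norm_sub _ (Tomita.U M ξ s (x v)) _).trans
      (add_le_add ?_ le_rfl)
    simp only [hφ, ← map_sub]
    exact h.norm_U_le _ _
  obtain ⟨η, hη, hball⟩ := Metric.tendsto_nhds_nhds.1 hφc (ε / 2) (half_pos hε)
  obtain ⟨F, hF⟩ := exists_weight_tail (show 0 < ε / 2 / (2 * ‖x‖ * ‖v‖ + 1) by positivity)
  set R : ℝ := 2 + ∑ l ∈ F, |(l : ℝ)|
  have hR : 0 < R := by
    have : 0 ≤ ∑ l ∈ F, |(l : ℝ)| := Finset.sum_nonneg fun l _ => abs_nonneg _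
    simp only [R]; linarith
  refine ⟨η / (2 * R), by positivity, fun g hg hgb t => ?_⟩
  -- reduce the time to one step of the grid
  set m : ℤ := ⌊t / g⌋
  set s : ℝ := t / g - m
  have hs : s ∈ Set.Icc (0 : ℝ) 1 :=
    ⟨sub_nonneg.2 (Int.floor_le _), by linarith [Int.lt_floor_add_one (t / g)]⟩
  have hper : V M ξ g t * pi M ξ g x * V M ξ g (-t) =
      V M ξ g (s * g) * pi M ξ g x * V M ξ g (-(s * g)) := by
    have et : t = s * g + m * g := by simp only [s]; field_simp; ring
    conv_lhs => rw [et]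
    rw [neg_add_rev, V_add h, V_add h, mul_assoc (V M ξ g (s * g)) (V M ξ g (m * g)),
      pi_comm_V_grid h hg, ← mul_assoc, ← mul_assoc, mul_assoc _ (V M ξ g (m * g)), ← V_add h]
    simp [V_zero h]
  rw [hper]
  have hsum := hasSum_corner (g := g) h x (s * g) v
  rw [mul_div_cancel_right₀ s hg] at hsum
  have hdiff := hsum.sub ((hasSum_weight s).smul_const (x v))
  simp only [one_smul, ← smul_sub] at hdiff
  have hmaj : HasSum (fun l => weight s l * (ε / 2) +
      if l ∈ F then 0 else weight s l * (2 * ‖x‖ * ‖v‖))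
      (1 * (ε / 2) + (1 - ∑ l ∈ F, weight s l) * (2 * ‖x‖ * ‖v‖)) := by
    refine ((hasSum_weight s).mul_right _).add ?_
    rw [sub_mul, Finset.sum_mul]
    have h1 := ((hasSum_weight s).mul_right (2 * ‖x‖ * ‖v‖)).sub
      (hasSum_sum_of_ne_finset_zero
        (f := fun l => if l ∈ F then weight s l * (2 * ‖x‖ * ‖v‖) else 0) (s := F)
        fun l hl => if_neg hl)
    rw [Finset.sum_congr rfl fun l hl => if_pos hl] at h1
    exact h1.congr_fun fun l => by by_cases hl : l ∈ F <;> simp [hl]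
  refine (le_of_le_of_eq ?_ rfl : _ ≤ 1 * (ε / 2) + (1 - ∑ l ∈ F, weight s l) *
    (2 * ‖x‖ * ‖v‖)).trans ?_
  · refine hdiff.tsum_eq ▸ tsum_of_norm_bounded hmaj fun l => ?_
    have hw : 0 ≤ weight s l := sq_nonneg _
    rw [norm_smul, Real.norm_of_nonneg hw]
    by_cases hl : l ∈ F
    · rw [if_pos hl, add_zero]
      refine mul_le_mul_of_nonneg_left ?_ hw
      have hd : |s * g + l * g| < η := by
        rw [← add_mul, abs_mul]
        have hl' : |(l : ℝ)| ≤ ∑ k ∈ F, |(k : ℝ)| :=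
          Finset.single_le_sum (f := fun k : ℤ => |(k : ℝ)|) (fun k _ => abs_nonneg _) hl
        have hb : |s + l| ≤ R := by
          have := abs_add_le s (l : ℝ)
          rw [abs_of_nonneg hs.1] at this
          simp only [R]; linarith [hs.2]
        calc |s + ↑l| * |g| ≤ R * (η / (2 * R)) := mul_le_mul hb hgb (abs_nonneg _) hR.le
          _ = η / 2 := by field_simp
          _ < η := half_lt_self hη
      have := hball (by simpa [Real.dist_eq] using hd : dist (s * g + l * g) 0 < η)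
      rw [dist_eq_norm] at this
      exact this.le
    · rw [if_neg hl]
      have := mul_le_mul_of_nonneg_left (hφb (s * g + l * g)) hw
      nlinarith [hε, hw]
  · have h1 : (1 - ∑ l ∈ F, weight s l) * (2 * ‖x‖ * ‖v‖) ≤
        ε / 2 / (2 * ‖x‖ * ‖v‖ + 1) * (2 * ‖x‖ * ‖v‖ + 1) :=
      mul_le_mul (by linarith [hF s hs]) (by linarith) (by positivity) (by positivity)
    rw [div_mul_cancel₀ _ (by positivity)] at h1
    linarith

end Vale.Agent.P096.AT.Cross
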