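import Vale.Agent.P096.AT.SiteUnits
import Vale.Agent.P132.RouteB
import Vale.Agent.P132.Tuples

/-!
# P096, all types: what commutes with the almost invariant local elements is central

With sites an almost invariant matrix over `M` becomes an almost invariant element of `M`, so an
element which asymptotically commutes with such elements commutes asymptotically with the matrices,
and Route B of P132 makes it central. In particular the bicentralizer is the centre.
-/

noncomputable section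

namespace Vale.Agent.P096.AT

open Filter Topology Complex
open scoped InnerProductSpace
open Vale.Agent.P132
open _root_.P132 (Std Modular MatBound MatLip ampσ)

universe u

variable {H : Type u} [NormedAddCommGroup H] [InnerProductSpace ℂ H] [CompleteSpace H]
variable {M : VonNeumannAlgebra H} {ξ : H}

omit [CompleteSpace H] in
lemma matBound_of_entries {n : ℕ} {a : Fin n → Fin n → H →L[ℂ] H} {r : ℝ} (_hr : 0 ≤ r)
    (h : ∀ k l, ‖a k l‖ ≤ r) : MatBound a (n * r) := by
  intro v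
  have h1 : ∀ k, ‖∑ l, a k l (v l)‖ ^ 2 ≤ n * (r ^ 2 * ∑ l, ‖v l‖ ^ 2) := fun k => by
    have e : ‖∑ l, a k l (v l)‖ ≤ r * ∑ l, ‖v l‖ := by
      rw [Finset.mul_sum]
      exact (norm_sum_le _ _).trans (Finset.sum_le_sum fun l _ => ((a k l).le_opNorm _).trans
        (mul_le_mul_of_nonneg_right (h k l) (norm_nonneg _)))
    refine (pow_le_pow_left₀ (norm_nonneg _) e 2).trans ?_
    have := sq_sum_le_card_mul_sum_sq (s := Finset.univ) (f := fun l => ‖v l‖)
    simp only [Finset.card_univ, Fintype.card_fin] at this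
    rw [mul_pow]
    nlinarith [sq_nonneg r]
  refine (Finset.sum_le_sum fun k _ => h1 k).trans (le_of_eq ?_)
  simp only [Finset.sum_const, Finset.card_univ, Fintype.card_fin, nsmul_eq_mul]
  ring

lemma norm_phase_sub_le (a b : ℝ) : ‖cexp (I * (a : ℂ)) - cexp (I * (b : ℂ))‖ ≤ |a - b| := by
  have e : cexp (I * (a : ℂ)) - cexp (I * (b : ℂ)) =
      cexp (I * (b : ℂ)) * (cexp (I * ((a - b : ℝ) : ℂ)) - 1) := by
    rw [mul_sub, mul_one, ← Complex.exp_add]
    congr 2
    push_cast
    ring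
  rw [e, norm_mul, mul_comm I (b : ℂ), Complex.norm_exp_ofReal_mul_I, one_mul]
  exact Real.norm_exp_I_mul_ofReal_sub_one_le

/-- Positive rationals of sum one with logarithms near given ones. -/
lemma exists_rat_weights {n : ℕ} (L : Fin n → ℝ) (hL : ∑ k, Real.exp (L k) = 1) {d : ℝ}
    (hd : 0 < d) : ∃ ρ : Fin n → ℚ, (∀ k, 0 < ρ k) ∧ ∑ k, ρ k = 1 ∧
      ∀ k, |Real.log (ρ k : ℝ) - L k| ≤ d := by
  have hr : ∀ k, ∃ r : ℚ, Real.exp (L k - d / 2) < r ∧ (r : ℝ) < Real.exp (L k + d / 2) := fun k =>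
    exists_rat_btwn (Real.exp_lt_exp.2 (by linarith))
  choose r hr1 hr2 using hr
  have hr0 : ∀ k, (0 : ℝ) < r k := fun k => (Real.exp_pos _).trans (hr1 k)
  have hne : (Finset.univ : Finset (Fin n)).Nonempty := by
    by_contra h
    rw [Finset.not_nonempty_iff_eq_empty] at h
    simp [h] at hL
  set S : ℚ := ∑ k, r k
  have hS0 : (0 : ℝ) < S := by
    simp only [S]
    push_cast
    exact Finset.sum_pos (fun k _ => hr0 k) hne
  have hS1 : (S : ℝ) ≤ Real.exp (d / 2) := by
    rw [← mul_one (Real.exp (d / 2)), ← hL, Finset.mul_sum]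
    simp only [S]
    push_cast
    exact Finset.sum_le_sum fun k _ => by rw [← Real.exp_add, add_comm]; exact (hr2 k).le
  have hS2 : Real.exp (-(d / 2)) ≤ S := by
    rw [← mul_one (Real.exp (-(d / 2))), ← hL, Finset.mul_sum]
    simp only [S]
    push_cast
    refine Finset.sum_le_sum fun k _ => ?_
    rw [← Real.exp_add, show -(d / 2) + L k = L k - d / 2 by ring]
    exact (hr1 k).le
  refine ⟨fun k => r k / S, fun k => div_pos (by exact_mod_cast hr0 k) (by exact_mod_cast hS0),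
    by rw [← Finset.sum_div]; exact div_self (by exact_mod_cast hS0.ne'), fun k => ?_⟩
  have a1 := Real.log_lt_log (Real.exp_pos _) (hr1 k)
  have a2 := Real.log_lt_log (hr0 k) (hr2 k)
  have a3 := Real.log_le_log hS0 hS1
  have a4 := Real.log_le_log (Real.exp_pos _) hS2
  rw [Real.log_exp] at a1 a2 a3 a4
  push_cast
  rw [Real.log_div (hr0 k).ne' hS0.ne', abs_le]
  constructor <;> linarith

namespace Sites

variable (Si : Sites M ξ)

lemma E_sub (n : ℕ) {x y : H →L[ℂ] H} (hx : x ∈ M) (hy : y ∈ M) :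
    Si.E n (x - y) = Si.E n x - Si.E n y := by
  rw [sub_eq_add_neg, Si.E_add n x hx _ (neg_mem hy), ← neg_one_smul ℂ y, Si.E_smul n _ y hy]
  simp [sub_eq_add_neg]

lemma norm_E_le (n : ℕ) {x : H →L[ℂ] H} (hx : x ∈ M) : ‖Si.E n x‖ ≤ ‖x‖ := by
  have hb : MatBound (fun _ _ : Fin 1 => x) ‖x‖ := fun v => by
    simpa [mul_pow] using pow_le_pow_left₀ (norm_nonneg _) (x.le_opNorm (v 0)) 2
  refine ContinuousLinearMap.opNorm_le_bound _ (norm_nonneg _) fun v => ?_
  have h := Si.E_matBound n 1 (fun _ _ => x) ‖x‖ (fun _ _ => hx) hb fun _ => v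
  simp only [Fin.sum_univ_one] at h
  rw [← mul_pow] at h
  exact (pow_le_pow_iff_left₀ (norm_nonneg _) (by positivity) two_ne_zero).1 h

variable (h : Tomita.CycSep M ξ)

/-- `x` commutes asymptotically, on the vector, with almost invariant local elements. -/
def LipComm (x : H →L[ℂ] H) : Prop :=
  ∀ C : ℝ, ∀ ε > 0, ∃ η > 0, ∀ w ∈ M, Si.Loc w → ‖w‖ ≤ C →
    (∀ t, ‖(stdOf h).modular.σ t w - w‖ ≤ η * |t|) → ‖(x * w - w * x) ξ‖ ≤ ε

variable {Si h}

lemma tendsto_E_apply {a b : H →L[ℂ] H} (ha : a ∈ M) (hb : b ∈ M) :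
    Tendsto (fun N => (Si.E N a) ((Si.E N b) ξ)) atTop (𝓝 (a (b ξ))) := by
  have h1 := Si.E_tendsto b hb ξ
  have h2 := Si.E_tendsto a ha (b ξ)
  rw [tendsto_iff_norm_sub_tendsto_zero] at h1 h2 ⊢
  refine squeeze_zero (fun N => norm_nonneg _) (fun N => ?_)
    (by simpa using (h1.const_mul ‖a‖).add h2)
  calc ‖(Si.E N a) ((Si.E N b) ξ) - a (b ξ)‖
      = ‖(Si.E N a) ((Si.E N b) ξ - b ξ) + ((Si.E N a) (b ξ) - a (b ξ))‖ := by simp
    _ ≤ ‖a‖ * ‖(Si.E N b) ξ - b ξ‖ + ‖(Si.E N a) (b ξ) - a (b ξ)‖ :=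
      (norm_add_le _ _).trans (add_le_add (((Si.E N a).le_opNorm _).trans
        (mul_le_mul_of_nonneg_right (Si.norm_E_le N ha) (norm_nonneg _))) le_rfl)

/-- Localisation keeps almost invariance, also for slightly different weights. -/
lemma matLip_localise {n : ℕ} {L L' : Fin n → ℝ} {e : Fin n → Fin n → H →L[ℂ] H} (N : ℕ)
    (he : ∀ k l, e k l ∈ M) {C η d : ℝ} (hC : 0 ≤ C) (hη : 0 ≤ η) (hd : 0 ≤ d)
    (heC : MatBound e C) (heL : MatLip (stdOf h).modular L e η) (hLd : ∀ k, |L' k - L k| ≤ d) :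
    MatLip (stdOf h).modular L' (fun k l => Si.E N (e k l)) (n * (2 * d * C) + η) := by
  intro t
  set D := (stdOf h).modular
  set f := fun k l => Si.E N (e k l)
  have hfC : MatBound f C := Si.E_matBound N _ e C he heC
  have h1 : MatBound (fun k l => ampσ D L t f k l - f k l) (η * |t|) := by
    have h' := Si.E_matBound N _ (fun k l => ampσ D L t e k l - e k l) (η * |t|)
      (fun k l => sub_mem (_root_.P132.vN_smul_mem M _ (D.σ_mem' t (he k l))) (he k l)) (heL t)
    refine (fun e0 => (congrArg (fun a => MatBound a (η * |t|)) e0).mpr h') (funext fun k => funext fun l => ?_)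
    have hσ : Si.E N (D.σ t (e k l)) = D.σ t (f k l) := Si.E_flow N t _ (he k l)
    rw [ampσ, ampσ, Si.E_sub N (_root_.P132.vN_smul_mem M _ (D.σ_mem' t (he k l))) (he k l),
      Si.E_smul N _ _ (D.σ_mem' t (he k l)), hσ]
  have h2 : MatBound (fun k l => ampσ D L' t f k l - ampσ D L t f k l) (n * (2 * d * |t| * C)) := by
    refine matBound_of_entries (by positivity) fun k l => ?_
    rw [ampσ, ampσ, ← sub_smul, norm_smul]
    have hfn : ‖f k l‖ ≤ C := ContinuousLinearMap.opNorm_le_bound _ hC fun v => by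
      have h' := hfC (Pi.single l v)
      rw [Finset.sum_eq_single l (f := fun j => ‖(Pi.single l v : Fin _ → H) j‖ ^ 2)
        (fun j _ hj => by simp [hj]) (by simp), Pi.single_eq_same, ← mul_pow] at h'
      refine (pow_le_pow_iff_left₀ (norm_nonneg _) (by positivity) two_ne_zero).1 (le_trans ?_ h')
      refine le_trans (le_of_eq ?_) (Finset.single_le_sum (fun j _ => sq_nonneg _)
        (Finset.mem_univ k))
      rw [Finset.sum_eq_single l (fun j _ hj => by simp [hj]) (by simp), Pi.single_eq_same]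
    refine mul_le_mul ((norm_phase_sub_le _ _).trans ?_) ((D.norm_σ_le t _).trans hfn)
      (norm_nonneg _) (by positivity)
    rw [← sub_mul, abs_mul]
    refine mul_le_mul_of_nonneg_right ?_ (abs_nonneg t)
    have a1 := abs_le.1 (hLd k)
    have a2 := abs_le.1 (hLd l)
    rw [abs_le]
    constructor <;> linarith
  have h3 := h2.add (by positivity) (mul_nonneg hη (abs_nonneg t)) h1
  simp only [sub_add_sub_cancel] at h3
  exact h3.mono (by positivity) (le_of_eq (by ring))

/-- A small element stays small on the vector after a nearly central bounded one. -/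
lemma norm_apply_lip_le {W δ : H →L[ℂ] H} (hW : W ∈ M) (hδ : δ ∈ M) {C B η : ℝ} (hC : 0 ≤ C)
    (hB : 0 ≤ B) (hη : 0 ≤ η) (hWC : ‖W‖ ≤ C) (hδB : ‖δ‖ ≤ B)
    (hWL : ∀ t, ‖(stdOf h).modular.σ t W - W‖ ≤ η * |t|) :
    ‖δ (W ξ)‖ ^ 2 ≤ B * C ^ 2 * ‖δ ξ‖ +
      (_root_.P132.gLip 1 (-I) + 3 * _root_.P132.gLip 1 0) * η * (C * B ^ 2) := by
  have hn := (stdOf h).modular.nearlyCentral_of_lip hW hη hWL (star W * (star δ * δ))
    (mul_mem (star_mem hW) (mul_mem (star_mem hδ) hδ))
  have e1 : (stdOf h).φ (star W * (star δ * δ) * W) = (‖δ (W ξ)‖ ^ 2 : ℝ) := by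
    have : star W * (star δ * δ) * W = star (δ * W) * (δ * W) := by simp [mul_assoc]
    rw [this, (stdOf h).φ_star_mul, inner_self_eq_norm_sq_to_K]
    simp [stdOf]
  have e2 : (stdOf h).φ (W * (star W * (star δ * δ))) = ⟪(δ * (W * star W)) ξ, δ ξ⟫_ℂ := by
    have : W * (star W * (star δ * δ)) = star (δ * (W * star W)) * δ := by simp [mul_assoc]
    rw [this, (stdOf h).φ_star_mul]
    rfl
  rw [e1, e2] at hn
  have h5 := norm_sub_norm_le ((‖δ (W ξ)‖ ^ 2 : ℝ) : ℂ) ⟪(δ * (W * star W)) ξ, δ ξ⟫_ℂ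
  rw [Complex.norm_real, Real.norm_of_nonneg (sq_nonneg _)] at h5
  have h6 : ‖(δ * (W * star W)) ξ‖ ≤ B * C ^ 2 := by
    refine ((δ * (W * star W)).le_opNorm ξ).trans ?_
    rw [h.norm_one, mul_one, sq]
    exact (norm_mul_le _ _).trans (mul_le_mul hδB ((norm_mul_le _ _).trans
      (mul_le_mul hWC ((norm_star _).trans_le hWC) (norm_nonneg _) hC)) (norm_nonneg _) hB)
  have h7 := (norm_inner_le_norm (𝕜 := ℂ) ((δ * (W * star W)) ξ) (δ ξ)).trans
    (mul_le_mul_of_nonneg_right h6 (norm_nonneg _))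
  have h8 : ‖star W * (star δ * δ)‖ ≤ C * B ^ 2 := by
    refine (norm_mul_le _ _).trans
      (mul_le_mul ((norm_star _).trans_le hWC) ?_ (norm_nonneg _) hC)
    rw [sq]
    exact (norm_mul_le _ _).trans
      (mul_le_mul ((norm_star _).trans_le hδB) hδB (norm_nonneg _) hB)
  have h9 := mul_le_mul_of_nonneg_left h8 (mul_nonneg (add_nonneg (_root_.P132.gLip_nonneg 1 (-I))
    (mul_nonneg (by norm_num : (0 : ℝ) ≤ 3) (_root_.P132.gLip_nonneg 1 0))) hη)
  linarith

/-- Asymptotic commutation with almost invariant matrices follows. -/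
theorem keyFix_of_lipComm {x : H →L[ℂ] H} (hx : x ∈ M) (hc : Si.LipComm h x) :
    (stdOf h).modular.KeyFix x := by
  intro K ε hε
  set C := |K| + 1
  have hC1 : 1 ≤ C := le_add_of_nonneg_left (abs_nonneg _)
  have hC0 : 0 < C := one_pos.trans_le hC1
  set τ := Real.sqrt ε
  have hτ0 : 0 < τ := Real.sqrt_pos.2 hε
  have hτ2 : τ ^ 2 = ε := Real.sq_sqrt hε.le
  obtain ⟨η₀, hη₀, hw⟩ := hc C (τ / 4) (by positivity)
  set c₀ := _root_.P132.gLip 1 (-I) + 3 * _root_.P132.gLip 1 0
  have hc₀ : 0 ≤ c₀ := add_nonneg (_root_.P132.gLip_nonneg _ _)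
    (mul_nonneg (by norm_num) (_root_.P132.gLip_nonneg _ _))
  set B := 2 * ‖x‖ + 1
  have hB : 0 < B := by positivity
  set η := min η₀ (ε / (128 * (C * B ^ 2) * (c₀ + 1)))
  have hη : 0 < η := lt_min hη₀ (by positivity)
  refine ⟨η / 2, half_pos hη, fun n L e hL he heK heL => ?_⟩
  have heC : MatBound e C := fun v => (heK v).trans (mul_le_mul_of_nonneg_right
    (by rw [← sq_abs K]; exact pow_le_pow_left₀ (abs_nonneg _) (by linarith) 2) (by positivity))
  set d := min (Real.log 2) (η / (4 * (C * n + 1)))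
  have hd0 : 0 < d := lt_min (Real.log_pos one_lt_two) (by positivity)
  obtain ⟨ρ, hρ0, hρ1, hρd⟩ := exists_rat_weights L hL hd0
  set A : (H →L[ℂ] H) → (Fin n → Fin n → H →L[ℂ] H) → ℝ := fun y f =>
    ∑ k, ∑ l, (ρ l : ℝ) * ‖(y * f k l - f k l * y) ξ‖ ^ 2 with hA
  have hlim : Tendsto (fun N => A (Si.E N x) fun k l => Si.E N (e k l)) atTop (𝓝 (A x e)) := by
    refine tendsto_finsetSum _ fun k _ => tendsto_finsetSum _ fun l _ => ?_
    simp only [sub_apply, mul_apply_eq_comp]
    exact ((((tendsto_E_apply hx (he k l)).sub (tendsto_E_apply (he k l) hx)).norm).pow 2).const_mul _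
  have hlim2 : Tendsto (fun N => ‖(x - Si.E N x) ξ‖) atTop (𝓝 0) := by
    simpa using ((Si.E_tendsto x hx ξ).const_sub (x ξ)).norm
  obtain ⟨N, hN1, hN2⟩ := ((hlim.eventually (lt_mem_nhds (show A x e - ε / 8 < A x e by linarith))).and
    (hlim2.eventually (gt_mem_nhds (show (0 : ℝ) < min (ε / (128 * (B * C ^ 2))) (τ / (16 * C)) by
      positivity)))).exists
  obtain ⟨i, hi, hm, hwt⟩ := Si.rich n ρ hρ0 hρ1 N
  subst hm
  simp only [Fin.cast_refl, id_eq] at hwt
  set xN := Si.E N x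
  have hxN : Si.CommSite i xN := Si.E_comm N i hi x hx
  set f := fun k l => Si.E N (e k l)
  have hfc : ∀ k l, Si.CommSite i (f k l) := fun k l => Si.E_comm N i hi _ (he k l)
  have hfM : ∀ k l, f k l ∈ M := fun k l => Si.E_mem N _ (he k l)
  have hfL : MatLip (stdOf h).modular (fun a => Real.log (Si.wt i a)) f η := fun t =>
    (matLip_localise (h := h) N he hC0.le (half_pos hη).le hd0.le heC heL
      (fun k => by rw [hwt]; exact hρd k) t).mono (by positivity) (by
      refine mul_le_mul_of_nonneg_right ?_ (abs_nonneg t)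
      have h4 : d ≤ η / (4 * (C * (Si.dim i : ℕ) + 1)) := min_le_right _ _
      rw [le_div_iff₀ (by positivity)] at h4
      nlinarith [hd0.le])
  set W := Si.emb i f
  have hWM : W ∈ M := Si.emb_mem i hfM
  have hWC : ‖W‖ ≤ C := Si.norm_emb_le i hC0.le hfc (Si.E_matBound N _ e C he heC)
  have hWloc : Si.Loc W := ⟨i + 1, fun j hj a b => by
    have hne : i ≠ j := by omega
    simp only [W, emb, Finset.sum_mul, Finset.mul_sum, mul_assoc, Si.u_comm i j hne]
    simp only [← mul_assoc, Si.E_comm N j (by omega) _ (he _ _) a b, f]⟩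
  have hWL : ∀ t, ‖(stdOf h).modular.σ t W - W‖ ≤ η * |t| := Si.lip_emb i h hη.le hfc hfL
  have h1 := hw W hWM hWloc hWC fun t => (hWL t).trans
    (mul_le_mul_of_nonneg_right (min_le_left _ _) (abs_nonneg _))
  set δ := x - xN
  have hδM : δ ∈ M := sub_mem hx (Si.E_mem N x hx)
  have hδB : ‖δ‖ ≤ B := (norm_sub_le _ _).trans (by linarith [Si.norm_E_le N hx])
  have hδξ := le_min_iff.1 hN2.le
  have h2 : ‖δ (W ξ)‖ ≤ τ / 8 := by
    refine (pow_le_pow_iff_left₀ (norm_nonneg _) (by positivity) two_ne_zero).1 ?_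
    refine (norm_apply_lip_le hWM hδM hC0.le hB.le hη.le hWC hδB hWL).trans ?_
    have a1 : B * C ^ 2 * ‖δ ξ‖ ≤ ε / 128 := by
      refine (mul_le_mul_of_nonneg_left hδξ.1 (by positivity)).trans (le_of_eq ?_)
      field_simp
    have a2 : c₀ * η * (C * B ^ 2) ≤ ε / 128 := by
      have hη' : η * (128 * (C * B ^ 2) * (c₀ + 1)) ≤ ε :=
        (le_div_iff₀ (by positivity)).1 (min_le_right _ _)
      nlinarith [mul_nonneg hη.le (by positivity : 0 ≤ C * B ^ 2)]
    rw [div_pow, hτ2]
    linarith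
  have h3 : ‖W (δ ξ)‖ ≤ τ / 16 := by
    refine (W.le_opNorm _).trans ((mul_le_mul hWC hδξ.2 (norm_nonneg _) hC0.le).trans (le_of_eq ?_))
    field_simp
  have h4 : ‖(xN * W - W * xN) ξ‖ ≤ τ / 2 := by
    have e' : (xN * W - W * xN) ξ = (x * W - W * x) ξ - δ (W ξ) + W (δ ξ) := by simp [δ]
    rw [e']
    refine (norm_add_le _ _).trans ((add_le_add (norm_sub_le _ _) le_rfl).trans ?_)
    linarith
  have hAN : A xN f = ‖(xN * W - W * xN) ξ‖ ^ 2 := by
    have hcc : ∀ k l, Si.CommSite i (xN * f k l - f k l * xN) := fun k l a b => by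
      simp only [sub_mul, mul_sub, mul_assoc, hfc k l a b, hxN a b]
      simp only [← mul_assoc, hxN a b, hfc k l a b]
    have e' : xN * W - W * xN = Si.emb i fun k l => xN * f k l - f k l * xN := by
      simp only [W, emb, Finset.mul_sum, Finset.sum_mul, sub_mul, Finset.sum_sub_distrib,
        mul_assoc]
      congr 1
      refine Finset.sum_congr rfl fun a _ => Finset.sum_congr rfl fun b _ => ?_
      rw [hxN a b]
    rw [e', Si.norm_emb_apply i h (fun k l => sub_mem (mul_mem (Si.E_mem N x hx) (hfM k l))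
      (mul_mem (hfM k l) (Si.E_mem N x hx))) hcc]
    simp only [hA, hwt]
    rfl
  have h5 : A xN f ≤ ε / 4 := by
    rw [hAN]
    refine (pow_le_pow_left₀ (norm_nonneg _) h4 2).trans (le_of_eq ?_)
    rw [div_pow, hτ2]
    norm_num
  have hexp : ∀ l, Real.exp (L l) ≤ 2 * (ρ l : ℝ) := fun l => by
    have hρl : (0 : ℝ) < ρ l := by exact_mod_cast hρ0 l
    have := Real.exp_le_exp.2 (show L l ≤ Real.log 2 + Real.log (ρ l : ℝ) by
      linarith [(abs_le.1 (hρd l)).1, min_le_left (Real.log 2) (η / (4 * (C * (Si.dim i : ℕ) + 1)))])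
    rwa [Real.exp_add, Real.exp_log two_pos, Real.exp_log hρl] at this
  calc (∑ k, ∑ l, Real.exp (L l) * ‖(x * e k l - e k l * x) (stdOf h).Ω‖ ^ 2)
      ≤ ∑ k, ∑ l, 2 * (ρ l : ℝ) * ‖(x * e k l - e k l * x) ξ‖ ^ 2 :=
        Finset.sum_le_sum fun k _ => Finset.sum_le_sum fun l _ =>
          mul_le_mul_of_nonneg_right (hexp l) (sq_nonneg _)
    _ = 2 * A x e := by simp only [hA, Finset.mul_sum, mul_assoc]
    _ ≤ ε := by linarith

/-- An element which commutes asymptotically does so on every vector. -/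
lemma LipComm.apply {x : H →L[ℂ] H} (hx : x ∈ M) (hc : Si.LipComm h x) (C : ℝ) (v : H) {ε : ℝ}
    (hε : 0 < ε) : ∃ η > 0, ∀ w ∈ M, Si.Loc w → ‖w‖ ≤ C →
      (∀ t, ‖(stdOf h).modular.σ t w - w‖ ≤ η * |t|) → ‖(x * w - w * x) v‖ ≤ ε := by
  set D := (stdOf h).modular
  set B := 2 * ‖x‖ * |C| + 1
  have hB : 0 < B := by positivity
  obtain ⟨u, ⟨z, hz, hzu⟩, hu⟩ :=
    Metric.mem_closure_iff.1 (D.dense_J_orbit v) (ε / (2 * B)) (by positivity)
  obtain ⟨η, hη, hw⟩ := hc C (ε / (2 * (‖z‖ + 1))) (by positivity)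
  refine ⟨η, hη, fun w hwM hl hn ht => ?_⟩
  set d := x * w - w * x
  have hdM : d ∈ M := sub_mem (mul_mem hx hwM) (mul_mem hwM hx)
  have hd : ‖d‖ ≤ B := (_root_.P132.norm_comm_le (hn.trans (le_abs_self C))).trans (by simp [B])
  have e : d u = D.J (z (D.J (d ξ))) := by
    rw [← hzu]
    have e' := D.J_commutant d hdM z hz ξ
    rwa [show D.J ξ = ξ from D.J_Ω] at e'
  have h1 : ‖d u‖ ≤ ε / 2 := by
    rw [e, D.J.norm_map]
    refine (z.le_opNorm _).trans ?_
    rw [D.J.norm_map]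
    refine (mul_le_mul_of_nonneg_left (hw w hwM hl hn ht) (norm_nonneg z)).trans ?_
    rw [← mul_div_assoc, div_le_div_iff₀ (by positivity) two_pos]
    nlinarith [norm_nonneg z]
  rw [dist_eq_norm] at hu
  have h2 : ‖d (v - u)‖ ≤ ε / 2 := by
    refine ((d.le_opNorm _).trans (mul_le_mul hd hu.le (norm_nonneg _) hB.le)).trans (le_of_eq ?_)
    field_simp
  calc ‖d v‖ = ‖d (v - u) + d u‖ := by simp
    _ ≤ ε := (norm_add_le _ _).trans (by linarith)

variable (Si h)

/-- The elements which commute asymptotically together with their adjoints. -/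
def lipAlg : StarSubalgebra ℂ (H →L[ℂ] H) where
  carrier := {x | x ∈ M ∧ Si.LipComm h x ∧ Si.LipComm h (star x)}
  mul_mem' := by
    have hm : ∀ x y, x ∈ M → y ∈ M → Si.LipComm h x → Si.LipComm h y → Si.LipComm h (x * y) := by
      intro x y hx hy hcx hcy C ε hε
      obtain ⟨η₁, hη₁, h₁⟩ := hcy C (ε / (2 * (‖x‖ + 1))) (by positivity)
      obtain ⟨η₂, hη₂, h₂⟩ := hcx.apply hx C (y ξ) (half_pos hε)
      refine ⟨min η₁ η₂, lt_min hη₁ hη₂, fun w hw hl hn ht => ?_⟩
      have e : (x * y * w - w * (x * y)) ξ = x ((y * w - w * y) ξ) + (x * w - w * x) (y ξ) := by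
        simp
      have a := h₁ w hw hl hn fun t =>
        (ht t).trans (mul_le_mul_of_nonneg_right (min_le_left _ _) (abs_nonneg _))
      have b := h₂ w hw hl hn fun t =>
        (ht t).trans (mul_le_mul_of_nonneg_right (min_le_right _ _) (abs_nonneg _))
      have c : ‖x ((y * w - w * y) ξ)‖ ≤ ε / 2 := by
        refine ((x.le_opNorm _).trans (mul_le_mul_of_nonneg_left a (norm_nonneg x))).trans ?_
        rw [← mul_div_assoc, div_le_div_iff₀ (by positivity) two_pos]
        nlinarith [norm_nonneg x]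
      rw [e]
      exact (norm_add_le _ _).trans (by linarith)
    exact fun {x y} hx hy => ⟨mul_mem hx.1 hy.1, hm x y hx.1 hy.1 hx.2.1 hy.2.1,
      by rw [star_mul]; exact hm _ _ (star_mem hy.1) (star_mem hx.1) hy.2.2 hx.2.2⟩
  one_mem' := ⟨one_mem M, fun C ε hε => ⟨1, one_pos, fun w _ _ _ _ => by simpa using hε.le⟩,
    fun C ε hε => ⟨1, one_pos, fun w _ _ _ _ => by simpa using hε.le⟩⟩
  add_mem' := by
    have ha : ∀ x y, Si.LipComm h x → Si.LipComm h y → Si.LipComm h (x + y) := by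
      intro x y hcx hcy C ε hε
      obtain ⟨η₁, hη₁, h₁⟩ := hcx C (ε / 2) (half_pos hε)
      obtain ⟨η₂, hη₂, h₂⟩ := hcy C (ε / 2) (half_pos hε)
      refine ⟨min η₁ η₂, lt_min hη₁ hη₂, fun w hw hl hn ht => ?_⟩
      have a := h₁ w hw hl hn fun t =>
        (ht t).trans (mul_le_mul_of_nonneg_right (min_le_left _ _) (abs_nonneg _))
      have b := h₂ w hw hl hn fun t =>
        (ht t).trans (mul_le_mul_of_nonneg_right (min_le_right _ _) (abs_nonneg _))
      have e : ((x + y) * w - w * (x + y)) ξ = (x * w - w * x) ξ + (y * w - w * y) ξ := by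
        simp [add_sub_add_comm]
      rw [e]
      exact (norm_add_le _ _).trans (by linarith)
    exact fun {x y} hx hy => ⟨add_mem hx.1 hy.1, ha x y hx.2.1 hy.2.1,
      by rw [star_add]; exact ha _ _ hx.2.2 hy.2.2⟩
  zero_mem' := ⟨zero_mem M, fun C ε hε => ⟨1, one_pos, fun w _ _ _ _ => by simpa using hε.le⟩,
    fun C ε hε => ⟨1, one_pos, fun w _ _ _ _ => by simpa using hε.le⟩⟩
  algebraMap_mem' := fun c => by
    refine ⟨?_, fun C ε hε => ⟨1, one_pos, fun w _ _ _ _ => ?_⟩,
      fun C ε hε => ⟨1, one_pos, fun w _ _ _ _ => ?_⟩⟩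
    · rw [Algebra.algebraMap_eq_smul_one]
      exact _root_.P132.vN_smul_mem _ _ (one_mem M)
    · simpa [Algebra.algebraMap_eq_smul_one] using hε.le
    · simpa [Algebra.algebraMap_eq_smul_one] using hε.le
  star_mem' := fun {x} hx => ⟨star_mem hx.1, hx.2.2, by rw [star_star]; exact hx.2.1⟩

lemma isClosed_lipAlg : IsClosed (Si.lipAlg h : Set (H →L[ℂ] H)) := by
  refine isClosed_of_closure_subset fun x hx => ?_
  have hxM : x ∈ M :=
    (_root_.P132.isClosed_vN M).closure_subset_iff.2 (fun y hy => hy.1) hx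
  have hap : ∀ (g : (H →L[ℂ] H) → H →L[ℂ] H), (∀ a b, ‖g a - g b‖ = ‖a - b‖) →
      (∀ y ∈ Si.lipAlg h, Si.LipComm h (g y)) → Si.LipComm h (g x) := by
    intro g hg hmem C ε hε
    obtain ⟨y, hy, hxy⟩ := Metric.mem_closure_iff.1 hx (ε / (4 * (|C| + 1))) (by positivity)
    rw [dist_eq_norm, ← hg] at hxy
    obtain ⟨η, hη, h₁⟩ := hmem y hy C (ε / 2) (half_pos hε)
    refine ⟨η, hη, fun w hw hl hn ht => ?_⟩
    have a := h₁ w hw hl hn ht
    have b : ‖(g x - g y) * w - w * (g x - g y)‖ ≤ ε / 2 := by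
      refine (_root_.P132.norm_comm_le (hn.trans (le_abs_self C))).trans ?_
      have := mul_le_mul_of_nonneg_right hxy.le (by positivity : (0 : ℝ) ≤ 2 * (|C| + 1))
      have e : ε / (4 * (|C| + 1)) * (2 * (|C| + 1)) = ε / 2 := by field_simp; ring
      nlinarith [norm_nonneg (g x - g y), abs_nonneg C]
    have e : (g x * w - w * g x) ξ =
        (g y * w - w * g y) ξ + ((g x - g y) * w - w * (g x - g y)) ξ := by simp; abel
    rw [e]
    refine (norm_add_le _ _).trans ?_
    have c := ((g x - g y) * w - w * (g x - g y)).le_opNorm ξ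
    rw [h.norm_one, mul_one] at c
    linarith
  exact ⟨hxM, hap id (fun _ _ => rfl) fun y hy => hy.2.1,
    hap star (fun a b => by rw [← star_sub, norm_star]) fun y hy => hy.2.2⟩

/-- What commutes asymptotically with the almost invariant local elements is central. -/
theorem central_of_lipComm {x : H →L[ℂ] H} (hx : x ∈ M) (h1 : Si.LipComm h x)
    (h2 : Si.LipComm h (star x)) : x ∈ M.commutant := by
  let A := Si.lipAlg h
  have := Si.isClosed_lipAlg h
  let : CStarAlgebra A := StarSubalgebra.cstarAlgebra A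
  set D := (stdOf h).modular
  have key : ∀ u : A, star (u : H →L[ℂ] H) * u = 1 → ∀ b ∈ M, IsSelfAdjoint b → ∀ m > 0,
      (u : H →L[ℂ] H) * D.smooth m b = D.smooth m b * u := by
    intro u hiso b hb hsa m hm
    set o := _root_.P132.Core.Orbit.ofSmooth D (S := stdOf h) hb hsa hm
    have hfix : D.KeyFix (u : H →L[ℂ] H) := keyFix_of_lipComm u.2.1 u.2.2.1
    have h0 : o.comm u 0 = 0 := by
      refine _root_.P132.Core.detect (o.continuous_comm _) (o.norm_comm_le _) fun g hg hr t t' => ?_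
      obtain ⟨W, rfl, hχ⟩ := _root_.P132.Core.Window.exists_of hg hr
      exact o.psi_comm_eq_zero W u.2.1 hfix hiso hχ (t, t')
    have h3 : (D.smooth m b * u - u * D.smooth m b) (stdOf h).Ω = 0 := by
      simpa [_root_.P132.Core.Orbit.comm, o, _root_.P132.Core.Orbit.ofSmooth, mul_apply_eq_comp]
        using h0
    have hM := sub_mem (mul_mem (D.smooth_mem m hb) (show (u : H →L[ℂ] H) ∈ (stdOf h).M from u.2.1))
      (mul_mem u.2.1 (D.smooth_mem m hb))
    exact (sub_eq_zero.1 ((stdOf h).separating _ hM h3)).symm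
  have hall : ∀ b ∈ M, IsSelfAdjoint b → ∀ m > 0, ∀ a : A,
      (a : H →L[ℂ] H) * D.smooth m b = D.smooth m b * a := by
    intro b hb hsa m hm a
    have ha : a ∈ Submodule.span ℂ (unitary A : Set A) := by
      rw [CStarAlgebra.span_unitary]; trivial
    induction ha using Submodule.span_induction with
    | mem u hu => exact key u (congrArg Subtype.val (Unitary.mem_iff.1 hu).1) b hb hsa m hm
    | zero => simp
    | add p q _ _ hp hq => push_cast; rw [add_mul, mul_add, hp, hq]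
    | smul c p _ hp => rw [SetLike.val_smul, smul_mul_assoc, mul_smul_comm, hp]
  have hsa : ∀ b ∈ M, IsSelfAdjoint b → x * b = b * x := by
    intro b hb hs
    ext v
    have a1 : Tendsto (fun n : ℕ => x (D.smooth (n + 1) b v)) atTop (𝓝 (x (b v))) :=
      (x.continuous.tendsto _).comp (D.tendsto_smooth b v)
    have a2 : Tendsto (fun n : ℕ => x (D.smooth (n + 1) b v)) atTop (𝓝 (b (x v))) := by
      refine (D.tendsto_smooth b (x v)).congr fun n => ?_
      exact congr($(hall b hb hs (n + 1) (by positivity) ⟨x, hx, h1, h2⟩) v).symm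
    exact tendsto_nhds_unique a1 a2
  rw [VonNeumannAlgebra.mem_commutant_iff]
  intro b hb
  have a1 := hsa (b + star b) (add_mem hb (star_mem hb)) (IsSelfAdjoint.add_star_self b)
  have a2 := hsa (I • (star b - b)) (_root_.P132.vN_smul_mem _ _ (sub_mem (star_mem hb) hb)) (by
    rw [IsSelfAdjoint, star_smul, star_sub, star_star, RCLike.star_def, Complex.conj_I, neg_smul,
      ← smul_neg, neg_sub])
  rw [mul_smul_comm, smul_mul_assoc] at a2
  have a3 := (smul_right_injective _ I_ne_zero) a2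
  rw [mul_add, add_mul] at a1
  rw [mul_sub, sub_mul] at a3
  have a4 : (2 : ℂ) • (x * b - b * x) = 0 := by
    rw [two_smul]
    linear_combination (norm := abel) a1 - a3
  exact (sub_eq_zero.1 ((smul_eq_zero.1 a4).resolve_left two_ne_zero)).symm

end Sites

/-- With sites the bicentralizer is the centre. -/
theorem bicentralOut : BicentralOut.{u} := by
  intro H _ _ _ M ξ h hS x hx
  obtain ⟨Si⟩ := hS
  set D := (stdOf h).modular
  have hxB : x ∈ (stdOf h).B := hx
  have hcomm : ∀ y ∈ (stdOf h).B, Si.LipComm h y := by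
    intro y hy C ε hε
    obtain ⟨η, hη, hw⟩ := Modular.B_uniform hy C hε
    set c₀ := _root_.P132.gLip 1 (-I) + 3 * _root_.P132.gLip 1 0
    have hc₀ : 0 ≤ c₀ := add_nonneg (_root_.P132.gLip_nonneg _ _)
      (mul_nonneg (by norm_num) (_root_.P132.gLip_nonneg _ _))
    refine ⟨η / (c₀ + 1), by positivity, fun w hwM _ hn ht => hw w hwM hn fun z hz => ?_⟩
    refine (D.nearlyCentral_of_lip hwM (by positivity) ht z hz).trans
      (mul_le_mul_of_nonneg_right ?_ (norm_nonneg _))
    rw [← mul_div_assoc, div_le_iff₀ (by positivity)]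
    nlinarith
  exact Si.central_of_lipComm h hx.1 (hcomm x hxB) (hcomm _ (_root_.P132.star_mem_B D hxB))

end Vale.Agent.P096.AT
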