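import Vale.Agent.P096.AT.Twist
import Vale.Agent.P096.AT.SiteCentral

/-!
# P096, all types: escape to the centre

Given finitely many tracial sites, a self-adjoint element commuting with them is moved to the centre
by averages of nearly centralised local unitaries commuting with the sites: the vectors of nearly
least norm converge, the limit commutes asymptotically with Cayley transforms, hence is central.
-/

noncomputable section

namespace Vale.Agent.P096.AT

open Filter Topology Complex MeasureTheory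
open Vale.Agent.P132
open scoped InnerProductSpace
open _root_.P132 (Std Modular gLip gLip_nonneg)

universe u

variable {H : Type u} [NormedAddCommGroup H] [InnerProductSpace ℂ H] [CompleteSpace H]
variable {M : VonNeumannAlgebra H} {ξ : H}

/-- The average of the conjugates of `y`. -/
def avgConj {ι : Type*} [Fintype ι] (y : H →L[ℂ] H) (v : ι → H →L[ℂ] H) : H →L[ℂ] H :=
  (Fintype.card ι : ℂ)⁻¹ • ∑ j, star (v j) * y * v j

lemma avgConj_comp {ι κ : Type*} [Fintype ι] [Fintype κ] (y : H →L[ℂ] H) (v : ι → H →L[ℂ] H)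
    (e : κ ≃ ι) : avgConj y (v ∘ e) = avgConj y v := by
  rw [avgConj, avgConj, Fintype.card_congr e]
  congr 1
  exact e.sum_comp fun j => star (v j) * y * v j

omit [InnerProductSpace ℂ H] [CompleteSpace H] in
lemma norm_comm_sum_le {ι : Type*} (s : Finset ι) {f : ι → H} {b : ℝ} (h : ∀ i ∈ s, ‖f i‖ ≤ b) :
    ‖∑ i ∈ s, f i‖ ≤ s.card * b :=
  (norm_sum_le_of_le s h).trans_eq (by simp)

namespace Sites

variable (Si : Sites M ξ)

/-- The site `i` is tracial. -/
def Uni (i : ℕ) : Prop := ∀ a, Si.wt i a = (Si.dim i : ℝ)⁻¹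

/-- `y` commutes with all units of the sites in `F`. -/
def CommAll (F : List ℕ) (y : H →L[ℂ] H) : Prop := ∀ i ∈ F, Si.CommSite i y

variable {Si}

namespace CommSite

variable {i : ℕ} {x y : H →L[ℂ] H}

lemma one : Si.CommSite i 1 := fun a b => by simp

lemma mul (hx : Si.CommSite i x) (hy : Si.CommSite i y) : Si.CommSite i (x * y) := fun a b => by
  rw [mul_assoc, hy a b, ← mul_assoc, hx a b, mul_assoc]

lemma add (hx : Si.CommSite i x) (hy : Si.CommSite i y) : Si.CommSite i (x + y) := fun a b => by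
  rw [add_mul, mul_add, hx a b, hy a b]

lemma sub (hx : Si.CommSite i x) (hy : Si.CommSite i y) : Si.CommSite i (x - y) := fun a b => by
  rw [sub_mul, mul_sub, hx a b, hy a b]

lemma smul (hx : Si.CommSite i x) (c : ℂ) : Si.CommSite i (c • x) := fun a b => by
  rw [smul_mul_assoc, mul_smul_comm, hx a b]

lemma star (hx : Si.CommSite i x) : Si.CommSite i (star x) := fun a b => by
  have := congrArg Star.star (hx b a)
  simpa [Si.u_star] using this.symm

lemma sum {ι : Type*} (s : Finset ι) {f : ι → H →L[ℂ] H} (hf : ∀ k ∈ s, Si.CommSite i (f k)) :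
    Si.CommSite i (∑ k ∈ s, f k) := fun a b => by
  rw [Finset.sum_mul, Finset.mul_sum]
  exact Finset.sum_congr rfl fun k hk => hf k hk a b

lemma unit {j : ℕ} (hji : j ≠ i) (a b : Fin (Si.dim j)) : Si.CommSite i (Si.u j a b) :=
  fun c d => Si.u_comm j i hji a b c d

lemma coef {j : ℕ} (hy : Si.CommSite i y) (a b : Fin (Si.dim j)) :
    Si.CommSite i (Si.coef j y a b) := by
  rcases eq_or_ne j i with rfl | hji
  · exact Si.coef_comm j y a b
  · exact sum _ fun c _ => ((unit hji _ _).mul hy).mul (unit hji _ _)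

end CommSite

namespace Loc

variable {x y : H →L[ℂ] H}

lemma of_imp (hx : Si.Loc x) (himp : ∀ j, Si.CommSite j x → Si.CommSite j y) : Si.Loc y :=
  hx.imp fun _ hN j hj => himp j (hN j hj)

lemma one : Si.Loc 1 := ⟨0, fun _ _ => CommSite.one⟩

lemma star (hx : Si.Loc x) : Si.Loc (star x) := hx.of_imp fun _ h => h.star

lemma mul (hx : Si.Loc x) (hy : Si.Loc y) : Si.Loc (x * y) :=
  let ⟨N, hN⟩ := hx; let ⟨N', hN'⟩ := hy
  ⟨max N N', fun j hj => (hN j (le_of_max_le_left hj)).mul (hN' j (le_of_max_le_right hj))⟩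

lemma add (hx : Si.Loc x) (hy : Si.Loc y) : Si.Loc (x + y) :=
  let ⟨N, hN⟩ := hx; let ⟨N', hN'⟩ := hy
  ⟨max N N', fun j hj => (hN j (le_of_max_le_left hj)).add (hN' j (le_of_max_le_right hj))⟩

lemma smul (hx : Si.Loc x) (c : ℂ) : Si.Loc (c • x) := hx.of_imp fun _ h => h.smul c

lemma sub (hx : Si.Loc x) (hy : Si.Loc y) : Si.Loc (x - y) := by
  rw [sub_eq_add_neg, ← neg_one_smul ℂ y]
  exact hx.add (hy.smul _)

lemma unit (i : ℕ) (a b : Fin (Si.dim i)) : Si.Loc (Si.u i a b) :=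
  ⟨i + 1, fun j hj => CommSite.unit (by omega) a b⟩

lemma sum {ι : Type*} (s : Finset ι) {f : ι → H →L[ℂ] H} (hf : ∀ k ∈ s, Si.Loc (f k)) :
    Si.Loc (∑ k ∈ s, f k) := by
  classical
  induction s using Finset.induction_on with
  | empty => exact ⟨0, fun j _ a b => by simp⟩
  | insert k t hk ih =>
    rw [Finset.sum_insert hk]
    exact (hf k (Finset.mem_insert_self k t)).add
      (ih fun l hl => hf l (Finset.mem_insert_of_mem hl))

end Loc

variable (Si)

lemma norm_u_le (i : ℕ) (a b : Fin (Si.dim i)) : ‖Si.u i a b‖ ≤ 1 := by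
  have h1 : star (Si.u i a b) * Si.u i a b = Si.u i b b := by
    rw [Si.u_star, Si.u_mul, if_pos rfl]
  have h2 : star (Si.u i b b) * Si.u i b b = Si.u i b b := by
    rw [Si.u_star, Si.u_mul, if_pos rfl]
  have e1 := CStarRing.norm_star_mul_self (x := Si.u i a b)
  have e2 := CStarRing.norm_star_mul_self (x := Si.u i b b)
  rw [h1] at e1
  rw [h2] at e2
  have h3 : ‖Si.u i b b‖ ≤ 1 := by nlinarith [norm_nonneg (Si.u i b b)]
  nlinarith [norm_nonneg (Si.u i a b)]

lemma norm_coef_le (i : ℕ) (y : H →L[ℂ] H) (a b : Fin (Si.dim i)) :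
    ‖Si.coef i y a b‖ ≤ Si.dim i * ‖y‖ := by
  refine (norm_sum_le_of_le _ (n := fun _ => ‖y‖) fun c _ => ?_).trans_eq (by simp)
  refine (norm_mul_le _ _).trans ((mul_le_of_le_one_right (norm_nonneg _) (Si.norm_u_le _ _ _)).trans ?_)
  exact (norm_mul_le _ _).trans (mul_le_of_le_one_left (norm_nonneg _) (Si.norm_u_le _ _ _))

variable (h : Tomita.CycSep M ξ)

variable {Si}

lemma Uni.σ_fix {i : ℕ} (hi : Si.Uni i) (a b : Fin (Si.dim i)) (t : ℝ) :
    (stdOf h).modular.σ t (Si.u i a b) = Si.u i a b := by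
  rw [Si.σ_unit i h, hi a, hi b]
  simp

lemma Uni.tw {i : ℕ} (hi : Si.Uni i) (a b : Fin (Si.dim i)) :
    Tw (stdOf h).modular (Si.u i a b) (Si.u i a b) :=
  Tw.fixed (Si.u_mem i a b) fun t => hi.σ_fix h a b t

variable (Si)

/-- Nearly centralised local unitaries commuting with the sites in `F`. -/
structure Good (F : List ℕ) (η : ℝ) (v : H →L[ℂ] H) : Prop where
  unit : star v * v = 1
  unit' : v * star v = 1
  cen : Cen (stdOf h).modular η v
  loc : Si.Loc v
  comm : Si.CommAll F v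

/-- Averages of conjugates by good unitaries. -/
def Av (F : List ℕ) (y : H →L[ℂ] H) (η : ℝ) : Set (H →L[ℂ] H) :=
  {c | ∃ m : ℕ, 0 < m ∧ ∃ v : Fin m → H →L[ℂ] H, (∀ j, Si.Good h F η (v j)) ∧ c = avgConj y v}

variable {Si h} {F : List ℕ} {y c : H →L[ℂ] H} {η θ : ℝ}

lemma Good.mono {v : H →L[ℂ] H} (hv : Si.Good h F η v) (hle : η ≤ θ) : Si.Good h F θ v :=
  ⟨hv.unit, hv.unit', hv.cen.mono hle, hv.loc, hv.comm⟩

lemma Good.norm_le {v : H →L[ℂ] H} (hv : Si.Good h F η v) : ‖v‖ ≤ 1 :=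
  _root_.P132.norm_le_one_of_iso hv.unit

lemma Good.mul {v w : H →L[ℂ] H} (hv : Si.Good h F η v) (hw : Si.Good h F θ w) :
    Si.Good h F (η + θ + η * θ) (v * w) where
  unit := by rw [star_mul, mul_assoc, ← mul_assoc (star v), hv.unit, one_mul, hw.unit]
  unit' := by rw [star_mul, mul_assoc, ← mul_assoc w, hw.unit', one_mul, hv.unit']
  cen := hv.cen.mul hw.cen hv.norm_le hw.norm_le
  loc := hv.loc.mul hw.loc
  comm i hi := (hv.comm i hi).mul (hw.comm i hi)

lemma avgConj_mem_Av {ι : Type*} [Fintype ι] [Nonempty ι] {v : ι → H →L[ℂ] H}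
    (hv : ∀ j, Si.Good h F η (v j)) : avgConj y v ∈ Si.Av h F y η :=
  ⟨Fintype.card ι, Fintype.card_pos, v ∘ (Fintype.equivFin ι).symm, fun _ => hv _,
    (avgConj_comp _ _ _).symm⟩

lemma Av.mono (hc : c ∈ Si.Av h F y η) (hle : η ≤ θ) : c ∈ Si.Av h F y θ :=
  let ⟨m, hm, v, hv, e⟩ := hc
  ⟨m, hm, v, fun j => (hv j).mono hle, e⟩

lemma self_mem_Av (hη : 0 ≤ η) : y ∈ Si.Av h F y η :=
  ⟨1, one_pos, fun _ => 1, fun _ => ⟨by simp, by simp, Cen.one hη, Loc.one, fun _ _ => CommSite.one⟩,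
    by simp [avgConj]⟩

lemma Av.midpoint {c' : H →L[ℂ] H} (hc : c ∈ Si.Av h F y η) (hc' : c' ∈ Si.Av h F y η) :
    (2 : ℂ)⁻¹ • (c + c') ∈ Si.Av h F y η := by
  obtain ⟨m, hm, v, hv, rfl⟩ := hc
  obtain ⟨m', hm', v', hv', rfl⟩ := hc'
  have : NeZero m := ⟨hm.ne'⟩
  have : NeZero m' := ⟨hm'.ne'⟩
  refine (congrArg (fun x => x ∈ Si.Av h F y η) ?_).mp (avgConj_mem_Av
    (v := Sum.elim (fun p : Fin m × Fin m' => v p.1) (fun p : Fin m × Fin m' => v' p.2))
    (by rintro (p | p) <;> simp [hv, hv']))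
  simp only [avgConj, Fintype.sum_sum_type, Sum.elim_inl, Sum.elim_inr, Fintype.sum_prod_type,
    Fintype.card_sum, Fintype.card_prod, Fintype.card_fin, Finset.sum_const, Finset.card_univ,
    ← Finset.smul_sum, Nat.cast_add, Nat.cast_mul, smul_add]
  simp only [← Nat.cast_smul_eq_nsmul ℂ, smul_smul]
  have : (m : ℂ) ≠ 0 := by exact_mod_cast hm.ne'
  have : (m' : ℂ) ≠ 0 := by exact_mod_cast hm'.ne'
  congr 2 <;> field_simp <;> ring

lemma Av.mem (hc : c ∈ Si.Av h F y η) (hy : y ∈ M) : c ∈ M := by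
  obtain ⟨m, -, v, hv, rfl⟩ := hc
  exact _root_.P132.vN_smul_mem _ _ (sum_mem fun j _ =>
    mul_mem (mul_mem (star_mem (hv j).cen.mem) hy) (hv j).cen.mem)

lemma Av.norm_le (hc : c ∈ Si.Av h F y η) : ‖c‖ ≤ ‖y‖ := by
  obtain ⟨m, hm, v, hv, rfl⟩ := hc
  rw [avgConj, Fintype.card_fin, norm_smul, norm_inv, Complex.norm_natCast,
    inv_mul_le_iff₀ (by exact_mod_cast hm)]
  refine (norm_sum_le_of_le _ fun j _ => ?_).trans_eq (by simp : ∑ _ : Fin m, ‖y‖ = m * ‖y‖)
  refine (norm_mul_le _ _).trans ((mul_le_of_le_one_right (norm_nonneg _) (hv j).norm_le).trans ?_)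
  exact (norm_mul_le _ _).trans
    (mul_le_of_le_one_left (norm_nonneg _) ((norm_star _).trans_le (hv j).norm_le))

lemma Av.star_eq (hc : c ∈ Si.Av h F y η) (hy : IsSelfAdjoint y) : IsSelfAdjoint c := by
  obtain ⟨m, -, v, -, rfl⟩ := hc
  simp [IsSelfAdjoint, avgConj, star_smul, star_sum, hy.star_eq, mul_assoc]

lemma Av.comm (hc : c ∈ Si.Av h F y η) (hy : Si.CommAll F y) : Si.CommAll F c := by
  obtain ⟨m, -, v, hv, rfl⟩ := hc
  exact fun i hi => (CommSite.sum _ fun j _ =>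
    (((hv j).comm i hi).star.mul (hy i hi)).mul ((hv j).comm i hi)).smul _

lemma Av.conj {v : H →L[ℂ] H} (hc : c ∈ Si.Av h F y η) (hv : Si.Good h F θ v) :
    star v * c * v ∈ Si.Av h F y (η + θ + η * θ) := by
  obtain ⟨m, hm, w, hw, rfl⟩ := hc
  refine ⟨m, hm, fun j => w j * v, fun j => (hw j).mul hv, ?_⟩
  simp [avgConj, Finset.mul_sum, Finset.sum_mul, mul_assoc]

/-- The limit of the averages of nearly least norm. -/
lemma exists_limit_avg (hy : y ∈ M) (hsa : IsSelfAdjoint y) (hyF : Si.CommAll F y) :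
    ∃ z ∈ M, IsSelfAdjoint z ∧ Si.CommAll F z ∧
      (∀ η > 0, ∀ ε > 0, ∃ c ∈ Si.Av h F y η, ‖(c - z) ξ‖ ≤ ε) ∧
      ∀ ε > 0, ∃ θ > 0, ∀ v, Si.Good h F θ v → ‖(z * v - v * z) ξ‖ ≤ ε := by
  set e : ℕ → ℝ := fun n => 1 / ((n : ℝ) + 1) with he
  have he0 : ∀ n, 0 < e n := fun n => by positivity
  have hea : Antitone e := fun a b hab => Nat.one_div_le_one_div hab
  have het : Tendsto e atTop (𝓝 0) := tendsto_one_div_add_atTop_nhds_zero_nat
  set T : ℕ → Set ℝ := fun n => (fun c => ‖c ξ‖) '' Si.Av h F y (e n)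
  have hne : ∀ n, (T n).Nonempty := fun n => ⟨_, y, self_mem_Av (he0 n).le, rfl⟩
  have hbd : ∀ n, BddBelow (T n) := fun n => ⟨0, by rintro _ ⟨c, -, rfl⟩; positivity⟩
  set r : ℕ → ℝ := fun n => sInf (T n)
  have hr : ∀ n, ∀ c ∈ Si.Av h F y (e n), r n ≤ ‖c ξ‖ := fun n c hc =>
    csInf_le (hbd n) ⟨c, hc, rfl⟩
  have hr0 : ∀ n, 0 ≤ r n := fun n => le_csInf (hne n) (by rintro _ ⟨c, -, rfl⟩; positivity)
  have hrm : Monotone r := fun a b hab => csInf_le_csInf (hbd a) (hne b)
    (Set.image_mono fun c hc => Av.mono hc (hea hab))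
  have hrb : BddAbove (Set.range r) := ⟨‖y ξ‖, by
    rintro _ ⟨n, rfl⟩; exact hr n y (self_mem_Av (he0 n).le)⟩
  set R := ⨆ n, r n
  have hrR : Tendsto r atTop (𝓝 R) := tendsto_atTop_ciSup hrm hrb
  have hle : ∀ n, r n ≤ R := le_ciSup hrb
  have hR0 : 0 ≤ R := (hr0 0).trans (hle 0)
  have hex : ∀ n, ∃ c ∈ Si.Av h F y (e n), ‖c ξ‖ ≤ r n + e n := fun n => by
    obtain ⟨_, ⟨c, hc, rfl⟩, hlt⟩ := exists_lt_of_csInf_lt (hne n) (lt_add_of_pos_right _ (he0 n))
    exact ⟨c, hc, hlt.le⟩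
  choose c hc hcn using hex
  have hpar : ∀ N, ∀ a ∈ Si.Av h F y (e N), ∀ b ∈ Si.Av h F y (e N),
      ‖(a - b) ξ‖ ^ 2 ≤ 2 * ‖a ξ‖ ^ 2 + 2 * ‖b ξ‖ ^ 2 - 4 * r N ^ 2 := by
    intro N a ha b hb
    have h1 := pow_le_pow_left₀ (hr0 N) (hr N _ (Av.midpoint ha hb)) 2
    have h2 := parallelogram_law_with_norm ℂ (a ξ) (b ξ)
    simp only [smul_apply, add_apply, norm_smul, norm_inv, Complex.norm_ofNat] at h1
    rw [sub_apply]
    nlinarith
  have hcau : CauchySeq fun n => c n ξ := by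
    refine cauchySeq_of_le_tendsto_0
      (fun N => Real.sqrt (4 * (R + e N) ^ 2 - 4 * r N ^ 2)) (fun n m N hn hm => ?_) ?_
    · rw [dist_eq_norm, ← sub_apply]
      refine Real.le_sqrt_of_sq_le ((hpar N _ (Av.mono (hc n) (hea hn)) _ (Av.mono (hc m) (hea hm))).trans ?_)
      have a1 : ‖c n ξ‖ ≤ R + e N := (hcn n).trans (add_le_add (hle n) (hea hn))
      have a2 : ‖c m ξ‖ ≤ R + e N := (hcn m).trans (add_le_add (hle m) (hea hm))
      nlinarith [norm_nonneg (c n ξ), norm_nonneg (c m ξ)]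
    · have := (((tendsto_const_nhds (x := R)).add het).pow 2).const_mul (4 : ℝ) |>.sub
        ((hrR.pow 2).const_mul 4)
      simpa using this.sqrt
  obtain ⟨z, hzM, -, hz⟩ := (stdOf h).modular.exists_limit (fun n => Av.mem (hc n) hy)
    (fun n => Av.norm_le (hc n)) hcau
  have hzR : Tendsto (fun n => ‖c n ξ‖) atTop (𝓝 R) :=
    tendsto_of_tendsto_of_tendsto_of_le_of_le hrR (by simpa using hrR.add het)
      (fun n => hr n _ (hc n)) hcn
  refine ⟨z, hzM, ?_, fun i hi a b => ?_, fun η hη ε hε => ?_, fun ε hε => ?_⟩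
  · rw [ContinuousLinearMap.isSelfAdjoint_iff_isSymmetric]
    intro v w
    refine tendsto_nhds_unique ((hz v).inner tendsto_const_nhds) ?_
    exact (tendsto_const_nhds.inner (hz w)).congr fun n =>
      ((Av.star_eq (hc n) hsa).isSymmetric v w).symm
  · ext v
    refine tendsto_nhds_unique (hz (Si.u i a b v)) ?_
    exact (((Si.u i a b).continuous.tendsto _).comp (hz v)).congr fun n =>
      (congrArg (fun T : H →L[ℂ] H => T v) (Av.comm (hc n) hyF i hi a b)).symm
  · have h1 : Tendsto (fun n => ‖(c n - z) ξ‖) atTop (𝓝 0) := by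
      simpa [tendsto_iff_norm_sub_tendsto_zero] using hz ξ
    obtain ⟨n, hn1, hn2⟩ := ((het.eventually (gt_mem_nhds hη)).and
      (h1.eventually (gt_mem_nhds hε))).exists
    exact ⟨c n, Av.mono (hc n) hn1.le, hn2.le⟩
  · obtain ⟨N, hN⟩ := ((((hrR.pow 2).const_sub (R ^ 2)).const_mul (4 : ℝ)).eventually
      (gt_mem_nhds (show (4 : ℝ) * (R ^ 2 - R ^ 2) < ε ^ 2 / 2 by simp; positivity))).exists
    set t := min (e N / 3) (ε ^ 2 / (12 * (R ^ 2 + 1)))
    have ht : 0 < t := lt_min (by positivity) (by positivity)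
    have ht3 : t ≤ e N / 3 := min_le_left _ _
    have he1 : e N ≤ 1 := by simpa [he] using hea (Nat.zero_le N)
    refine ⟨t, ht, fun v hv => ?_⟩
    have key : ∀ᶠ n in atTop,
        ‖(star v * c n * v - c n) ξ‖ ^ 2 ≤ 2 * ((1 + t) * ‖c n ξ‖) ^ 2 + 2 * ‖c n ξ‖ ^ 2 - 4 * r N ^ 2 := by
      filter_upwards [het.eventually (gt_mem_nhds ht)] with n hn
      have h1 : c n ∈ Si.Av h F y (e N) := Av.mono (hc n) (by linarith [he0 N])
      have h2 : star v * c n * v ∈ Si.Av h F y (e N) :=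
        Av.mono (Av.conj (hc n) hv) (by nlinarith [he0 n])
      refine (hpar N _ h2 _ h1).trans ?_
      gcongr
      have hrb := hv.cen.rightBound (star v * c n) (mul_mem (star_mem hv.cen.mem) (Av.mem (hc n) hy))
      refine (hrb.trans ?_ : ‖(star v * c n) (v ξ)‖ ≤ _)
      refine mul_le_mul (by linarith [hv.norm_le]) ?_ (norm_nonneg _) (by positivity)
      exact ((star v).le_opNorm _).trans
        (mul_le_of_le_one_left (norm_nonneg _) ((norm_star v).trans_le hv.norm_le))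
    have hlim : Tendsto (fun n => ‖(star v * c n * v - c n) ξ‖ ^ 2) atTop
        (𝓝 (‖(star v * z * v - z) ξ‖ ^ 2)) := by
      simp only [sub_apply, mul_apply_eq_comp]
      exact ((((star v).continuous.tendsto _).comp (hz (v ξ))).sub (hz ξ)).norm.pow 2
    have hb := le_of_tendsto_of_tendsto hlim
      (((((hzR.const_mul (1 + t)).pow 2).const_mul 2).add ((hzR.pow 2).const_mul 2)).sub
        tendsto_const_nhds) key
    have ht1 : t ≤ 1 := by linarith
    have hs : t * (12 * (R ^ 2 + 1)) ≤ ε ^ 2 :=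
      (le_div_iff₀ (by positivity)).1 (min_le_right _ _)
    have h3 : ‖(star v * z * v - z) ξ‖ ≤ ε := by
      refine (pow_le_pow_iff_left₀ (norm_nonneg _) hε.le two_ne_zero).1 (hb.trans ?_)
      nlinarith [mul_le_mul_of_nonneg_left ht1 (mul_nonneg ht.le (sq_nonneg R))]
    have e1 : z * v - v * z = v * (star v * z * v - z) := by
      rw [mul_sub, ← mul_assoc, ← mul_assoc, hv.unit', one_mul]
    rw [e1, mul_apply_eq_comp]
    exact ((v.le_opNorm _).trans (mul_le_of_le_one_left (norm_nonneg _) hv.norm_le)).trans h3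

/-- Smoothing keeps the commutation with a site. -/
lemma commSite_smooth {i : ℕ} {w : H →L[ℂ] H} (hw : Si.CommSite i w) :
    Si.CommSite i ((stdOf h).modular.smooth 1 w) := by
  intro a b
  ext v
  have hg := _root_.P132.integrable_twistKernel one_pos 0 0
  simp only [Modular.smooth, Modular.twist, mul_apply_eq_comp]
  rw [Modular.smear_apply _ hg, Modular.smear_apply _ hg, ← (Si.u i a b).integral_comp_comm
    (Modular.integrable_smul_σ_apply _ hg w v)]
  refine integral_congr_ae (Eventually.of_forall fun t => ?_)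
  simp only [map_smul, ← mul_apply_eq_comp, Si.σ_comm i h hw t a b]

/-- Asymptotic commutation on the elements commuting with tracial sites suffices. -/
lemma lipComm_of_commAll {z : H →L[ℂ] H} (hz : z ∈ M) :
    ∀ {F : List ℕ}, (∀ i ∈ F, Si.Uni i) → Si.CommAll F z →
      (∀ C : ℝ, ∀ ε > 0, ∃ η > 0, ∀ w ∈ M, Si.Loc w → Si.CommAll F w → ‖w‖ ≤ C →
        (∀ t, ‖(stdOf h).modular.σ t w - w‖ ≤ η * |t|) → ‖(z * w - w * z) ξ‖ ≤ ε) →
      Si.LipComm h z
  | [], _, _, hk => fun C ε hε =>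
    let ⟨η, hη, hw⟩ := hk C ε hε
    ⟨η, hη, fun w h1 h2 h3 h4 => hw w h1 h2 (by simp [CommAll]) h3 h4⟩
  | i :: F, hF, hc, hk => by
    refine lipComm_of_commAll hz (fun j hj => hF j (List.mem_cons_of_mem _ hj))
      (fun j hj => hc j (List.mem_cons_of_mem _ hj)) fun C ε hε => ?_
    have hi : Si.Uni i := hF i List.mem_cons_self
    set D := (stdOf h).modular
    set d : ℝ := (Si.dim i : ℝ)
    have hd : 0 < d := by simp only [d]; exact_mod_cast Si.dim_pos i
    obtain ⟨η, hη, hw⟩ := hk (d * C) (ε / (d * d)) (by positivity)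
    refine ⟨η / d, by positivity, fun w hwM hl hwF hn ht => ?_⟩
    have hb : ∀ a b, ‖((z * Si.coef i w a b - Si.coef i w a b * z) * Si.u i a b) ξ‖ ≤ ε / (d * d) := by
      intro a b
      have hcM := Si.coef_mem i hwM a b
      have hrb := ((Tw.fixed (D := D) (Si.u_mem i b a) fun t => hi.σ_fix h b a t))
      have hrb' : Tw D (star (Si.u i a b)) (Si.u i b a) := by rw [Si.u_star]; exact hrb
      refine ((hrb'.rightBound _ (sub_mem (mul_mem hz hcM) (mul_mem hcM hz))).trans
        (mul_le_of_le_one_left (norm_nonneg _) (Si.norm_u_le _ _ _))).trans ?_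
      refine hw _ hcM (hl.of_imp fun j hj => hj.coef a b) (fun j hj => ?_)
        ((Si.norm_coef_le i w a b).trans (mul_le_mul_of_nonneg_left hn hd.le)) fun t => ?_
      · rcases List.mem_cons.1 hj with rfl | hj
        · exact Si.coef_comm _ w a b
        · exact (hwF j hj).coef a b
      · have e : D.σ t (Si.coef i w a b) - Si.coef i w a b = Si.coef i (D.σ t w - w) a b := by
          have hs : ∀ g : Fin (Si.dim i) → H →L[ℂ] H, D.σ t (∑ k, g k) = ∑ k, D.σ t (g k) :=
            fun g => by simp only [Modular.σ, Finset.mul_sum, Finset.sum_mul]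
          simp only [coef, hs, σ_mul, D, hi.σ_fix h, mul_sub, sub_mul, Finset.sum_sub_distrib]
        rw [e]
        refine (Si.norm_coef_le i _ a b).trans ((mul_le_mul_of_nonneg_left (ht t) hd.le).trans_eq ?_)
        field_simp
    have e : z * w - w * z =
        ∑ a, ∑ b, (z * Si.coef i w a b - Si.coef i w a b * z) * Si.u i a b := by
      conv_lhs => rw [Si.coef_expand i w]
      simp only [Finset.mul_sum, Finset.sum_mul, sub_mul, Finset.sum_sub_distrib, mul_assoc]
      simp only [← hc i List.mem_cons_self _ _]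
    simp only [e, sum_apply]
    refine (norm_comm_sum_le _ fun a _ => norm_comm_sum_le _ fun b _ => hb a b).trans_eq ?_
    simp only [Finset.card_univ, Fintype.card_fin, d]
    field_simp
    exact div_self hd.ne'

/-- What commutes asymptotically with good unitaries commutes with almost invariant elements. -/
lemma lipComm_of_good {z : H →L[ℂ] H} (hz : z ∈ M) (hF : ∀ i ∈ F, Si.Uni i)
    (hzF : Si.CommAll F z)
    (hv : ∀ ε > 0, ∃ θ > 0, ∀ v, Si.Good h F θ v → ‖(z * v - v * z) ξ‖ ≤ ε) :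
    Si.LipComm h z := by
  refine lipComm_of_commAll hz hF hzF ?_
  set D := (stdOf h).modular
  have sa : ∀ C : ℝ, ∀ ε > 0, ∃ η > 0, ∀ w ∈ M, IsSelfAdjoint w → Si.Loc w → Si.CommAll F w →
      ‖w‖ ≤ C → (∀ t, ‖D.σ t w - w‖ ≤ η * |t|) → ‖(z * w - w * z) ξ‖ ≤ ε := by
    intro C ε hε
    set A := (|C| + 2) ^ 2 / 2
    obtain ⟨θ, hθ, hθv⟩ := hv (ε / (2 * (A + 1))) (by positivity)
    set K := gLip 1 (-(I / 2)) + gLip 1 0
    have hK : 0 ≤ K := add_nonneg (gLip_nonneg _ _) (gLip_nonneg _ _)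
    set B := 2 * ‖z‖ * gLip 1 0
    have hB : 0 ≤ B := mul_nonneg (by positivity) (gLip_nonneg _ _)
    set η := min (min (θ / (4 * (K + 1))) (1 / (2 * (K + 1)))) (ε / (2 * (B + 1)))
    have hη : 0 < η := lt_min (lt_min (by positivity) (by positivity)) (by positivity)
    refine ⟨η, hη, fun w hwM hwsa hl hwF hn ht => ?_⟩
    have a1 : η * (4 * (K + 1)) ≤ θ :=
      (le_div_iff₀ (by positivity)).1 ((min_le_left _ _).trans (min_le_left _ _))
    have a2 : η * (2 * (K + 1)) ≤ 1 :=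
      (le_div_iff₀ (by positivity)).1 ((min_le_left _ _).trans (min_le_right _ _))
    have a3 : η * (2 * (B + 1)) ≤ ε := (le_div_iff₀ (by positivity)).1 (min_le_right _ _)
    set k := D.smooth 1 w
    have hksa : IsSelfAdjoint k := by
      rw [IsSelfAdjoint, D.star_smooth one_pos, hwsa.star_eq]
    obtain ⟨v, -, v1, v2, vc, vcomm, vy⟩ :=
      exists_cayley hksa (η := K * η) (by nlinarith) (cen_smooth (S := stdOf h) hwM hη.le ht)
    have hgood : Si.Good h F θ v := by
      refine ⟨v1, v2, vc.mono (by nlinarith), hl.of_imp fun j hj a b => ?_, fun i hi a b => ?_⟩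
      · exact (vcomm _ (commSite_smooth hj a b).symm).symm
      · exact (vcomm _ (commSite_smooth (hwF i hi) a b).symm).symm
    have h1 : ‖(z * k - k * z) ξ‖ ≤ ε / 2 := by
      refine (vy z hz).trans ?_
      have hA : (‖k‖ + 2) ^ 2 / 2 ≤ A := by
        have := (D.norm_smooth_le one_pos w).trans (hn.trans (le_abs_self C))
        simp only [A]
        gcongr
      refine (mul_le_mul hA (hθv v hgood) (norm_nonneg _) (by positivity)).trans ?_
      rw [← mul_div_assoc, div_le_div_iff₀ (by positivity) two_pos]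
      nlinarith [show 0 ≤ A by positivity]
    have h2 : ‖(z * (w - k) - (w - k) * z) ξ‖ ≤ ε / 2 := by
      have h3 : ‖w - k‖ ≤ gLip 1 0 * η := by
        rw [norm_sub_rev]; exact D.norm_smooth_sub_le one_pos hη.le ht
      refine ((ContinuousLinearMap.le_opNorm _ ξ).trans ?_)
      rw [h.norm_one, mul_one]
      refine (_root_.P132.norm_comm_le h3).trans ?_
      nlinarith
    have e : (z * w - w * z) ξ = (z * k - k * z) ξ + (z * (w - k) - (w - k) * z) ξ := by
      simp
      abel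
    rw [e]
    exact (norm_add_le _ _).trans (by linarith)
  intro C ε hε
  obtain ⟨η, hη, hs⟩ := sa (2 * C) ε hε
  refine ⟨η / 2, half_pos hη, fun w hwM hl hwF hn ht => ?_⟩
  have hsw : ∀ t, ‖D.σ t (star w) - star w‖ ≤ η / 2 * |t| := fun t => by
    rw [D.σ_star, ← star_sub, norm_star]; exact ht t
  set p := w + star w
  set q := I • (w - star w)
  have hp : ‖(z * p - p * z) ξ‖ ≤ ε := hs p (add_mem hwM (star_mem hwM))
    (IsSelfAdjoint.add_star_self w) (hl.add hl.star) (fun i hi => (hwF i hi).add (hwF i hi).star)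
    ((norm_add_le _ _).trans (by rw [norm_star]; linarith)) fun t => by
      rw [show D.σ t p - p = (D.σ t w - w) + (D.σ t (star w) - star w) by
        simp only [p, D.σ_add]; abel]
      exact (norm_add_le _ _).trans ((add_le_add (ht t) (hsw t)).trans_eq (by ring))
  have hq : ‖(z * q - q * z) ξ‖ ≤ ε := hs q
    (_root_.P132.vN_smul_mem _ _ (sub_mem hwM (star_mem hwM)))
    (by simp [IsSelfAdjoint, q, star_smul, star_sub, smul_sub]; abel) ((hl.sub hl.star).smul _)
    (fun i hi => ((hwF i hi).sub (hwF i hi).star).smul _)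
    (by rw [norm_smul, Complex.norm_I, one_mul]
        exact (norm_sub_le _ _).trans (by rw [norm_star]; linarith)) fun t => by
      rw [show D.σ t q - q = I • ((D.σ t w - w) - (D.σ t (star w) - star w)) by
        simp only [q, D.σ_smul, D.σ_sub]; module, norm_smul, Complex.norm_I, one_mul]
      exact (norm_sub_le _ _).trans ((add_le_add (ht t) (hsw t)).trans_eq (by ring))
  have e : w = (2 : ℂ)⁻¹ • (p - I • q) := by
    simp only [p, q, smul_smul, I_mul_I]
    module
  have e' : (z * w - w * z) ξ = (2 : ℂ)⁻¹ • ((z * p - p * z) ξ - I • (z * q - q * z) ξ) := by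
    conv_lhs => rw [e]
    simp only [mul_smul_comm, smul_mul_assoc, mul_sub, sub_mul, smul_apply, sub_apply, smul_sub]
    abel
  rw [e', norm_smul, norm_inv, Complex.norm_ofNat, inv_mul_le_iff₀ two_pos]
  refine (norm_sub_le _ _).trans ?_
  rw [norm_smul, Complex.norm_I, one_mul]
  linarith

/-- Averages of nearly centralised unitaries, in any number, move `y` to the centre. -/
theorem escape (hF : ∀ i ∈ F, Si.Uni i) (hy : y ∈ M) (hsa : IsSelfAdjoint y)
    (hyF : Si.CommAll F y) :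
    ∃ z ∈ M, z ∈ M.commutant ∧ ∀ η > 0, ∀ ε > 0, ∀ k : ℕ, ∃ m, k < m ∧
      ∃ v : Fin m → H →L[ℂ] H, (∀ j, Si.Good h F η (v j)) ∧ ‖(avgConj y v - z) ξ‖ ≤ ε := by
  obtain ⟨z, hzM, hzsa, hzF, hav, hcom⟩ := exists_limit_avg (h := h) hy hsa hyF
  have hL := lipComm_of_good hzM hF hzF hcom
  refine ⟨z, hzM, Si.central_of_lipComm h hzM hL (by rwa [hzsa.star_eq]), fun η hη ε hε k => ?_⟩
  obtain ⟨c, ⟨m, hm, v, hv, rfl⟩, hn⟩ := hav η hη ε hε
  refine ⟨(k + 1) * m, lt_of_lt_of_le (Nat.lt_succ_self k) (Nat.le_mul_of_pos_right _ hm),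
    (fun p : Fin (k + 1) × Fin m => v p.2) ∘ finProdFinEquiv.symm, fun _ => hv _, ?_⟩
  refine le_of_eq_of_le ?_ hn
  rw [avgConj_comp]
  simp only [avgConj, Fintype.sum_prod_type, Fintype.card_prod, Fintype.card_fin, Finset.sum_const,
    Finset.card_univ, ← Nat.cast_smul_eq_nsmul ℂ, smul_smul, Nat.cast_mul]
  congr 4
  have : (((k + 1 : ℕ) : ℂ)) ≠ 0 := by exact_mod_cast Nat.succ_ne_zero k
  field_simp

end Sites

end Vale.Agent.P096.AT
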