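import Vale.Agent.P096.AT.Matrix

/-!
# P096, algebras of every type: the modular flows are uniformly close

The averaged intertwiners are near the identity by induction on the scale, by rigidity. This gives
the closeness for bounded times, and doubling with rigidity gives it for all times.
-/

noncomputable section

namespace Vale.Agent.P096.AT

open scoped InnerProductSpace
open Filter Topology
open Vale.Agent.P132
open Vale.Agent.P104.Sim (MatContraction)

universe u

variable {H : Type u} [NormedAddCommGroup H] [InnerProductSpace ℂ H] [CompleteSpace H]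

variable {M N : VonNeumannAlgebra H} {ξ : H} {G : ℕ → Finset (H →L[ℂ] H)}

lemma U_mem_unitary (h : Tomita.CycSep M ξ) (t : ℝ) : Tomita.U M ξ t ∈ unitary (H →L[ℂ] H) := by
  refine Unitary.mem_iff.2 ⟨?_, ?_⟩ <;> rw [h.star_U, ← h.U_add] <;> simp [h.U_zero]

lemma right_star (h : Tomita.CycSep M ξ) (g : (H →L[ℂ] H)) :
    right M ξ (star g) = star (right M ξ g) := by
  refine ContinuousLinearMap.ext fun v => ext_inner_right ℂ fun w => ?_
  simp only [right, Tomita.inner_star_left, Tomita.Jconj_apply]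
  rw [h.inner_J, ContinuousLinearMap.star_eq_adjoint, ContinuousLinearMap.adjoint_inner_right,
    ← inner_conj_symm v (Tomita.J₀ M ξ _), h.inner_J, inner_conj_symm]

namespace Fixes

variable {S T : H →L[ℂ] H}

protected lemma mul (hS : Fixes M ξ G S) (hT : Fixes M ξ G T) : Fixes M ξ G (S * T) := by
  refine ⟨fun n g hg => ⟨?_, ?_⟩, ?_, ?_⟩
  · exact (Commute.mul_right (hS.1 n g hg).1 (hT.1 n g hg).1 : Commute g (S * T))
  · exact (Commute.mul_right (hS.1 n g hg).2 (hT.1 n g hg).2 : Commute (right M ξ g) (S * T))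
  · rw [mul_apply_eq_comp, hT.2.1, hS.2.1]
  · rw [star_mul, mul_apply_eq_comp, hS.2.2, hT.2.2]

protected lemma star (hG : Gauge M ξ G) (hT : Fixes M ξ G T) : Fixes M ξ G (star T) := by
  refine ⟨fun n g hg => ?_, hT.2.2, by rw [star_star]; exact hT.2.1⟩
  have h := hT.1 n (star g) (hG.star_mem n g hg)
  constructor
  · have := congrArg star h.1
    simpa using this.symm
  · have := congrArg star h.2
    rw [right_star hG.cs] at this
    simpa using this.symm

end Fixes

lemma fixes_W (hC : CentOut.{u}) (hM : Gauge M ξ G) (hN : Gauge N ξ G)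
    (hr : ∀ n, ∀ g ∈ G n, right N ξ g = right M ξ g) (t : ℝ) :
    Fixes M ξ G (Tomita.U N ξ t * Tomita.U M ξ (-t)) := by
  refine ⟨fun n g hg => ?_, ?_, ?_⟩
  · obtain ⟨-, -, -, -, hMg, hMr⟩ := hC H M ξ g hM.cs (hM.mem n g hg) (hM.unit n g hg).1
      (hM.unit n g hg).2 (hM.cent n g hg)
    obtain ⟨-, -, -, -, hNg, hNr⟩ := hC H N ξ g hN.cs (hN.mem n g hg) (hN.unit n g hg).1
      (hN.unit n g hg).2 (hN.cent n g hg)
    refine ⟨Commute.mul_right (hNg t : Commute g (Tomita.U N ξ t)) (hMg (-t)), ?_⟩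
    have h1 := hNr t
    rw [hr n g hg] at h1
    exact Commute.mul_right (h1 : Commute (right M ξ g) (Tomita.U N ξ t)) (hMr (-t))
  · rw [mul_apply_eq_comp, hM.cs.U_omega, hN.cs.U_omega]
  · rw [star_mul, hM.cs.star_U, hN.cs.star_U, mul_apply_eq_comp, hN.cs.U_omega, hM.cs.U_omega]

/-- The Connes cocycle implements maps of `M` into a neighbourhood of `M` at all matrix sizes. -/
lemma nearInto_W {d : ℝ} (hd : 0 ≤ d) (hM : Tomita.CycSep M ξ) (hN : Tomita.CycSep N ξ)
    (hMN : MatWithin M N d) (hNM : MatWithin N M d) (t : ℝ) :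
    NearInto (Tomita.U N ξ t * Tomita.U M ξ (-t)) M (2 * d) := by
  intro n X hX hXc
  set A := Tomita.U M ξ (-t) with hA
  set B := Tomita.U N ξ t with hB
  have hA1 : ‖A‖ ≤ 1 := Stable.norm_le_one_of_unitary (U_mem_unitary hM _)
  have hB1 : ‖B‖ ≤ 1 := Stable.norm_le_one_of_unitary (U_mem_unitary hN _)
  have hX' : ∀ i j, A * X i j * star A ∈ M := fun i j => by
    rw [hA, hM.star_U]
    exact hM.sigma_mem (-t) (hX i j)
  have hX'c : MatContraction fun i j => A * X i j * star A := contraction_of_matBound (by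
    simpa using matBound_conj_le (matBound_of_contraction hXc) zero_le_one hA1
      (b := 1) (B := star A) (by rwa [norm_star]))
  obtain ⟨Y, hY, hYc, hYb⟩ := hMN n _ hX' hX'c
  have hY' : ∀ i j, B * Y i j * star B ∈ N := fun i j => by
    rw [hB, hN.star_U]
    exact hN.sigma_mem t (hY i j)
  have hY'c : MatContraction fun i j => B * Y i j * star B := contraction_of_matBound (by
    simpa using matBound_conj_le (matBound_of_contraction hYc) zero_le_one hB1
      (b := 1) (B := star B) (by rwa [norm_star]))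
  obtain ⟨Z, hZ, -, hZb⟩ := hNM n _ hY' hY'c
  have h1 : _root_.P132.MatBound (fun i j => B * (A * X i j * star A - Y i j) * star B)
      (1 * d * 1) :=
    matBound_conj_le hYb hd hB1 (by rwa [norm_star])
  have h2 := h1.add (by positivity) hd
    (show _root_.P132.MatBound (fun i j => B * Y i j * star B - Z i j) d from hZb)
  refine ⟨Z, hZ, fun v => ?_⟩
  have e : ∀ i j, B * A * X i j * star (B * A) - Z i j =
      B * (A * X i j * star A - Y i j) * star B + (B * Y i j * star B - Z i j) := fun i j => by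
    rw [star_mul]; noncomm_ring
  simp only [e]
  refine (h2 v).trans (le_of_eq ?_)
  ring

/-- Rigidity for a contraction which is nearly unitary. -/
lemma norm_sub_one_le_of_rigid {k η₀ : ℝ}
    (hR : ∀ (U : (H →L[ℂ] H)) (ε : ℝ), U ∈ unitary (H →L[ℂ] H) → Fixes M ξ G U → ‖U - 1‖ ≤ η₀ → 0 ≤ ε →
      NearInto U M ε → ‖U - 1‖ ≤ k * ε)
    (hG : Gauge M ξ G) {S : (H →L[ℂ] H)} {η ε e : ℝ} (hS : ‖S‖ ≤ 1) (hη : η ≤ 1 / 2) (hε : 0 ≤ ε)
    (h1 : ‖star S * S - 1‖ ≤ η) (h2 : ‖S * star S - 1‖ ≤ η) (hF : Fixes M ξ G S)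
    (hN : NearInto S M ε) (he : ‖S - 1‖ ≤ e) (hsmall : η + e ≤ η₀) :
    ‖S - 1‖ ≤ k * (ε + 2 * η) + η := by
  have hη0 : 0 ≤ η := (norm_nonneg _).trans h1
  obtain ⟨U, hU, hUS, hcomm, hfix⟩ := exists_unitary_near hη h1 h2
  have hF' := hF.star hG
  have hUF : Fixes M ξ G U := ⟨fun n g hg =>
    ⟨hcomm g (hF.1 n g hg).1 (hF'.1 n g hg).1, hcomm _ (hF.1 n g hg).2 (hF'.1 n g hg).2⟩,
    (hfix ξ hF.2.1 hF.2.2).1, (hfix ξ hF.2.1 hF.2.2).2⟩
  have hU1 : ‖U - 1‖ ≤ η₀ := (norm_sub_le_norm_sub_add_norm_sub U S 1).trans (by linarith)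
  have h := hR U (ε + 2 * η) hU hUF hU1 (by linarith)
    (hN.of_norm_sub_le hε hS (Stable.norm_le_one_of_unitary hU) hUS)
  refine (norm_sub_le_norm_sub_add_norm_sub S U 1).trans ?_
  rw [norm_sub_rev S U]
  linarith

private lemma norm_mul_le_left {a b : (H →L[ℂ] H)} (ha : ‖a‖ ≤ 1) : ‖a * b‖ ≤ ‖b‖ :=
  (norm_mul_le _ _).trans (mul_le_of_le_one_left (norm_nonneg _) ha)

private lemma norm_mul_le_right {a b : (H →L[ℂ] H)} (hb : ‖b‖ ≤ 1) : ‖a * b‖ ≤ ‖a‖ :=
  (norm_mul_le _ _).trans (mul_le_of_le_one_right (norm_nonneg _) hb)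

/-- The averaged intertwiners are all near the first one. -/
lemma norm_intertwiner_sub_le {k η₀ η : ℝ} (hk : 0 ≤ k)
    (hR : ∀ (U : (H →L[ℂ] H)) (ε : ℝ), U ∈ unitary (H →L[ℂ] H) → Fixes M ξ G U → ‖U - 1‖ ≤ η₀ → 0 ≤ ε →
      NearInto U M ε → ‖U - 1‖ ≤ k * ε)
    (hG : Gauge M ξ G) (hη4 : η ≤ 1 / 4) (hsmall : (7 * k + 3 + 4) * η ≤ η₀) {T : ℕ → (H →L[ℂ] H)}
    (hT : ∀ i, Fixes M ξ G (T i) ∧ ‖T i‖ ≤ 1 ∧ ‖star (T i) * T i - 1‖ ≤ η ∧
      ‖T i * star (T i) - 1‖ ≤ η ∧ NearInto (T i) M η ∧ NearInto (star (T i)) M η ∧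
      ‖T (i + 1) - T i‖ ≤ η) :
    ∀ i, ‖T i - T 0‖ ≤ (7 * k + 3) * η := by
  have hη : 0 ≤ η := (norm_nonneg _).trans (hT 0).2.2.1
  intro i
  induction i with
  | zero => rw [sub_self, norm_zero]; positivity
  | succ i ih =>
    obtain ⟨hF0, hn0, hA0, hB0, -, hNs0, -⟩ := hT 0
    obtain ⟨hF, hn, hA, hB, hN, -, -⟩ := hT (i + 1)
    set A := T 0
    set B := T (i + 1)
    set S := star A * B with hSdef
    have hn0' : ‖star A‖ ≤ 1 := by rwa [norm_star]
    have hn' : ‖star B‖ ≤ 1 := by rwa [norm_star]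
    have hBA : ‖B - A‖ ≤ (7 * k + 3 + 1) * η := by
      have := norm_sub_le_norm_sub_add_norm_sub B (T i) A
      have := (hT i).2.2.2.2.2.2
      linarith
    have hS1 : ‖star S * S - 1‖ ≤ 2 * η := by
      have e : star S * S - 1 = star B * (A * star A - 1) * B + (star B * B - 1) := by
        rw [hSdef, star_mul, star_star]; noncomm_ring
      rw [e]
      refine (norm_add_le _ _).trans ?_
      linarith [((norm_mul_le_right hn).trans (norm_mul_le_left hn') :
        ‖star B * (A * star A - 1) * B‖ ≤ ‖A * star A - 1‖)]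
    have hS2 : ‖S * star S - 1‖ ≤ 2 * η := by
      have e : S * star S - 1 = star A * (B * star B - 1) * A + (star A * A - 1) := by
        rw [hSdef, star_mul, star_star]; noncomm_ring
      rw [e]
      refine (norm_add_le _ _).trans ?_
      linarith [((norm_mul_le_right hn0).trans (norm_mul_le_left hn0') :
        ‖star A * (B * star B - 1) * A‖ ≤ ‖B * star B - 1‖)]
    have hS0 : ‖S - 1‖ ≤ (7 * k + 3 + 2) * η := by
      have e : S - 1 = star A * (B - A) + (star A * A - 1) := by rw [hSdef]; noncomm_ring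
      rw [e]
      refine (norm_add_le _ _).trans ?_
      linarith [norm_mul_le_left (b := B - A) hn0']
    have hSn : ‖S‖ ≤ 1 := (norm_mul_le_left hn0').trans hn
    have hN3 : η + (1 + η) * η ≤ 3 * η := by nlinarith
    have h := norm_sub_one_le_of_rigid hR hG hSn (by linarith) (by positivity) hS1 hS2
      ((hF0.star hG).mul hF) (hNs0.mul hη hη hN hn0' hn) hS0 (by nlinarith)
    have e : B - A = (1 - A * star A) * B + A * (S - 1) := by rw [hSdef]; noncomm_ring
    rw [e]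
    refine (norm_add_le _ _).trans ?_
    have h1 : ‖(1 - A * star A) * B‖ ≤ η := (norm_mul_le_right hn).trans (by
      rw [norm_sub_rev]; exact hB0)
    have h2 : ‖A * (S - 1)‖ ≤ (7 * k + 2) * η :=
      (norm_mul_le_left hn0).trans (h.trans (by nlinarith))
    linarith

/-- (B) the modular flows are uniformly close. -/
theorem flowOut (hC : CentOut.{u}) (hNG : NearGaugeOut.{u}) (hMe : MeansOut.{u})
    (hRi : RigidOut.{u}) : FlowOut.{u} := by
  intro η hη
  obtain ⟨k, η₀, hk, hη₀, hR⟩ := hRi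
  obtain ⟨d₀, hd₀, hNG⟩ := hNG
  set c := 7 * k + 3 with hc
  have hc0 : 0 < c := by positivity
  set m := min η (η₀ / 2) with hm
  have hm0 : 0 < m := lt_min hη (half_pos hη₀)
  set e := min (1 / 4 : ℝ) (min (η₀ / (c + 4)) (m / (2 * c + 1))) with he
  have he0 : 0 < e := lt_min (by norm_num) (lt_min (by positivity) (by positivity))
  have he1 : e ≤ 1 / 4 := min_le_left _ _
  have he2 : (c + 4) * e ≤ η₀ := by
    rw [← le_div_iff₀' (by positivity)]
    exact (min_le_right _ _).trans (min_le_left _ _)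
  have he3 : (2 * c + 1) * e ≤ m := by
    rw [← le_div_iff₀' (by positivity)]
    exact (min_le_right _ _).trans (min_le_right _ _)
  obtain ⟨δ, hδ, hMe⟩ := hMe e he0
  refine ⟨min δ (min d₀ (m / (2 * k))), lt_min hδ (lt_min hd₀ (by positivity)), ?_⟩
  intro H _ _ _ M N ξ G d hP hd t
  obtain ⟨hdδ, hdd₀, hdk⟩ := le_min_iff.1 hd |>.imp id le_min_iff.1
  have hd0 := hP.near.nonneg
  obtain ⟨hGN, -, hr⟩ := hNG H M N ξ G d hP hdd₀
  obtain ⟨T, hT, hlim, hphase⟩ := hMe H M N ξ G d hP hdδ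
  have hR' : ∀ (U : H →L[ℂ] H) (ε : ℝ), U ∈ unitary (H →L[ℂ] H) → Fixes M ξ G U →
      ‖U - 1‖ ≤ η₀ → 0 ≤ ε → NearInto U M ε → ‖U - 1‖ ≤ k * ε :=
    fun U ε => hR H M ξ G U ε hP.gauge
  have hind := norm_intertwiner_sub_le hk.le hR' hP.gauge he1 (by rw [← hc]; linarith) hT
  have hT0 : ‖T 0 - 1‖ ≤ c * e := by
    refine ContinuousLinearMap.opNorm_le_bound _ (by positivity) fun v => ?_
    refine le_of_tendsto ((tendsto_const_nhds.sub (hlim v)).norm) (Eventually.of_forall fun i => ?_)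
    have h := (T i - T 0).le_of_opNorm_le (hind i) v
    rw [sub_apply, norm_sub_rev] at h
    simpa [hc] using h
  set W : ℝ → (H →L[ℂ] H) := fun s => Tomita.U N ξ s * Tomita.U M ξ (-s) with hWdef
  have hWu : ∀ s, W s ∈ unitary (H →L[ℂ] H) := fun s =>
    mul_mem (U_mem_unitary hGN.cs s) (U_mem_unitary hP.gauge.cs (-s))
  have hUn : ∀ s, ‖Tomita.U N ξ s‖ ≤ 1 ∧ ‖Tomita.U M ξ s‖ ≤ 1 := fun s =>
    ⟨Stable.norm_le_one_of_unitary (U_mem_unitary hGN.cs s),
      Stable.norm_le_one_of_unitary (U_mem_unitary hP.gauge.cs s)⟩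
  have hsmall : ∀ s : ℝ, |s| ≤ 1 → ‖W s - 1‖ ≤ m := fun s hs => by
    have e1 : W s - 1 = Tomita.U N ξ s * (1 - T 0) * Tomita.U M ξ (-s) +
        (Tomita.U N ξ s * T 0 * Tomita.U M ξ (-s) - T 0) + (T 0 - 1) := by
      rw [hWdef]; noncomm_ring
    rw [e1]
    refine (norm_add₃_le).trans ?_
    have h1 : ‖Tomita.U N ξ s * (1 - T 0) * Tomita.U M ξ (-s)‖ ≤ c * e :=
      ((norm_mul_le_right (hUn _).2).trans (norm_mul_le_left (hUn _).1)).trans
        (by rw [norm_sub_rev]; exact hT0)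
    linarith [hphase s hs]
  have hdouble : ∀ s, ‖W (s + s) - 1‖ ≤ 2 * ‖W s - 1‖ := fun s => by
    have hVV : Tomita.U M ξ s * Tomita.U M ξ (-s) = 1 := by
      rw [← hP.gauge.cs.U_add, add_neg_cancel, hP.gauge.cs.U_zero]
    have e1 : W (s + s) - 1 =
        Tomita.U N ξ s * (W s - 1) * Tomita.U M ξ (-s) + (W s - 1) := by
      simp only [hWdef]
      rw [neg_add, hGN.cs.U_add, hP.gauge.cs.U_add]
      noncomm_ring
    rw [e1]
    refine (norm_add_le _ _).trans ?_
    linarith [((norm_mul_le_right (hUn _).2).trans (norm_mul_le_left (hUn _).1) :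
      ‖Tomita.U N ξ s * (W s - 1) * Tomita.U M ξ (-s)‖ ≤ ‖W s - 1‖)]
  have hstep : ∀ s, ‖W s - 1‖ ≤ m → ‖W (s + s) - 1‖ ≤ m := fun s hs => by
    refine (hR' _ (2 * d) (hWu _) (fixes_W hC hP.gauge hGN hr _) ?_ (by positivity)
      (nearInto_W hd0 hP.gauge.cs hGN.cs hP.near.fwd hP.near.bwd _)).trans ?_
    · exact (hdouble s).trans (by linarith [min_le_right η (η₀ / 2)])
    · rw [le_div_iff₀ (by positivity)] at hdk
      linarith
  have hall : ∀ (i : ℕ) (s : ℝ), |s| ≤ 2 ^ i → ‖W s - 1‖ ≤ m := by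
    intro i
    induction i with
    | zero => intro s hs; exact hsmall s (by simpa using hs)
    | succ i ih =>
      intro s hs
      have h := hstep (s / 2) (ih _ (by
        rw [abs_div, abs_two, div_le_iff₀ two_pos, ← pow_succ]; exact hs))
      rwa [add_halves] at h
  obtain ⟨i, hi⟩ := pow_unbounded_of_one_lt |t| one_lt_two
  have e1 : Tomita.U N ξ t - Tomita.U M ξ t = (W t - 1) * Tomita.U M ξ t := by
    simp only [hWdef, sub_mul, one_mul, mul_assoc]
    rw [← hP.gauge.cs.U_add, neg_add_cancel, hP.gauge.cs.U_zero, mul_one]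
  rw [e1]
  exact (norm_mul_le_right (hUn t).2).trans ((hall i t hi.le).trans (min_le_left _ _))

end Vale.Agent.P096.AT
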