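import Vale.Agent.P096.AT.Setting
import Vale.Agent.P085.Toolkit.SpectralApprox

/-!
# P096, algebras of every type: the finite groups of a gauge (ALLTYPES section 6)

Commuting matrix units of unbounded size which are centralised and have relative commutant inside
the commutant give a gauge with `Equi`: the groups are the products of the signed permutations of
the first units and of the signs of countably many central projections, which determine the
centre as the space is separable.
-/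

noncomputable section

namespace Vale.Agent.P096.AT

open scoped InnerProductSpace
open Filter Topology
open Vale.Agent.P132
open Vale.Agent.P104.Sim (IsUnits)

universe u

variable {H : Type u} [NormedAddCommGroup H] [InnerProductSpace ℂ H] [CompleteSpace H]
variable {M : VonNeumannAlgebra H} {ξ : H}

private lemma gf_smul_mem (M : VonNeumannAlgebra H) (c : ℂ) {x : H →L[ℂ] H} (hx : x ∈ M) :
    c • x ∈ M :=
  M.toStarSubalgebra.smul_mem hx c

/-- A centralised element. -/
def Centralised (M : VonNeumannAlgebra H) (ξ : H) (g : H →L[ℂ] H) : Prop :=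
  ∀ y ∈ M, ⟪ξ, g (y ξ)⟫_ℂ = ⟪ξ, y (g ξ)⟫_ℂ

lemma Centralised.mul {g h : H →L[ℂ] H} (hgM : g ∈ M) (hhM : h ∈ M) (hg : Centralised M ξ g)
    (hh : Centralised M ξ h) : Centralised M ξ (g * h) := by
  intro y hy
  have h1 := hg (h * y) (mul_mem hhM hy)
  have h2 := hh (y * g) (mul_mem hy hgM)
  simp only [mul_apply_eq_comp] at *
  rw [h1, h2]

lemma Centralised.add {g h : H →L[ℂ] H} (hg : Centralised M ξ g) (hh : Centralised M ξ h) :
    Centralised M ξ (g + h) := by
  intro y hy
  simp only [add_apply, map_add, inner_add_right, hg y hy, hh y hy]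

lemma Centralised.smul {g : H →L[ℂ] H} (c : ℂ) (hg : Centralised M ξ g) :
    Centralised M ξ (c • g) := by
  intro y hy
  simp only [smul_apply, map_smul, inner_smul_right, hg y hy]

lemma Centralised.of_central {z : H →L[ℂ] H} (hz : z ∈ M.commutant) : Centralised M ξ z := by
  intro y hy
  have h := DFunLike.congr_fun
    ((VonNeumannAlgebra.mem_commutant_iff.1 hz) y hy) ξ
  simp only [mul_apply_eq_comp] at h
  rw [h]

/-- A finite group of unitaries of `M`. -/
structure IsFinGroup (M : VonNeumannAlgebra H) (S : Finset (H →L[ℂ] H)) : Prop where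
  one : (1 : H →L[ℂ] H) ∈ S
  mul : ∀ g ∈ S, ∀ h ∈ S, g * h ∈ S
  adj : ∀ g ∈ S, star g ∈ S
  mem : ∀ g ∈ S, g ∈ M
  unit : ∀ g ∈ S, star g * g = 1 ∧ g * star g = 1

lemma IsFinGroup.singleton_one : IsFinGroup M {1} where
  one := Finset.mem_singleton_self 1
  mul g hg h hh := by simp only [Finset.mem_singleton] at *; rw [hg, hh, mul_one]
  adj g hg := by simp only [Finset.mem_singleton] at *; rw [hg, star_one]
  mem g hg := by rw [Finset.mem_singleton] at hg; rw [hg]; exact one_mem M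
  unit g hg := by rw [Finset.mem_singleton] at hg; simp [hg]

open Classical in
/-- The products of two finite sets of operators. -/
def prodSet (S T : Finset (H →L[ℂ] H)) : Finset (H →L[ℂ] H) := Finset.image₂ (· * ·) S T

lemma mem_prodSet {S T : Finset (H →L[ℂ] H)} {g : H →L[ℂ] H} :
    g ∈ prodSet S T ↔ ∃ a ∈ S, ∃ b ∈ T, a * b = g := by
  classical
  simp [prodSet, Finset.mem_image₂]

lemma subset_prodSet_left {S T : Finset (H →L[ℂ] H)} (hT : (1 : H →L[ℂ] H) ∈ T) :
    ∀ g ∈ S, g ∈ prodSet S T :=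
  fun g hg => mem_prodSet.2 ⟨g, hg, 1, hT, mul_one g⟩

lemma subset_prodSet_right {S T : Finset (H →L[ℂ] H)} (hS : (1 : H →L[ℂ] H) ∈ S) :
    ∀ g ∈ T, g ∈ prodSet S T :=
  fun g hg => mem_prodSet.2 ⟨1, hS, g, hg, one_mul g⟩

lemma IsFinGroup.prod {S T : Finset (H →L[ℂ] H)} (hS : IsFinGroup M S) (hT : IsFinGroup M T)
    (hc : ∀ a ∈ S, ∀ b ∈ T, Commute a b) : IsFinGroup M (prodSet S T) := by
  refine ⟨mem_prodSet.2 ⟨1, hS.one, 1, hT.one, one_mul 1⟩, ?_, ?_, ?_, ?_⟩
  · intro g hg h hh
    obtain ⟨a, ha, b, hb, rfl⟩ := mem_prodSet.1 hg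
    obtain ⟨a', ha', b', hb', rfl⟩ := mem_prodSet.1 hh
    exact mem_prodSet.2 ⟨a * a', hS.mul a ha a' ha', b * b', hT.mul b hb b' hb',
      (hc a' ha' b hb).mul_mul_mul_comm a b'⟩
  · intro g hg
    obtain ⟨a, ha, b, hb, rfl⟩ := mem_prodSet.1 hg
    exact mem_prodSet.2 ⟨star a, hS.adj a ha, star b, hT.adj b hb, by
      rw [star_mul, (hc _ (hS.adj a ha) _ (hT.adj b hb)).eq]⟩
  · intro g hg
    obtain ⟨a, ha, b, hb, rfl⟩ := mem_prodSet.1 hg
    exact mul_mem (hS.mem a ha) (hT.mem b hb)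
  · intro g hg
    obtain ⟨a, ha, b, hb, rfl⟩ := mem_prodSet.1 hg
    constructor
    · rw [star_mul, mul_assoc, ← mul_assoc (star a) a b, (hS.unit a ha).1, one_mul,
        (hT.unit b hb).1]
    · rw [star_mul, mul_assoc, ← mul_assoc b (star b), (hT.unit b hb).2, one_mul,
        (hS.unit a ha).2]

/-- The products of the first sets. -/
def prodUpTo (F : ℕ → Finset (H →L[ℂ] H)) : ℕ → Finset (H →L[ℂ] H)
  | 0 => {1}
  | n + 1 => prodSet (prodUpTo F n) (F n)

lemma commute_prodUpTo (F : ℕ → Finset (H →L[ℂ] H)) (T : H →L[ℂ] H) :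
    ∀ n, (∀ j, j < n → ∀ g ∈ F j, Commute T g) → ∀ g ∈ prodUpTo F n, Commute T g := by
  intro n
  induction n with
  | zero =>
    intro _ g hg
    rw [prodUpTo, Finset.mem_singleton] at hg
    rw [hg]
    exact Commute.one_right T
  | succ n ih =>
    intro h g hg
    obtain ⟨a, ha, b, hb, rfl⟩ := mem_prodSet.1 hg
    exact (ih (fun j hj => h j (by omega)) a ha).mul_right (h n (by omega) b hb)

lemma prodUpTo_isFinGroup {F : ℕ → Finset (H →L[ℂ] H)} (hF : ∀ j, IsFinGroup M (F j))
    (hc : ∀ i j, i ≠ j → ∀ a ∈ F i, ∀ b ∈ F j, Commute a b) :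
    ∀ n, IsFinGroup M (prodUpTo F n) := by
  intro n
  induction n with
  | zero => exact IsFinGroup.singleton_one
  | succ n ih =>
    refine IsFinGroup.prod ih (hF n) fun a ha b hb => ?_
    exact (commute_prodUpTo F b n (fun j hj g hg => hc n j (by omega) b hb g hg) a ha).symm

lemma prodUpTo_prop {F : ℕ → Finset (H →L[ℂ] H)} {P : (H →L[ℂ] H) → Prop} (h1 : P 1)
    (hP : ∀ j, ∀ g ∈ F j, g ∈ M ∧ P g)
    (hmul : ∀ a b, a ∈ M → b ∈ M → P a → P b → P (a * b)) :
    ∀ n, ∀ g ∈ prodUpTo F n, g ∈ M ∧ P g := by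
  intro n
  induction n with
  | zero =>
    intro g hg
    rw [prodUpTo, Finset.mem_singleton] at hg
    rw [hg]
    exact ⟨one_mem M, h1⟩
  | succ n ih =>
    intro g hg
    obtain ⟨a, ha, b, hb, rfl⟩ := mem_prodSet.1 hg
    exact ⟨mul_mem (ih a ha).1 (hP n b hb).1,
      hmul a b (ih a ha).1 (hP n b hb).1 (ih a ha).2 (hP n b hb).2⟩

/-! ## The signed permutations of matrix units -/

section Mono

variable {m : ℕ} {e : Fin m → Fin m → (H →L[ℂ] H)}

/-- A signed permutation of matrix units. -/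
def mono (e : Fin m → Fin m → (H →L[ℂ] H)) (π : Equiv.Perm (Fin m)) (ε : Fin m → ℤˣ) :
    H →L[ℂ] H :=
  ∑ a, (((ε a : ℤ)) : ℂ) • e (π a) a

lemma mono_mul_unit (he : IsUnits M e) (π : Equiv.Perm (Fin m)) (ε : Fin m → ℤˣ) (b c : Fin m) :
    mono e π ε * e b c = (((ε b : ℤ)) : ℂ) • e (π b) c := by
  rw [mono, Finset.sum_mul]
  rw [Finset.sum_eq_single b]
  · rw [smul_mul_assoc, he.mul, if_pos rfl]
  · intro a _ hab
    rw [smul_mul_assoc, he.mul, if_neg hab, smul_zero]
  · simp

lemma mono_mul (he : IsUnits M e) (π σ : Equiv.Perm (Fin m)) (ε δ : Fin m → ℤˣ) :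
    mono e π ε * mono e σ δ = mono e (π * σ) (fun a => ε (σ a) * δ a) := by
  change mono e π ε * ∑ a, (((δ a : ℤ)) : ℂ) • e (σ a) a =
    ∑ a, (((ε (σ a) * δ a : ℤˣ) : ℤ) : ℂ) • e ((π * σ) a) a
  rw [Finset.mul_sum]
  refine Finset.sum_congr rfl fun a _ => ?_
  rw [mul_smul_comm, mono_mul_unit he, smul_smul, Equiv.Perm.mul_apply, Units.val_mul,
    Int.cast_mul, mul_comm]

lemma mono_one (he : IsUnits M e) : mono e 1 (fun _ => 1) = 1 := by
  rw [mono, ← he.total]
  exact Finset.sum_congr rfl fun a _ => by simp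

lemma star_mono (he : IsUnits M e) (π : Equiv.Perm (Fin m)) (ε : Fin m → ℤˣ) :
    star (mono e π ε) = mono e π⁻¹ (fun a => ε (π⁻¹ a)) := by
  rw [mono, mono, star_sum, ← Equiv.sum_comp π fun a =>
    (((ε (π⁻¹ a) : ℤ)) : ℂ) • e (π⁻¹ a) a]
  refine Finset.sum_congr rfl fun a _ => ?_
  rw [star_smul, he.star_eq]
  simp

open Classical in
/-- The group of signed permutations. -/
def monoSet (e : Fin m → Fin m → (H →L[ℂ] H)) : Finset (H →L[ℂ] H) :=
  (Finset.univ : Finset (Equiv.Perm (Fin m) × (Fin m → ℤˣ))).image fun p => mono e p.1 p.2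

lemma mono_mem_monoSet (π : Equiv.Perm (Fin m)) (ε : Fin m → ℤˣ) :
    mono e π ε ∈ monoSet e := by
  classical
  exact Finset.mem_image.2 ⟨(π, ε), Finset.mem_univ _, rfl⟩

lemma exists_of_mem_monoSet {g : H →L[ℂ] H} (hg : g ∈ monoSet e) :
    ∃ π ε, mono e π ε = g := by
  classical
  obtain ⟨p, -, hp⟩ := Finset.mem_image.1 hg
  exact ⟨p.1, p.2, hp⟩

lemma mono_mem (he : IsUnits M e) (π : Equiv.Perm (Fin m)) (ε : Fin m → ℤˣ) :
    mono e π ε ∈ M :=
  sum_mem fun a _ => gf_smul_mem M _ (he.mem _ _)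

lemma star_mono_mul_self (he : IsUnits M e) (π : Equiv.Perm (Fin m)) (ε : Fin m → ℤˣ) :
    star (mono e π ε) * mono e π ε = 1 := by
  rw [star_mono he, mono_mul he, ← mono_one he]
  congr 1
  · exact inv_mul_cancel π
  · funext a
    simp [Int.units_mul_self]

lemma monoSet_isFinGroup (he : IsUnits M e) : IsFinGroup M (monoSet e) := by
  refine ⟨mono_one he ▸ mono_mem_monoSet _ _, ?_, ?_, ?_, ?_⟩
  · intro g hg h hh
    obtain ⟨π, ε, rfl⟩ := exists_of_mem_monoSet hg
    obtain ⟨σ, δ, rfl⟩ := exists_of_mem_monoSet hh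
    rw [mono_mul he]
    exact mono_mem_monoSet _ _
  · intro g hg
    obtain ⟨π, ε, rfl⟩ := exists_of_mem_monoSet hg
    rw [star_mono he]
    exact mono_mem_monoSet _ _
  · intro g hg
    obtain ⟨π, ε, rfl⟩ := exists_of_mem_monoSet hg
    exact mono_mem he π ε
  · intro g hg
    obtain ⟨π, ε, rfl⟩ := exists_of_mem_monoSet hg
    refine ⟨star_mono_mul_self he π ε, ?_⟩
    have h := star_mono_mul_self he π⁻¹ (fun a => ε (π⁻¹ a))
    rwa [← star_mono he, star_star] at h

lemma commute_monoSet (T : H →L[ℂ] H) (hT : ∀ a b, Commute T (e a b)) :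
    ∀ g ∈ monoSet e, Commute T g := by
  intro g hg
  obtain ⟨π, ε, rfl⟩ := exists_of_mem_monoSet hg
  exact Commute.sum_right _ _ _ fun a _ => (hT _ _).smul_right _

/-- What commutes with the signed permutations commutes with the units. -/
lemma commute_unit (he : IsUnits M e) {T : H →L[ℂ] H}
    (hT : ∀ g ∈ monoSet e, Commute T g) (a b : Fin m) : Commute T (e a b) := by
  have hdiag : ∀ c, Commute T (e c c) := by
    intro c
    have hval : mono e 1 (fun d => if d = c then -1 else 1) = 1 - (2 : ℂ) • e c c := by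
      rw [mono, ← he.total]
      rw [← Finset.add_sum_erase _ _ (Finset.mem_univ c),
        ← Finset.add_sum_erase _ (fun i => e i i) (Finset.mem_univ c)]
      have hs : ∑ x ∈ Finset.univ.erase c,
          ((((if x = c then -1 else 1 : ℤˣ) : ℤ)) : ℂ) • e ((1 : Equiv.Perm (Fin m)) x) x =
          ∑ x ∈ Finset.univ.erase c, e x x := by
        refine Finset.sum_congr rfl fun x hx => ?_
        simp [Finset.ne_of_mem_erase hx]
      rw [hs]
      simp only [if_true, Equiv.Perm.one_apply, Units.val_neg, Units.val_one, Int.cast_neg,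
        Int.cast_one, neg_smul, one_smul, two_smul]
      abel
    have h := hT _ (mono_mem_monoSet 1 (fun d => if d = c then -1 else 1))
    rw [hval] at h
    have h2 : Commute T ((2 : ℂ) • e c c) := by
      have := (Commute.one_right T).sub_right h
      rwa [sub_sub_cancel] at this
    have h3 := h2.smul_right (2 : ℂ)⁻¹
    rwa [smul_smul, inv_mul_cancel₀ two_ne_zero, one_smul] at h3
  have hsw : mono e (Equiv.swap a b) (fun _ => 1) * e b b = e a b := by
    rw [mono_mul_unit he]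
    simp
  rw [← hsw]
  exact (hT _ (mono_mem_monoSet _ _)).mul_right (hdiag b)

end Mono

/-! ## The signs of central projections -/

open Classical in
/-- The group of the sign of a projection. -/
def signSet (p : H →L[ℂ] H) : Finset (H →L[ℂ] H) := {1, 1 - (2 : ℂ) • p}

lemma signSet_isFinGroup {p : H →L[ℂ] H} (hp : IsStarProjection p) (hpM : p ∈ M) :
    IsFinGroup M (signSet p) := by
  classical
  have hsq : (1 - (2 : ℂ) • p) * (1 - (2 : ℂ) • p) = 1 := by
    rw [two_smul]
    simp only [sub_mul, mul_sub, add_mul, mul_add, one_mul, mul_one, hp.isIdempotentElem.eq]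
    abel
  have hst : star (1 - (2 : ℂ) • p) = 1 - (2 : ℂ) • p := by
    rw [two_smul, star_sub, star_one, star_add, hp.isSelfAdjoint.star_eq]
  refine ⟨Finset.mem_insert_self _ _, ?_, ?_, ?_, ?_⟩
  · intro g hg h hh
    simp only [signSet, Finset.mem_insert, Finset.mem_singleton] at *
    rcases hg with rfl | rfl <;> rcases hh with rfl | rfl <;> simp [hsq]
  · intro g hg
    simp only [signSet, Finset.mem_insert, Finset.mem_singleton] at *
    rcases hg with rfl | rfl <;> simp [hst]
  · intro g hg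
    simp only [signSet, Finset.mem_insert, Finset.mem_singleton] at hg
    rcases hg with rfl | rfl
    · exact one_mem M
    · exact sub_mem (one_mem M) (gf_smul_mem M _ hpM)
  · intro g hg
    simp only [signSet, Finset.mem_insert, Finset.mem_singleton] at hg
    rcases hg with rfl | rfl
    · simp
    · rw [hst, hsq]
      exact ⟨rfl, rfl⟩

lemma commute_signSet {p T : H →L[ℂ] H} (h : Commute T p) : ∀ g ∈ signSet p, Commute T g := by
  classical
  intro g hg
  simp only [signSet, Finset.mem_insert, Finset.mem_singleton] at hg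
  rcases hg with rfl | rfl
  · exact Commute.one_right T
  · exact (Commute.one_right T).sub_right (h.smul_right _)

lemma commute_of_signSet {p T : H →L[ℂ] H} (h : ∀ g ∈ signSet p, Commute T g) :
    Commute T p := by
  classical
  have h1 := h (1 - (2 : ℂ) • p) (by simp [signSet])
  have h2 : Commute T ((2 : ℂ) • p) := by
    have := (Commute.one_right T).sub_right h1
    rwa [sub_sub_cancel] at this
  have h3 := h2.smul_right (2 : ℂ)⁻¹
  rwa [smul_smul, inv_mul_cancel₀ two_ne_zero, one_smul] at h3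

/-! ## Countably many central projections determine the centre -/

/-- A central projection. -/
def IsCentralProj (M : VonNeumannAlgebra H) (p : H →L[ℂ] H) : Prop :=
  IsStarProjection p ∧ p ∈ M ∧ p ∈ M.commutant

lemma norm_proj_sub_le (hcs : Tomita.CycSep M ξ) {p : H →L[ℂ] H} (hp : IsCentralProj M p)
    (v : H) {ε : ℝ} (hε : 0 < ε) :
    ∃ C : ℝ, 0 ≤ C ∧ ∀ q, IsCentralProj M q → ‖q v - p v‖ ≤ 2 * ε + C * ‖q ξ - p ξ‖ := by
  obtain ⟨w, ⟨y, hy, rfl⟩, hw⟩ := hcs.cyclic.exists_dist_lt v hε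
  refine ⟨‖y‖, norm_nonneg y, fun q hq => ?_⟩
  rw [dist_eq_norm] at hw
  have hcomm : ∀ r, IsCentralProj M r → r (y ξ) = y (r ξ) := by
    intro r hr
    have h := DFunLike.congr_fun ((VonNeumannAlgebra.mem_commutant_iff.1 hr.2.2) y hy) ξ
    simp only [mul_apply_eq_comp] at h
    exact h.symm
  have hdec : q v - p v = (q (v - y ξ) - p (v - y ξ)) + y (q ξ - p ξ) := by
    rw [map_sub, map_sub, map_sub, hcomm q hq, hcomm p hp]
    abel
  have b1 : ‖q (v - y ξ)‖ ≤ ε := (P085.norm_proj_apply_le hq.1 _).trans hw.le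
  have b2 : ‖p (v - y ξ)‖ ≤ ε := (P085.norm_proj_apply_le hp.1 _).trans hw.le
  have b3 := norm_sub_le (q (v - y ξ)) (p (v - y ξ))
  have b4 := y.le_opNorm (q ξ - p ξ)
  calc ‖q v - p v‖ ≤ ‖q (v - y ξ) - p (v - y ξ)‖ + ‖y (q ξ - p ξ)‖ := by
        rw [hdec]; exact norm_add_le _ _
    _ ≤ 2 * ε + ‖y‖ * ‖q ξ - p ξ‖ := by linarith

lemma exists_centralProjs [TopologicalSpace.SeparableSpace H] (hcs : Tomita.CycSep M ξ) :
    ∃ p : ℕ → (H →L[ℂ] H), (∀ n, IsCentralProj M (p n)) ∧
      ∀ z ∈ M, z ∈ M.commutant → ∀ T : (H →L[ℂ] H), (∀ n, Commute T (p n)) → Commute T z := by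
  have hone : IsCentralProj M (1 : H →L[ℂ] H) :=
    ⟨IsStarProjection.one _, one_mem M, one_mem _⟩
  let S : Set H := (fun q : H →L[ℂ] H => q ξ) '' {q | IsCentralProj M q}
  obtain ⟨D, hDS, hDc, hSD⟩ :=
    (TopologicalSpace.IsSeparable.of_separableSpace S).exists_countable_dense_subset
  have hDne : D.Nonempty := by
    have h1 : ((1 : H →L[ℂ] H) ξ) ∈ closure D := hSD ⟨1, hone, rfl⟩
    exact closure_nonempty_iff.1 ⟨_, h1⟩
  obtain ⟨f, hf⟩ := hDc.exists_eq_range hDne
  have hex : ∀ n, ∃ q, IsCentralProj M q ∧ q ξ = f n := by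
    intro n
    obtain ⟨q, hq, hqe⟩ := hDS (hf ▸ Set.mem_range_self n : f n ∈ D)
    exact ⟨q, hq, hqe⟩
  choose p hp hpf using hex
  refine ⟨p, hp, ?_⟩
  intro z hzM hzc T hT
  have hproj : ∀ q, IsCentralProj M q → Commute T q := by
    intro q hq
    refine ContinuousLinearMap.ext fun v => ?_
    rw [mul_apply_eq_comp, mul_apply_eq_comp]
    by_contra hne
    have hpos : 0 < ‖T (q v) - q (T v)‖ := norm_pos_iff.2 (sub_ne_zero.2 hne)
    set d := ‖T (q v) - q (T v)‖ with hd
    have hT1 : (0 : ℝ) < ‖T‖ + 1 := by positivity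
    set ε : ℝ := d / (8 * (‖T‖ + 1)) with hεdef
    have hε : 0 < ε := by positivity
    obtain ⟨C₁, hC₁, h₁⟩ := norm_proj_sub_le hcs hq v hε
    obtain ⟨C₂, hC₂, h₂⟩ := norm_proj_sub_le hcs hq (T v) hε
    have hr : 0 < ε / (C₁ + C₂ + 1) := by positivity
    obtain ⟨w, hwD, hw⟩ := Metric.mem_closure_iff.1 (hSD ⟨q, hq, rfl⟩) _ hr
    obtain ⟨n, rfl⟩ : w ∈ Set.range f := hf ▸ hwD
    rw [dist_comm, dist_eq_norm, ← hpf n] at hw
    have hbound : (C₁ + C₂ + 1) * ‖p n ξ - q ξ‖ ≤ ε := by
      have := (lt_div_iff₀ (by positivity : (0 : ℝ) < C₁ + C₂ + 1)).1 hw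
      linarith
    have hn0 := norm_nonneg (p n ξ - q ξ)
    have e₁ : ‖p n v - q v‖ ≤ 3 * ε := by
      refine (h₁ _ (hp n)).trans ?_
      nlinarith
    have e₂ : ‖p n (T v) - q (T v)‖ ≤ 3 * ε := by
      refine (h₂ _ (hp n)).trans ?_
      nlinarith
    have hc : T (p n v) = p n (T v) := DFunLike.congr_fun (hT n).eq v
    have hdec : T (q v) - q (T v) = (p n (T v) - q (T v)) - T (p n v - q v) := by
      rw [map_sub, hc]; abel
    have hle : d ≤ 3 * ε + ‖T‖ * (3 * ε) := by
      rw [hd, hdec]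
      exact (norm_sub_le _ _).trans (add_le_add e₂
        ((T.le_opNorm _).trans (mul_le_mul_of_nonneg_left e₁ (norm_nonneg T))))
    have hεd : ε * (8 * (‖T‖ + 1)) = d := div_mul_cancel₀ d (by positivity)
    nlinarith
  have hsa : ∀ h : H →L[ℂ] H, IsSelfAdjoint h → h ∈ M → h ∈ M.commutant → Commute T h := by
    intro h hh hhM hhc
    by_contra hne
    have hpos : 0 < ‖T * h - h * T‖ := norm_pos_iff.2 (sub_ne_zero.2 hne)
    set d := ‖T * h - h * T‖ with hd
    have hθ : 0 < d / (3 * (‖T‖ + 1)) := by positivity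
    set θ := d / (3 * (‖T‖ + 1)) with hθdef
    obtain ⟨k, c, E, hE, horth, hsum, -, happ⟩ := P085.exists_spectral_partition hh hθ
    have hEc : ∀ i, IsCentralProj M (E i) := by
      intro i
      refine ⟨(hE i).1, (hE i).2.mem hhM, VonNeumannAlgebra.mem_commutant_iff.2 fun y hy => ?_⟩
      exact ((hE i).2 y ((VonNeumannAlgebra.mem_commutant_iff.1 hhc) y hy).symm
        ((VonNeumannAlgebra.mem_commutant_iff.1 hhc) (star y) (star_mem hy)).symm).eq.symm
    set s : H →L[ℂ] H := ∑ i, (c i : ℂ) • E i with hs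
    have hTs : Commute T s :=
      Commute.sum_right _ _ _ fun i _ => (hproj _ (hEc i)).smul_right _
    have hdiff : ‖h - s‖ ≤ θ := by
      have hsub : h - s = ∑ i, (h - (c i : ℂ) • 1) * E i := by
        simp only [hs, sub_mul, smul_mul_assoc, one_mul, Finset.sum_sub_distrib,
          ← Finset.mul_sum, hsum, mul_one]
      rw [hsub]
      refine P085.norm_sum_mul_le (IsStarProjection.one _) (fun i => (hE i).1) horth hsum
        (fun i => ((hE i).2.comm_self hh).sub_right ((Commute.one_right _).smul_right _)) hθ.le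
        fun i x hx => ?_
      simpa using happ i x hx
    have hdec : T * h - h * T = T * (h - s) - (h - s) * T := by
      rw [mul_sub, sub_mul, hTs.eq]; abel
    have hle : d ≤ 2 * (θ * ‖T‖) := by
      rw [hd, hdec]
      have b1 := norm_sub_le (T * (h - s)) ((h - s) * T)
      have b2 := norm_mul_le T (h - s)
      have b3 := norm_mul_le (h - s) T
      have b4 := mul_le_mul_of_nonneg_left hdiff (norm_nonneg T)
      nlinarith
    have hθd : θ * (3 * (‖T‖ + 1)) = d := div_mul_cancel₀ d (by positivity)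
    nlinarith
  have hzs : star z ∈ M.commutant := star_mem hzc
  have h1 : Commute T (z + star z) :=
    hsa _ (IsSelfAdjoint.add_star_self z) (add_mem hzM (star_mem hzM)) (add_mem hzc hzs)
  have h2 : Commute T (Complex.I • (z - star z)) := by
    refine hsa _ ?_ (gf_smul_mem M _ (sub_mem hzM (star_mem hzM)))
      (gf_smul_mem M.commutant _ (sub_mem hzc hzs))
    show star (Complex.I • (z - star z)) = _
    rw [star_smul, star_sub, star_star, Complex.star_def, Complex.conj_I, neg_smul, ← smul_neg,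
      neg_sub]
  have h3 : z = (2 : ℂ)⁻¹ • ((z + star z) - Complex.I • (Complex.I • (z - star z))) := by
    rw [smul_smul, Complex.I_mul_I, neg_one_smul, sub_neg_eq_add]
    rw [show z + star z + (z - star z) = (2 : ℂ) • z by rw [two_smul]; abel]
    rw [smul_smul, inv_mul_cancel₀ two_ne_zero, one_smul]
  rw [h3]
  exact (h1.sub_right (h2.smul_right _)).smul_right _

/-! ## The gauge of commuting centralised units -/

/-- Conjugated matrix units. -/
lemma isUnits_conj {m : ℕ} {e : Fin m → Fin m → (H →L[ℂ] H)} {w : H →L[ℂ] H}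
    (he : IsUnits M e) (hw : w ∈ M) (h1 : star w * w = 1) (h2 : w * star w = 1) :
    IsUnits M (fun a b => w * e a b * star w) where
  mem a b := mul_mem (mul_mem hw (he.mem a b)) (star_mem hw)
  star_eq a b := by rw [star_mul, star_mul, star_star, he.star_eq, ← mul_assoc]
  mul a b c d := by
    rw [show w * e a b * star w * (w * e c d * star w)
        = w * (e a b * ((star w * w) * (e c d * star w))) by simp only [mul_assoc],
      h1, one_mul, ← mul_assoc (e a b), he.mul, ← mul_assoc]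
    split <;> simp
  total := by rw [← Finset.sum_mul, ← Finset.mul_sum, he.total, mul_one, h2]

/-- Commuting centralised matrix units of unbounded size with relative commutant in the commutant
give a gauge with large units in the double commutant of its groups. -/
theorem gauge_of_units [TopologicalSpace.SeparableSpace H] (hcs : Tomita.CycSep M ξ) (m : ℕ → ℕ)
    (e : ∀ j, Fin (m j) → Fin (m j) → (H →L[ℂ] H)) (he : ∀ j, IsUnits M (e j))
    (hcomm : ∀ i j, i ≠ j → ∀ a b c d, e i a b * e j c d = e j c d * e i a b)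
    (hbig : ∀ k, ∃ j, k < m j)
    (hcent : ∀ j a b, ∀ y ∈ M, ⟪ξ, e j a b (y ξ)⟫_ℂ = ⟪ξ, y (e j a b ξ)⟫_ℂ)
    (hirr : ∀ x ∈ M, (∀ j a b, e j a b * x = x * e j a b) → x ∈ M.commutant) :
    ∃ G : ℕ → Finset (H →L[ℂ] H), Gauge M ξ G ∧ Equi M G := by
  obtain ⟨p, hp, hdet⟩ := exists_centralProjs hcs
  have hpc : ∀ n, ∀ x ∈ M, Commute x (p n) := fun n x hx =>
    (VonNeumannAlgebra.mem_commutant_iff.1 (hp n).2.2) x hx
  have hsc : ∀ n, ∀ g ∈ signSet (p n), ∀ x ∈ M, Commute x g := fun n g hg x hx =>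
    commute_signSet (hpc n x hx) g hg
  let F : ℕ → Finset (H →L[ℂ] H) := fun j => prodSet (monoSet (e j)) (signSet (p j))
  have hm := fun j => monoSet_isFinGroup (he j)
  have hs := fun j => signSet_isFinGroup (hp j).1 (hp j).2.1
  have hF : ∀ j, IsFinGroup M (F j) := fun j =>
    (hm j).prod (hs j) fun a ha b hb => hsc j b hb a ((hm j).mem a ha)
  have hFc : ∀ i j, i ≠ j → ∀ a ∈ F i, ∀ b ∈ F j, Commute a b := by
    intro i j hij a ha b hb
    obtain ⟨a₁, ha₁, a₂, ha₂, rfl⟩ := mem_prodSet.1 ha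
    obtain ⟨b₁, hb₁, b₂, hb₂, rfl⟩ := mem_prodSet.1 hb
    have h11 : Commute a₁ b₁ := commute_monoSet a₁ (fun c d =>
      (commute_monoSet (e j c d) (fun a b => (hcomm i j hij a b c d).symm) a₁ ha₁).symm) b₁ hb₁
    have h12 : Commute a₁ b₂ := hsc j b₂ hb₂ a₁ ((hm i).mem a₁ ha₁)
    have h21 : Commute a₂ b₁ := (hsc i a₂ ha₂ b₁ ((hm j).mem b₁ hb₁)).symm
    have h22 : Commute a₂ b₂ := (hsc i a₂ ha₂ b₂ ((hs j).mem b₂ hb₂)).symm
    exact (h11.mul_right h12).mul_left (h21.mul_right h22)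
  have hG := prodUpTo_isFinGroup hF hFc
  have hmono : ∀ n, ∀ g ∈ prodUpTo F n, g ∈ prodUpTo F (n + 1) := fun n =>
    subset_prodSet_left (hF n).one
  have hin : ∀ j, ∀ g ∈ F j, g ∈ prodUpTo F (j + 1) := fun j => subset_prodSet_right (hG j).one
  have hone : Centralised M ξ 1 := Centralised.of_central (one_mem _)
  have hmc : ∀ j, ∀ g ∈ monoSet (e j), Centralised M ξ g := by
    intro j g hg
    obtain ⟨π, ε, rfl⟩ := exists_of_mem_monoSet hg
    refine Finset.sum_induction _ (Centralised M ξ) (fun _ _ => Centralised.add) ?_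
      fun a _ => Centralised.smul _ (hcent j _ _)
    intro y hy
    simp
  have hscent : ∀ j, ∀ g ∈ signSet (p j), Centralised M ξ g := fun j g hg =>
    Centralised.of_central
      (VonNeumannAlgebra.mem_commutant_iff.2 fun x hx => hsc j g hg x hx)
  have hcentG : ∀ n, ∀ g ∈ prodUpTo F n, g ∈ M ∧ Centralised M ξ g := by
    refine prodUpTo_prop hone (fun j g hg => ?_) fun a b ha hb => Centralised.mul ha hb
    obtain ⟨a, ha, b, hb, rfl⟩ := mem_prodSet.1 hg
    exact ⟨(hF j).mem _ hg,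
      Centralised.mul ((hm j).mem a ha) ((hs j).mem b hb) (hmc j a ha) (hscent j b hb)⟩
  have hunit : ∀ T : (H →L[ℂ] H), (∀ n, ∀ g ∈ prodUpTo F n, g * T = T * g) →
      ∀ j a b, Commute T (e j a b) := fun T hT j a b =>
    commute_unit (he j) (fun g hg =>
      (hT (j + 1) g (hin j g (subset_prodSet_left (hs j).one g hg))).symm) a b
  refine ⟨prodUpTo F, ⟨hcs, fun n => (hG n).one, fun n => (hG n).mul, fun n => (hG n).adj,
    hmono, fun n => (hG n).mem, fun n => (hG n).unit, fun n g hg => (hcentG n g hg).2, ?_, ?_⟩,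
    ?_⟩
  · intro x hx h
    exact hirr x hx fun j a b => (hunit x h j a b).eq.symm
  · intro z hzM hzc T h
    refine (hdet z hzM hzc T fun n => commute_of_signSet fun g hg => ?_).eq.symm
    exact (h (n + 1) g (hin n g (subset_prodSet_right (hm n).one g hg))).symm
  · intro k
    obtain ⟨j, hj⟩ := hbig k
    exact ⟨m j, hj, e j, he j, fun a b T h => (hunit T h j a b).eq.symm⟩

end Vale.Agent.P096.AT
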