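import Vale.Agent.P096.AT.Escape
import Vale.Agent.P096.AT.GaugeFinite
import Vale.Agent.P132.Homog.HasModular

/-!
# P096, all types: sites give a gauge

Stage by stage a new tracial site is rotated by a nearly centralised unitary so that averaging over
it moves the next element of a strongly dense list near the centre. The vectors `V J V ξ` converge
to a cyclic separating vector which the rotated sites centralise, and their relative commutant is
the centre.
-/

noncomputable section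

namespace Vale.Agent.P096.AT

open Filter Topology Complex
open Vale.Agent.P132
open scoped InnerProductSpace
open _root_.P132 (Std Modular)

universe u

variable {H : Type u} [NormedAddCommGroup H] [InnerProductSpace ℂ H] [CompleteSpace H]
variable {M : VonNeumannAlgebra H} {ξ : H}

lemma norm_apply_of_iso {V : H →L[ℂ] H} (hV : star V * V = 1) (x : H) : ‖V x‖ = ‖x‖ := by
  rw [norm_eq_sqrt_re_inner (𝕜 := ℂ), norm_eq_sqrt_re_inner (𝕜 := ℂ) x,
    ← ContinuousLinearMap.adjoint_inner_right, ← ContinuousLinearMap.star_eq_adjoint,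
    ← mul_apply_eq_comp, hV]
  rfl

/-- A vector separating for the commutant is cyclic. -/
lemma cycSep_of_separating {η : H} (h1 : ‖η‖ = 1) (hs : ∀ a ∈ M, a η = 0 → a = 0)
    (hs' : ∀ b ∈ M.commutant, b η = 0 → b = 0) : Tomita.CycSep M η := by
  refine ⟨h1, ?_, hs⟩
  let S : Submodule ℂ H :=
    { carrier := (fun a : H →L[ℂ] H => a η) '' (M : Set (H →L[ℂ] H))
      add_mem' := by
        rintro _ _ ⟨a, ha, rfl⟩ ⟨b, hb, rfl⟩
        exact ⟨a + b, add_mem ha hb, rfl⟩
      zero_mem' := ⟨0, zero_mem M, rfl⟩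
      smul_mem' := by
        rintro c _ ⟨a, ha, rfl⟩
        exact ⟨c • a, M.toStarSubalgebra.smul_mem ha c, rfl⟩ }
  have : CompleteSpace S.topologicalClosure :=
    S.isClosed_topologicalClosure.completeSpace_coe
  set G := S.topologicalClosure
  set e := G.starProjection
  have hinv : ∀ y ∈ M, ∀ x ∈ G, y x ∈ G := by
    intro y hy x hx
    refine map_mem_closure (f := y) y.continuous hx ?_
    rintro _ ⟨a, ha, rfl⟩
    exact ⟨y * a, mul_mem hy ha, rfl⟩
  have he : e ∈ M.commutant := by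
    rw [VonNeumannAlgebra.IsStarProjection.mem_iff isStarProjection_starProjection]
    intro y hy x hx
    rw [VonNeumannAlgebra.commutant_commutant] at hy
    rw [Submodule.mem_comap, show LinearMap.range e.toLinearMap = G from
      Submodule.range_starProjection G] at *
    exact hinv y hy x hx
  have hη : η ∈ G := S.le_topologicalClosure ⟨1, one_mem M, rfl⟩
  have he1 : 1 - e = 0 := hs' _ (sub_mem (one_mem M.commutant) he) (by
    simp [e, Submodule.starProjection_eq_self_iff.2 hη])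
  intro x
  have hx : e x = x := by
    have := congrArg (fun T : H →L[ℂ] H => T x) he1
    exact (sub_eq_zero.1 (by simpa using this)).symm
  exact (Submodule.starProjection_eq_self_iff.1 hx : x ∈ G)

namespace Sites

variable (Si : Sites M ξ)

/-- The average over the units of the site `i`. -/
def P (i : ℕ) (y : H →L[ℂ] H) : H →L[ℂ] H := (Si.dim i : ℂ)⁻¹ • ∑ a, Si.coef i y a a

/-- The average over the units of the sites in `F`. -/
def Q (F : List ℕ) (y : H →L[ℂ] H) : H →L[ℂ] H := F.foldr Si.P y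

variable {Si}

lemma P_mem {i : ℕ} {y : H →L[ℂ] H} (hy : y ∈ M) : Si.P i y ∈ M :=
  _root_.P132.vN_smul_mem _ _ (sum_mem fun a _ => Si.coef_mem i hy a a)

lemma P_sub (i : ℕ) (x y : H →L[ℂ] H) : Si.P i (x - y) = Si.P i x - Si.P i y := by
  simp only [P, coef, mul_sub, sub_mul, Finset.sum_sub_distrib, smul_sub]

lemma P_sa {i : ℕ} {y : H →L[ℂ] H} (hy : IsSelfAdjoint y) : IsSelfAdjoint (Si.P i y) := by
  simp [IsSelfAdjoint, P, coef, star_smul, star_sum, Si.u_star, hy.star_eq, mul_assoc]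

lemma P_fix {i : ℕ} {x : H →L[ℂ] H} (hx : Si.CommSite i x) : Si.P i x = x := by
  have e : ∀ a, Si.coef i x a a = x := fun a => by
    simp only [coef, ← hx _ _, mul_assoc, Si.u_mul, if_pos, ← Finset.mul_sum, Si.u_one, mul_one]
  have : (Si.dim i : ℂ) ≠ 0 := by exact_mod_cast (Si.dim_pos i).ne'
  simp [P, e, ← Nat.cast_smul_eq_nsmul ℂ, smul_smul, this]

lemma P_conj {i : ℕ} {w : H →L[ℂ] H} (hw : Si.CommSite i w) (y : H →L[ℂ] H) :
    Si.P i (star w * y * w) = star w * Si.P i y * w := by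
  simp only [P, coef, mul_smul_comm, smul_mul_assoc, Finset.mul_sum, Finset.sum_mul]
  congr 1
  refine Finset.sum_congr rfl fun a _ => Finset.sum_congr rfl fun c _ => ?_
  simp only [mul_assoc]
  rw [hw a c, ← mul_assoc, ← hw.star c a, mul_assoc]

lemma P_comm {i j : ℕ} {y : H →L[ℂ] H} (hy : Si.CommSite j y) : Si.CommSite j (Si.P i y) :=
  (CommSite.sum _ fun a _ => hy.coef a a).smul _

lemma P_comm_self (i : ℕ) (y : H →L[ℂ] H) : Si.CommSite i (Si.P i y) :=
  (CommSite.sum _ fun a _ => Si.coef_comm i y a a).smul _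

lemma P_unit {i : ℕ} {x : H →L[ℂ] H} (hx : Si.CommSite i x) (j : Fin (Si.dim i)) :
    Si.P i (x * Si.u i j j) = (Si.dim i : ℂ)⁻¹ • x := by
  simp only [P, coef, ← mul_assoc, ← hx _ _]
  simp only [mul_assoc, Si.u_mul, mul_ite, mul_zero, ite_mul, zero_mul]
  simp [← Finset.mul_sum, Si.u_one]

variable (h : Tomita.CycSep M ξ)

include h in
lemma norm_P_le {i : ℕ} (hi : Si.Uni i) {y : H →L[ℂ] H} (hy : y ∈ M) :
    ‖Si.P i y ξ‖ ≤ ‖y ξ‖ := by
  have hd : (0 : ℝ) < Si.dim i := by exact_mod_cast Si.dim_pos i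
  have e := Si.norm_emb_apply i h (fun a b => Si.coef_mem i hy a b) fun a b => Si.coef_comm i y a b
  rw [show Si.emb i (fun a b => Si.coef i y a b) = y from (Si.coef_expand i y).symm] at e
  refine (pow_le_pow_iff_left₀ (norm_nonneg _) (norm_nonneg _) two_ne_zero).1 ?_
  rw [e, P, smul_apply, sum_apply, norm_smul, norm_inv, Complex.norm_natCast, mul_pow]
  have h1 : ‖∑ a, Si.coef i y a a ξ‖ ^ 2 ≤ Si.dim i * ∑ a, ‖Si.coef i y a a ξ‖ ^ 2 := by
    refine (pow_le_pow_left₀ (norm_nonneg _) (norm_sum_le _ _) 2).trans ?_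
    simpa using sq_sum_le_card_mul_sum_sq (s := Finset.univ)
      (f := fun a => ‖Si.coef i y a a ξ‖)
  refine (mul_le_mul_of_nonneg_left h1 (by positivity)).trans ?_
  rw [← mul_assoc, sq, mul_assoc _ _ (Si.dim i : ℝ), inv_mul_cancel₀ hd.ne', mul_one,
    Finset.mul_sum]
  refine Finset.sum_le_sum fun a _ => ?_
  have h2 := Finset.single_le_sum (s := Finset.univ)
    (f := fun b => Si.wt i b * ‖Si.coef i y a b ξ‖ ^ 2)
    (fun b _ => mul_nonneg (Si.wt_pos i b).le (sq_nonneg _)) (Finset.mem_univ a)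
  simpa only [hi a] using h2

lemma Q_mem {F : List ℕ} {y : H →L[ℂ] H} (hy : y ∈ M) : Si.Q F y ∈ M := by
  induction F with
  | nil => exact hy
  | cons i F ih => exact P_mem ih

lemma Q_sub (F : List ℕ) (x y : H →L[ℂ] H) : Si.Q F (x - y) = Si.Q F x - Si.Q F y := by
  induction F with
  | nil => rfl
  | cons i F ih =>
    simp only [Q, List.foldr_cons] at ih ⊢
    rw [ih, P_sub]

lemma Q_sa {F : List ℕ} {y : H →L[ℂ] H} (hy : IsSelfAdjoint y) : IsSelfAdjoint (Si.Q F y) := by
  induction F with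
  | nil => exact hy
  | cons i F ih => exact P_sa ih

lemma Q_commSite {F : List ℕ} {j : ℕ} {y : H →L[ℂ] H} (hy : Si.CommSite j y) :
    Si.CommSite j (Si.Q F y) := by
  induction F with
  | nil => exact hy
  | cons i F ih => exact P_comm ih

lemma Q_commAll (F : List ℕ) (y : H →L[ℂ] H) : Si.CommAll F (Si.Q F y) := by
  induction F with
  | nil => simp [CommAll]
  | cons i F ih =>
    intro j hj
    rcases List.mem_cons.1 hj with rfl | hj
    · exact P_comm_self _ _
    · exact P_comm (ih j hj)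

lemma Q_conj {F : List ℕ} {w : H →L[ℂ] H} (hw : Si.CommAll F w) (y : H →L[ℂ] H) :
    Si.Q F (star w * y * w) = star w * Si.Q F y * w := by
  induction F with
  | nil => rfl
  | cons i F ih =>
    simp only [Q, List.foldr_cons] at ih ⊢
    rw [ih fun j hj => hw j (List.mem_cons_of_mem _ hj), P_conj (hw i List.mem_cons_self)]

lemma Q_fix {F : List ℕ} {x : H →L[ℂ] H} (hx : Si.CommAll F x) : Si.Q F x = x := by
  induction F with
  | nil => rfl
  | cons i F ih =>
    simp only [Q, List.foldr_cons] at ih ⊢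
    rw [ih fun j hj => hx j (List.mem_cons_of_mem _ hj), P_fix (hx i List.mem_cons_self)]

include h in
lemma norm_Q_le {F : List ℕ} (hF : ∀ i ∈ F, Si.Uni i) {y : H →L[ℂ] H} (hy : y ∈ M) :
    ‖Si.Q F y ξ‖ ≤ ‖y ξ‖ := by
  induction F with
  | nil => exact le_rfl
  | cons i F ih =>
    exact (norm_P_le h (hF i List.mem_cons_self) (Q_mem hy)).trans
      (ih fun j hj => hF j (List.mem_cons_of_mem _ hj))

lemma commAll_central {F : List ℕ} {z : H →L[ℂ] H} (hz : z ∈ M.commutant) : Si.CommAll F z :=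
  fun i _ a b => (VonNeumannAlgebra.mem_commutant_iff.1 hz _ (Si.u_mem i a b)).symm

/-! ## One stage -/

/-- Used sites and a unitary. -/
structure Stage (Si : Sites M ξ) where
  F : List ℕ
  V : H →L[ℂ] H

/-- The invariants of a stage. -/
structure Ok (b : ℝ) (st : Si.Stage) : Prop where
  uni : ∀ i ∈ st.F, Si.Uni i
  mem : st.V ∈ M
  unit : star st.V * st.V = 1
  unit' : st.V * star st.V = 1
  loc : Si.Loc st.V
  rb : Modular.RightBound (S := stdOf h) st.V b
  rb' : Modular.RightBound (S := stdOf h) (star st.V) b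

/-- The step from `st` to `st'` for the element `a`. -/
structure Rel (a : H →L[ℂ] H) (η ε : ℝ) (k : ℕ) (st st' : Si.Stage) : Prop where
  grow : ∃ i, st'.F = i :: st.F ∧ k < Si.dim i ∧ i ∉ st.F
  move : ∃ v, st'.V = st.V * v ∧ Si.CommAll st.F v ∧
    ‖v ((stdOf h).modular.J (v ξ)) - ξ‖ ≤ η
  esc : ∃ z ∈ M, z ∈ M.commutant ∧ ‖(Si.Q st'.F (star st'.V * a * st'.V) - z) ξ‖ ≤ ε

lemma rightBound_mul {A B : H →L[ℂ] H} {b c : ℝ} (hA : A ∈ M) (hc : 0 ≤ c)
    (h1 : Modular.RightBound (S := stdOf h) A b) (h2 : Modular.RightBound (S := stdOf h) B c) :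
    Modular.RightBound (S := stdOf h) (A * B) (c * b) := fun y hy =>
  ((h2 (y * A) (mul_mem hy hA)).trans (mul_le_mul_of_nonneg_left (h1 y hy) hc)).trans_eq
    (mul_assoc c b _).symm

/-- A block sum of good unitaries over a site. -/
lemma good_blocks {F : List ℕ} {η : ℝ} {i : ℕ} (hi : Si.Uni i) (hiF : i ∉ F)
    {u : Fin (Si.dim i) → H →L[ℂ] H} (hu : ∀ j, Si.Good h F η (u j))
    (hc : ∀ j, Si.CommSite i (u j)) : Si.Good h F η (∑ j, u j * Si.u i j j) := by
  set D := (stdOf h).modular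
  have hη : 0 ≤ η := (hu ⟨0, Si.dim_pos i⟩).cen.nonneg
  have hmul : ∀ (x y : Fin (Si.dim i) → H →L[ℂ] H), (∀ j, Si.CommSite i (y j)) →
      (∑ j, x j * Si.u i j j) * (∑ j, y j * Si.u i j j) = ∑ j, x j * y j * Si.u i j j := by
    intro x y hy
    simp only [Finset.sum_mul, Finset.mul_sum]
    refine Finset.sum_congr rfl fun j _ => ?_
    rw [Finset.sum_eq_single j]
    · rw [mul_assoc, ← mul_assoc (Si.u i j j), ← hy j j j, mul_assoc (y j), Si.u_mul, if_pos rfl,
        mul_assoc]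
    · intro l _ hl
      rw [mul_assoc, ← mul_assoc (Si.u i l l), ← hy j l l, mul_assoc (y j), Si.u_mul,
        if_neg hl, mul_zero, mul_zero]
    · simp
  have hstar : star (∑ j, u j * Si.u i j j) = ∑ j, star (u j) * Si.u i j j := by
    simp [star_sum, Si.u_star, (hc _).star _ _]
  have hnorm : ∀ f : Fin (Si.dim i) → H →L[ℂ] H, (∀ j, Si.CommSite i (f j)) → (∀ j, ‖f j‖ ≤ η) →
      ‖∑ j, f j * Si.u i j j‖ ≤ η := by
    intro f hf hn
    have e : (∑ j, f j * Si.u i j j) = Si.emb i fun a b => if a = b then f a else 0 := by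
      simp [emb, ite_mul]
    rw [e]
    refine Si.norm_emb_le i hη (fun a b => ?_) fun v => ?_
    · by_cases hab : a = b
      · simpa [hab] using hf b
      · intro c d; simp [hab]
    · have e' : ∀ a, (∑ b, (if a = b then f a else 0) (v b)) = f a (v a) := fun a => by
        rw [Finset.sum_eq_single a (fun b _ hb => by simp [Ne.symm hb]) (by simp)]
        simp
      simp only [e', Finset.mul_sum]
      refine Finset.sum_le_sum fun a _ => ?_
      rw [← mul_pow]
      exact pow_le_pow_left₀ (norm_nonneg _)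
        (((f a).le_opNorm _).trans (mul_le_mul_of_nonneg_right (hn a) (norm_nonneg _))) 2
  have htw : ∀ {x x' : H →L[ℂ] H}, Si.CommSite i x → Tw D x x' → Si.CommSite i x' :=
    fun hx t a b => t.comm (hi.tw h a b) (hx a b)
  refine ⟨?_, ?_, ?_, Loc.sum _ fun j _ => (hu j).loc.mul (Loc.unit i j j), fun l hl => ?_⟩
  · rw [hstar, hmul _ _ hc]
    simp [(hu _).unit, Si.u_one]
  · rw [hstar, hmul _ _ fun j => (hc j).star]
    simp [(hu _).unit', Si.u_one]
  · choose u' u'' h1 h2 h3 h4 using fun j => (hu j).cen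
    refine ⟨∑ j, u' j * Si.u i j j, ∑ j, u'' j * Si.u i j j,
      Tw.sum _ fun j _ => (h1 j).mul (hi.tw h j j), ?_, ?_, ?_⟩
    · rw [hstar]
      exact Tw.sum _ fun j _ => (h2 j).mul (hi.tw h j j)
    · rw [← Finset.sum_sub_distrib]
      simp only [← sub_mul]
      exact hnorm _ (fun j => (htw (hc j) (h1 j)).sub (hc j)) h3
    · rw [hstar, ← Finset.sum_sub_distrib]
      simp only [← sub_mul]
      exact hnorm _ (fun j => (htw (hc j).star (h2 j)).sub (hc j).star) h4
  · exact CommSite.sum _ fun j _ =>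
      ((hu j).comm l hl).mul (CommSite.unit (by rintro rfl; exact hiF hl) j j)

variable {h} in
/-- One more site. -/
theorem exists_step {st : Si.Stage} {b : ℝ} (hok : Si.Ok h b st) {a : H →L[ℂ] H} (ha : a ∈ M)
    (hsa : IsSelfAdjoint a) (hal : Si.Loc a) {η ε : ℝ} (hη : 0 < η) (hε : 0 < ε) (k : ℕ) :
    ∃ st', Si.Ok h (b * (1 + η)) st' ∧ Si.Rel h a η ε k st st' := by
  set y := Si.Q st.F (star st.V * a * st.V)
  have hyM : y ∈ M := Q_mem (mul_mem (mul_mem (star_mem hok.mem) ha) hok.mem)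
  have hysa : IsSelfAdjoint y := Q_sa (by
    simp [IsSelfAdjoint, star_mul, hsa.star_eq, mul_assoc])
  have hyl : Si.Loc y :=
    ((hok.loc.star.mul hal).mul hok.loc).of_imp fun _ hj => Q_commSite hj
  obtain ⟨z, hzM, hzc, hz⟩ := escape (h := h) hok.uni hyM hysa (Q_commAll _ _)
  obtain ⟨m, hkm, w, hw, hwz⟩ := hz η hη ε hε k
  have hm : 0 < m := (Nat.zero_le k).trans_lt hkm
  obtain ⟨N₁, hN₁⟩ := hyl
  choose N hN using fun j => (hw j).loc
  obtain ⟨i, hi, hdim, hwt⟩ := Si.rich m (fun _ => (1 : ℚ) / m)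
    (fun _ => by positivity) (by simp [hm.ne'])
    (max (max N₁ (Finset.univ.sup N)) (st.F.sum + 1))
  subst hdim
  simp only [max_le_iff] at hi
  have huni : Si.Uni i := fun a => by simp [hwt]
  have hiF : i ∉ st.F := fun hmem => by
    have := List.le_sum_of_mem hmem
    omega
  have hwi : ∀ j, Si.CommSite i (w j) := fun j =>
    hN j i ((Finset.le_sup (Finset.mem_univ j)).trans hi.1.2)
  have hyi : Si.CommSite i y := hN₁ i hi.1.1
  have hv := good_blocks h huni hiF hw hwi
  set v := ∑ j, w j * Si.u i j j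
  refine ⟨⟨i :: st.F, st.V * v⟩, ⟨?_, mul_mem hok.mem hv.cen.mem, ?_, ?_, hok.loc.mul hv.loc,
    ?_, ?_⟩, ⟨⟨i, rfl, hkm, hiF⟩, ⟨v, rfl, hv.comm,
    hv.cen.norm_vJv hv.unit' hv.norm_le⟩, ⟨z, hzM, hzc, ?_⟩⟩⟩
  · intro j hj
    rcases List.mem_cons.1 hj with rfl | hj
    · exact huni
    · exact hok.uni j hj
  · rw [star_mul, mul_assoc, ← mul_assoc (star st.V), hok.unit, one_mul, hv.unit]
  · rw [star_mul, mul_assoc, ← mul_assoc v, hv.unit', one_mul, hok.unit']
  · have h1 : Modular.RightBound (S := stdOf h) v (1 + η) := fun x hx =>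
      (hv.cen.rightBound x hx).trans
        (mul_le_mul_of_nonneg_right (by linarith [hv.norm_le]) (norm_nonneg _))
    have h2 := rightBound_mul h hok.mem (by linarith) hok.rb h1
    rwa [mul_comm (1 + η)] at h2
  · have h1 : Modular.RightBound (S := stdOf h) (star v) (1 + η) := fun x hx =>
      (hv.cen.star.rightBound x hx).trans (mul_le_mul_of_nonneg_right
        (by linarith [(norm_star v).trans_le hv.norm_le]) (norm_nonneg _))
    have hb : 0 ≤ b := by
      have hb' := hok.rb 1 (one_mem M)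
      simp only [stdOf, one_apply_eq_self, norm_apply_of_iso hok.unit, h.norm_one, mul_one] at hb'
      linarith
    rw [star_mul]
    exact rightBound_mul h (star_mem hv.cen.mem) hb h1 hok.rb'
  · refine le_of_eq_of_le ?_ hwz
    congr 3
    have hd : ∑ j, star (w j) * y * w j * Si.u i j j = star v * y * v := by
      simp only [v, star_sum, star_mul, Si.u_star, Finset.sum_mul, Finset.mul_sum]
      refine Finset.sum_congr rfl fun j _ => ?_
      rw [Finset.sum_eq_single j]
      · simp only [← (hwi j).star j j, mul_assoc]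
        simp only [← mul_assoc (Si.u i j j), ← hyi j j]
        simp only [mul_assoc]
        simp only [← mul_assoc (Si.u i j j), ← hwi j j j]
        simp only [mul_assoc, Si.u_mul, if_pos]
      · intro l _ hl
        simp only [← (hwi l).star l l, mul_assoc]
        simp only [← mul_assoc (Si.u i l l), ← hyi l l]
        simp only [mul_assoc]
        simp only [← mul_assoc (Si.u i l l), ← hwi j l l]
        simp only [mul_assoc, Si.u_mul, if_neg hl, mul_zero]
      · simp
    have hP : ∀ g : Fin (Si.dim i) → H →L[ℂ] H, Si.P i (∑ j, g j) = ∑ j, Si.P i (g j) := by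
      intro g
      simp only [P, coef, Finset.mul_sum, Finset.sum_mul, ← Finset.smul_sum]
      congr 1
      conv_lhs => enter [2, a]; rw [Finset.sum_comm]
      rw [Finset.sum_comm]
    calc Si.Q (i :: st.F) (star (st.V * v) * a * (st.V * v))
        = Si.P i (Si.Q st.F (star v * (star st.V * a * st.V) * v)) := by
          simp only [Q, List.foldr_cons, star_mul, mul_assoc]
      _ = Si.P i (∑ j, star (w j) * y * w j * Si.u i j j) := by rw [Q_conj hv.comm, hd]
      _ = avgConj y w := by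
          rw [hP, avgConj, Fintype.card_fin, Finset.smul_sum]
          exact Finset.sum_congr rfl fun j _ => P_unit (((hwi j).star.mul hyi).mul (hwi j)) j

/-! ## The list -/

variable (Si) in
/-- A sequence meeting every local self-adjoint element, on the vector, infinitely often. -/
lemma exists_list [TopologicalSpace.SeparableSpace H] :
    ∃ a : ℕ → H →L[ℂ] H, (∀ k, a k ∈ M ∧ IsSelfAdjoint (a k) ∧ Si.Loc (a k)) ∧
      ∀ x ∈ M, IsSelfAdjoint x → Si.Loc x → ∀ ε > 0, ∀ K, ∃ k, K ≤ k ∧ ‖(x - a k) ξ‖ ≤ ε := by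
  classical
  obtain ⟨d, hd⟩ := TopologicalSpace.exists_dense_seq H
  let T : ℕ → (H →L[ℂ] H) → Prop := fun p a => (a ∈ M ∧ IsSelfAdjoint a ∧ Si.Loc a) ∧
    ‖a ξ - d (Nat.unpair p).1‖ ≤ 1 / ((Nat.unpair p).2 + 1 : ℝ)
  let L : ℕ → H →L[ℂ] H := fun p => if hp : ∃ a, T p a then hp.choose else 0
  refine ⟨fun k => L (Nat.unpair k).1, fun k => ?_, fun x hx hxs hxl ε hε K => ?_⟩
  · simp only [L]
    split
    · next hp => exact hp.choose_spec.1
    · exact ⟨zero_mem M, .zero _, ⟨0, fun j _ a b => by simp⟩⟩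
  · obtain ⟨q, hq⟩ := exists_nat_one_div_lt (half_pos hε)
    obtain ⟨n, hn⟩ := hd.exists_dist_lt (x ξ) (show (0 : ℝ) < 1 / (q + 1) by positivity)
    rw [dist_eq_norm] at hn
    refine ⟨Nat.pair (Nat.pair n q) K, Nat.right_le_pair _ _, ?_⟩
    have hp : ∃ a, T (Nat.pair n q) a := ⟨x, ⟨hx, hxs, hxl⟩, by simpa using hn.le⟩
    have h2 := hp.choose_spec.2
    simp only [Nat.unpair_pair] at h2
    simp only [Nat.unpair_pair, L, dif_pos hp, sub_apply]
    refine (norm_sub_le_norm_sub_add_norm_sub _ (d n) _).trans ?_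
    rw [norm_sub_rev (d n)]
    linarith

end Sites

/-! ## The gauge -/

/-- An element near the centre on the vector is central. -/
lemma central_of_near (h : Tomita.CycSep M ξ) {x : H →L[ℂ] H} (hx : x ∈ M)
    (hz : ∀ ε > 0, ∃ z ∈ M, z ∈ M.commutant ∧ ‖(x - z) ξ‖ ≤ ε) : x ∈ M.commutant := by
  set D := (stdOf h).modular
  refine VonNeumannAlgebra.mem_commutant_iff.2 fun b hb => ?_
  have key : ∀ n : ℕ, x * D.smooth (n + 1) b = D.smooth (n + 1) b * x := by
    intro n
    set c := D.smooth (n + 1) b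
    have hc : c ∈ M := D.smooth_mem _ hb
    set R := Real.exp (((n : ℝ) + 1) ^ 2 / 4) * ‖b‖ + ‖c‖
    have hR : 0 ≤ R := by positivity
    refine sub_eq_zero.1 (h.separating _ (sub_mem (mul_mem hx hc) (mul_mem hc hx))
      (norm_le_zero_iff.1 (le_of_forall_pos_le_add fun ε hε => ?_)))
    obtain ⟨z, hzM, hzc, hze⟩ := hz (ε / (R + 1)) (by positivity)
    have e : (x * c - c * x) ξ = (x - z) (c ξ) - c ((x - z) ξ) := by
      have := congrArg (fun T : H →L[ℂ] H => T ξ) (VonNeumannAlgebra.mem_commutant_iff.1 hzc c hc)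
      simp only [mul_apply_eq_comp] at this
      simp [this]
    rw [e, zero_add]
    refine (norm_sub_le _ _).trans ?_
    have h1 : ‖(x - z) (c ξ)‖ ≤ Real.exp (((n : ℝ) + 1) ^ 2 / 4) * ‖b‖ * ‖(x - z) ξ‖ :=
      D.rightBound_smooth (by positivity) hb (x - z) (sub_mem hx hzM)
    have h2 := c.le_opNorm ((x - z) ξ)
    have h3 : R * ‖(x - z) ξ‖ ≤ ε := by
      refine (mul_le_mul_of_nonneg_left hze hR).trans ?_
      rw [← mul_div_assoc, div_le_iff₀ (by positivity)]
      nlinarith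
    calc _ ≤ R * ‖(x - z) ξ‖ := by rw [add_mul]; exact add_le_add h1 h2
      _ ≤ ε := h3
  ext v
  refine tendsto_nhds_unique (D.tendsto_smooth b (x v)) ?_
  refine (((x.continuous.tendsto _).comp (D.tendsto_smooth b v))).congr fun n => ?_
  exact congrArg (fun T : H →L[ℂ] H => T v) (key n)

/-- A tower of stages. -/
structure Tower (Si : Sites M ξ) (h : Tomita.CycSep M ξ) where
  a : ℕ → H →L[ℂ] H
  V : ℕ → H →L[ℂ] H
  F : ℕ → List ℕ
  i : ℕ → ℕ
  v : ℕ → H →L[ℂ] H
  a_mem : ∀ k, a k ∈ M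
  a_dense : ∀ x ∈ M, IsSelfAdjoint x → Si.Loc x → ∀ ε > 0, ∀ K, ∃ k, K ≤ k ∧ ‖(x - a k) ξ‖ ≤ ε
  F_zero : F 0 = []
  F_succ : ∀ n, F (n + 1) = i n :: F n
  uni : ∀ n, ∀ l ∈ F n, Si.Uni l
  notMem : ∀ n, i n ∉ F n
  big : ∀ n, n < Si.dim (i n)
  V_mem : ∀ n, V n ∈ M
  V_unit : ∀ n, star (V n) * V n = 1
  V_unit' : ∀ n, V n * star (V n) = 1
  V_succ : ∀ n, V (n + 1) = V n * v n
  v_comm : ∀ n, Si.CommAll (F n) (v n)
  v_near : ∀ n, ‖v n ((stdOf h).modular.J (v n ξ)) - ξ‖ ≤ (1 / 2) ^ (n + 2)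
  rb : ∀ n, Modular.RightBound (S := stdOf h) (V n) 2
  rb' : ∀ n, Modular.RightBound (S := stdOf h) (star (V n)) 2
  esc : ∀ k, ∃ z ∈ M, z ∈ M.commutant ∧
    ‖(Si.Q (F (k + 1)) (star (V (k + 1)) * a k * V (k + 1)) - z) ξ‖ ≤ 1 / (k + 1 : ℝ)

lemma exists_tower [TopologicalSpace.SeparableSpace H] (Si : Sites M ξ)
    (h : Tomita.CycSep M ξ) : Nonempty (Tower Si h) := by
  obtain ⟨a, ha, hdense⟩ := Si.exists_list
  set bnd : ℕ → ℝ := fun k => 2 - (1 / 2) ^ k
  have hstep : ∀ (k : ℕ) (st : Si.Stage), ∃ st' : Si.Stage, Si.Ok h (bnd k) st →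
      Si.Ok h (bnd (k + 1)) st' ∧ Si.Rel h (a k) ((1 / 2) ^ (k + 2)) (1 / (k + 1 : ℝ)) k st st' := by
    intro k st
    by_cases hok : Si.Ok h (bnd k) st
    · obtain ⟨st', h1, h2⟩ := Sites.exists_step hok (ha k).1 (ha k).2.1 (ha k).2.2
        (show (0 : ℝ) < (1 / 2) ^ (k + 2) by positivity)
        (show (0 : ℝ) < 1 / (k + 1) by positivity) k
      have hle : bnd k * (1 + (1 / 2) ^ (k + 2)) ≤ bnd (k + 1) := by
        simp only [bnd, pow_succ]
        nlinarith [sq_nonneg ((1 / 2 : ℝ) ^ k)]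
      refine ⟨st', fun _ => ⟨⟨h1.uni, h1.mem, h1.unit, h1.unit', h1.loc, fun y hy => ?_,
        fun y hy => ?_⟩, h2⟩⟩
      · exact (h1.rb y hy).trans (mul_le_mul_of_nonneg_right hle (norm_nonneg _))
      · exact (h1.rb' y hy).trans (mul_le_mul_of_nonneg_right hle (norm_nonneg _))
    · exact ⟨st, fun h' => absurd h' hok⟩
  choose f hf using hstep
  let st : ℕ → Si.Stage := fun n => Nat.rec ⟨[], 1⟩ (fun k s => f k s) n
  have hrb1 : Modular.RightBound (S := stdOf h) (1 : H →L[ℂ] H) (bnd 0) := fun y _ => by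
    simp [bnd, stdOf]; norm_num
  have hok : ∀ n, Si.Ok h (bnd n) (st n) := by
    intro n
    induction n with
    | zero =>
      exact ⟨fun i hi => absurd hi (by simp [st]), one_mem M, by simp [st], by simp [st],
        Sites.Loc.one, hrb1, by
          rw [show star (st 0).V = (1 : H →L[ℂ] H) from star_one _]; exact hrb1⟩
    | succ n ih => exact (hf n (st n) ih).1
  have hrel : ∀ n, Si.Rel h (a n) ((1 / 2) ^ (n + 2)) (1 / (n + 1 : ℝ)) n (st n) (st (n + 1)) :=
    fun n => (hf n (st n) (hok n)).2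
  choose i hgrow hdim hnotin using fun n => (hrel n).grow
  choose v hVv hvc hvn using fun n => (hrel n).move
  have hb2 : ∀ n, bnd n ≤ 2 := fun n => sub_le_self 2 (pow_nonneg (by norm_num) n)
  exact ⟨⟨a, fun n => (st n).V, fun n => (st n).F, i, v, fun k => (ha k).1, hdense, rfl, hgrow,
    fun n => (hok n).uni, hnotin, hdim, fun n => (hok n).mem, fun n => (hok n).unit,
    fun n => (hok n).unit', hVv, hvc, hvn,
    fun n y hy => ((hok n).rb y hy).trans (mul_le_mul_of_nonneg_right (hb2 n) (norm_nonneg _)),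
    fun n y hy => ((hok n).rb' y hy).trans (mul_le_mul_of_nonneg_right (hb2 n) (norm_nonneg _)),
    fun k => (hrel k).esc⟩⟩

namespace Tower

variable {Si : Sites M ξ} {h : Tomita.CycSep M ξ} (T : Tower Si h)

lemma exists_index : ∀ n l, l ∈ T.F n → ∃ j < n, l = T.i j
  | 0, l, hl => by simp [T.F_zero] at hl
  | n + 1, l, hl => by
    rw [T.F_succ] at hl
    rcases List.mem_cons.1 hl with rfl | hl
    · exact ⟨n, n.lt_succ_self, rfl⟩
    · obtain ⟨j, hj, rfl⟩ := exists_index n l hl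
      exact ⟨j, hj.trans n.lt_succ_self, rfl⟩

lemma later {k n : ℕ} (hkn : k ≤ n) : (∀ l ∈ T.F k, l ∈ T.F n) ∧
    ∃ w, T.V n = T.V k * w ∧ Si.CommAll (T.F k) w := by
  induction n, hkn using Nat.le_induction with
  | base => exact ⟨fun l hl => hl, 1, (mul_one _).symm, fun _ _ => Sites.CommSite.one⟩
  | succ n _ ih =>
    obtain ⟨hsub, w, hw, hwc⟩ := ih
    refine ⟨fun l hl => by rw [T.F_succ]; exact List.mem_cons_of_mem _ (hsub l hl), w * T.v n, ?_,
      fun l hl => (hwc l hl).mul (T.v_comm n l (hsub l hl))⟩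
    rw [T.V_succ, hw, mul_assoc]

lemma mem_F {j n : ℕ} (hjn : j < n) : T.i j ∈ T.F n :=
  (T.later (k := j + 1) hjn).1 _ (by rw [T.F_succ]; exact List.mem_cons_self)

lemma i_inj {j l : ℕ} (hjl : j ≠ l) : T.i j ≠ T.i l := fun e => by
  rcases Nat.lt_or_gt_of_ne hjl with hlt | hlt
  · exact T.notMem l (e ▸ T.mem_F hlt)
  · exact T.notMem j (e.symm ▸ T.mem_F hlt)

/-- The rotated units. -/
def e (j : ℕ) (p q : Fin (Si.dim (T.i j))) : H →L[ℂ] H :=
  T.V (j + 1) * Si.u (T.i j) p q * star (T.V (j + 1))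

lemma stable {j n : ℕ} (hjn : j < n) (p q : Fin (Si.dim (T.i j))) :
    T.e j p q = T.V n * Si.u (T.i j) p q * star (T.V n) := by
  obtain ⟨-, w, hw, hwc⟩ := T.later (k := j + 1) hjn
  have hww : w * star w = 1 := by
    have e1 : w = star (T.V (j + 1)) * T.V n := by rw [hw, ← mul_assoc, T.V_unit, one_mul]
    rw [e1, star_mul, star_star, mul_assoc, ← mul_assoc (T.V n), T.V_unit', one_mul, T.V_unit]
  calc T.e j p q = T.V (j + 1) * (Si.u (T.i j) p q * (w * star w)) * star (T.V (j + 1)) := by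
        rw [hww, mul_one]; rfl
    _ = T.V (j + 1) * (w * Si.u (T.i j) p q * star w) * star (T.V (j + 1)) := by
        rw [hwc (T.i j) (by rw [T.F_succ]; exact List.mem_cons_self) p q, mul_assoc _ w]
    _ = _ := by rw [hw, star_mul]; simp only [mul_assoc]

lemma isUnits (j : ℕ) : Vale.Agent.P104.Sim.IsUnits M (T.e j) :=
  isUnits_conj (w := T.V (j + 1)) (e := Si.u (T.i j))
    ⟨Si.u_mem _, Si.u_star _, Si.u_mul _, Si.u_one _⟩ (T.V_mem _) (T.V_unit _) (T.V_unit' _)

lemma conj_left {j n : ℕ} (hjn : j < n) (p q : Fin (Si.dim (T.i j))) (x : H →L[ℂ] H) :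
    star (T.V n) * (T.e j p q * x) * T.V n = Si.u (T.i j) p q * (star (T.V n) * x * T.V n) := by
  rw [T.stable hjn]
  simp only [← mul_assoc]
  rw [T.V_unit, one_mul]

lemma conj_right {j n : ℕ} (hjn : j < n) (p q : Fin (Si.dim (T.i j))) (x : H →L[ℂ] H) :
    star (T.V n) * (x * T.e j p q) * T.V n = (star (T.V n) * x * T.V n) * Si.u (T.i j) p q := by
  rw [T.stable hjn]
  simp only [mul_assoc]
  rw [T.V_unit, mul_one]

lemma e_comm {j l : ℕ} (hjl : j ≠ l) (p q : Fin (Si.dim (T.i j))) (r s : Fin (Si.dim (T.i l))) :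
    T.e j p q * T.e l r s = T.e l r s * T.e j p q := by
  obtain ⟨n, hj, hl⟩ : ∃ n, j < n ∧ l < n := ⟨j + l + 1, by omega, by omega⟩
  have hc : ∀ A B : H →L[ℂ] H, (T.V n * A * star (T.V n)) * (T.V n * B * star (T.V n)) =
      T.V n * (A * B) * star (T.V n) := fun A B => by
    simp only [mul_assoc]
    rw [← mul_assoc (star (T.V n)), T.V_unit, one_mul]
  rw [T.stable hj, T.stable hl, hc, hc, Si.u_comm _ _ (T.i_inj hjl)]

/-- The vectors. -/
def vec (n : ℕ) : H := T.V n ((stdOf h).modular.J (T.V n ξ))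

lemma apply_vec (n : ℕ) {y : H →L[ℂ] H} (hy : y ∈ M) : y (T.vec n) =
    (stdOf h).modular.J (T.V n ((stdOf h).modular.J (y (T.V n ξ)))) := by
  have h1 : (y * T.V n) ((stdOf h).modular.J (T.V n ξ)) =
      (stdOf h).modular.J (T.V n ((stdOf h).modular.J ((y * T.V n) ξ))) :=
    apply_J (mul_mem hy (T.V_mem n)) (T.V_mem n)
  simpa only [vec, mul_apply_eq_comp] using h1

lemma norm_apply_vec (n : ℕ) {y : H →L[ℂ] H} (hy : y ∈ M) :
    ‖y (T.vec n)‖ = ‖y (T.V n ξ)‖ := by
  rw [T.apply_vec n hy, LinearIsometryEquiv.norm_map, norm_apply_of_iso (T.V_unit n),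
    LinearIsometryEquiv.norm_map]

lemma inner_vec (n : ℕ) {y : H →L[ℂ] H} (hy : y ∈ M) :
    ⟪T.vec n, y (T.vec n)⟫_ℂ = (stdOf h).φ (star (T.V n) * y * T.V n) := by
  have h1 : T.vec n =
      (stdOf h).modular.J (T.V n ((stdOf h).modular.J (T.V n ξ))) := by
    simpa using T.apply_vec n (one_mem M)
  have hV' : ∀ p q, ⟪T.V n p, T.V n q⟫_ℂ = ⟪p, q⟫_ℂ := fun p q => by
    rw [← ContinuousLinearMap.adjoint_inner_right, ← ContinuousLinearMap.star_eq_adjoint,
      ← mul_apply_eq_comp, T.V_unit]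
    rfl
  rw [T.apply_vec n hy, h1, Modular.inner_J, hV', Modular.inner_J, Std.φ, mul_apply_eq_comp,
    mul_apply_eq_comp, ContinuousLinearMap.star_eq_adjoint,
    ContinuousLinearMap.adjoint_inner_right]
  rfl

lemma dist_vec (n : ℕ) : dist (T.vec n) (T.vec (n + 1)) ≤ (1 / 4) * (1 / 2) ^ n := by
  set D := (stdOf h).modular
  have hv' : T.v n ∈ M := by
    have e1 : T.v n = star (T.V n) * T.V (n + 1) := by
      rw [T.V_succ, ← mul_assoc, T.V_unit, one_mul]
    rw [e1]; exact mul_mem (star_mem (T.V_mem n)) (T.V_mem _)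
  have e1 : T.vec (n + 1) = T.V n (D.J (T.V n (D.J (T.v n (D.J (T.v n ξ)))))) := by
    simp only [vec, T.V_succ, mul_apply_eq_comp]
    refine congrArg _ ?_
    have e2 := D.J_commutant (T.v n) hv' (T.V n) (T.V_mem n) (D.J (T.v n ξ))
    rwa [D.J_J] at e2
  have e3 : T.vec n = T.V n (D.J (T.V n (D.J ξ))) := by
    rw [vec, show D.J ξ = ξ from D.J_Ω]
  rw [dist_eq_norm', e1, e3, ← map_sub, norm_apply_of_iso (T.V_unit n), ← map_sub, D.J.norm_map,
    ← map_sub, norm_apply_of_iso (T.V_unit n), ← map_sub, D.J.norm_map]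
  exact (T.v_near n).trans (le_of_eq (by ring))

lemma norm_le_apply (n : ℕ) {y : H →L[ℂ] H} (hy : y ∈ M) : ‖y ξ‖ ≤ 2 * ‖y (T.V n ξ)‖ := by
  have h1 := T.rb' n (y * T.V n) (mul_mem hy (T.V_mem n))
  have h2 : (y * T.V n) (star (T.V n) ξ) = y ξ := by
    rw [← mul_apply_eq_comp, mul_assoc, T.V_unit', mul_one]
  rw [← h2]
  exact h1

lemma cycSep {ξ' : H} (hξ' : Tendsto T.vec atTop (𝓝 ξ')) : Tomita.CycSep M ξ' := by
  set D := (stdOf h).modular
  refine cycSep_of_separating ?_ (fun y hy h0 => ?_) fun b hb h0 => ?_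
  · refine tendsto_nhds_unique hξ'.norm ?_
    simp [vec, norm_apply_of_iso (T.V_unit _), h.norm_one]
  · refine h.separating y hy (norm_le_zero_iff.1 ?_)
    refine ge_of_tendsto (f := fun n => 2 * ‖y (T.vec n)‖) (x := atTop) ?_
      (Eventually.of_forall fun n => (T.norm_le_apply n hy).trans_eq (by rw [T.norm_apply_vec n hy]))
    simpa [h0] using ((y.continuous.tendsto _).comp hξ').norm.const_mul 2
  · set c := _root_.P132.Homogeneity.conjBy D.Jc b
    have hc : c ∈ M := D.commTh b hb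
    have hn : ∀ n, ‖c (T.V n ξ)‖ = ‖b (T.vec n)‖ := fun n => by
      rw [show b (T.vec n) = T.V n (b (D.J (T.V n ξ))) from
        (congrArg (fun A : H →L[ℂ] H => A (D.J (T.V n ξ)))
          (VonNeumannAlgebra.mem_commutant_iff.1 hb (T.V n) (T.V_mem n))).symm,
        norm_apply_of_iso (T.V_unit n)]
      exact D.J.norm_map _
    have hcξ : ‖c ξ‖ ≤ 0 := by
      refine ge_of_tendsto (f := fun n => 2 * ‖b (T.vec n)‖) (x := atTop) ?_
        (Eventually.of_forall fun n => (T.norm_le_apply n hc).trans_eq (by rw [hn]))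
      simpa [h0] using ((b.continuous.tendsto _).comp hξ').norm.const_mul 2
    have hc0 : c = 0 := h.separating c hc (norm_le_zero_iff.1 hcξ)
    ext w
    have := congrArg (fun A : H →L[ℂ] H => A (D.J w)) hc0
    change D.J (b (D.J (D.J w))) = 0 at this
    simpa [D.J_J] using this

lemma centralised {ξ' : H} (hξ' : Tendsto T.vec atTop (𝓝 ξ')) (j : ℕ)
    (p q : Fin (Si.dim (T.i j))) {y : H →L[ℂ] H} (hy : y ∈ M) :
    ⟪ξ', T.e j p q (y ξ')⟫_ℂ = ⟪ξ', y (T.e j p q ξ')⟫_ℂ := by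
  refine tendsto_nhds_unique_of_eventuallyEq
    (hξ'.inner (((T.e j p q * y).continuous.tendsto _).comp hξ'))
    (hξ'.inner (((y * T.e j p q).continuous.tendsto _).comp hξ')) ?_
  filter_upwards [eventually_gt_atTop j] with n hn
  have hiu : Si.Uni (T.i j) := T.uni n _ (T.mem_F hn)
  have hs := Si.unit_scale (T.i j) h p q
    (mul_mem (mul_mem (star_mem (T.V_mem n)) hy) (T.V_mem n))
  simp only [hiu p, hiu q, sub_self, Real.exp_zero, Complex.ofReal_one, one_mul] at hs
  simp only [Function.comp_apply]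
  rw [T.inner_vec n (mul_mem ((T.isUnits j).mem p q) hy),
    T.inner_vec n (mul_mem hy ((T.isUnits j).mem p q)), T.conj_left hn, T.conj_right hn]
  exact hs

lemma irred_sa {y : H →L[ℂ] H} (hy : y ∈ M) (hys : IsSelfAdjoint y)
    (hye : ∀ j p q, T.e j p q * y = y * T.e j p q) : y ∈ M.commutant := by
  refine central_of_near h hy fun ε hε => ?_
  obtain ⟨N, hN⟩ := ((tendsto_iff_norm_sub_tendsto_zero.1 (Si.E_tendsto y hy ξ)).eventually
    (gt_mem_nhds (show (0 : ℝ) < ε / 16 by positivity))).exists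
  have hEsa : IsSelfAdjoint (Si.E N y) := by
    rw [IsSelfAdjoint, ← Si.E_star N y hy, hys.star_eq]
  obtain ⟨K, hK⟩ := exists_nat_one_div_lt (show (0 : ℝ) < ε / 8 by positivity)
  obtain ⟨k, hKk, hk⟩ := T.a_dense _ (Si.E_mem N y hy) hEsa
    ⟨N, fun j hj => Si.E_comm N j hj y hy⟩ (ε / 16) (by positivity) K
  obtain ⟨z, hzM, hzc, hz⟩ := T.esc k
  refine ⟨z, hzM, hzc, ?_⟩
  set W := T.V (k + 1) with hW
  have hfix : Si.CommAll (T.F (k + 1)) (star W * y * W) := by
    intro l hl p q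
    obtain ⟨j, hj, rfl⟩ := T.exists_index (k + 1) l hl
    rw [← T.conj_right hj p q, ← hye, T.conj_left hj p q]
  have hWW : star W * W = 1 := T.V_unit _
  have hu1 : star (star W) * star W = 1 := by rw [star_star]; exact T.V_unit' _
  have hzz : star W * z * W = z := by
    rw [mul_assoc, ← VonNeumannAlgebra.mem_commutant_iff.1 hzc _ (T.V_mem (k + 1)), ← mul_assoc,
      hWW, one_mul]
  have hd : ‖(y - T.a k) ξ‖ ≤ ε / 8 := by
    rw [norm_sub_rev] at hN
    have e1 : (y - T.a k) ξ = (y ξ - Si.E N y ξ) + (Si.E N y - T.a k) ξ := by simp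
    rw [e1]
    exact (norm_add_le _ _).trans (by linarith)
  have h1 : ‖(y - z) (W ξ)‖ ≤ 2 * ‖(y - T.a k) ξ‖ + 1 / (k + 1 : ℝ) := by
    have e1 : ‖(y - z) (W ξ)‖ = ‖(star W * y * W - z) ξ‖ := by
      rw [← norm_apply_of_iso hu1 ((y - z) _)]
      congr 1
      conv_rhs => rw [← hzz]
      simp
    have e2 : star W * y * W - z =
        Si.Q (T.F (k + 1)) (star W * (y - T.a k) * W) +
          (Si.Q (T.F (k + 1)) (star W * T.a k * W) - z) := by
      rw [mul_sub, sub_mul, Sites.Q_sub, Sites.Q_fix hfix]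
      abel
    rw [e1, e2, add_apply]
    refine (norm_add_le _ _).trans (add_le_add ?_ hz)
    refine (Sites.norm_Q_le h (T.uni _) (mul_mem (mul_mem (star_mem (T.V_mem (k + 1)))
      (sub_mem hy (T.a_mem k))) (T.V_mem (k + 1)))).trans ?_
    rw [mul_apply_eq_comp, mul_apply_eq_comp, norm_apply_of_iso hu1]
    exact T.rb (k + 1) _ (sub_mem hy (T.a_mem k))
  have hk' : 1 / (k + 1 : ℝ) ≤ ε / 8 :=
    le_trans (one_div_le_one_div_of_le (by positivity) (by exact_mod_cast Nat.succ_le_succ hKk))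
      hK.le
  have h2 := T.norm_le_apply (k + 1) (sub_mem hy hzM)
  linarith

lemma irred {y : H →L[ℂ] H} (hy : y ∈ M) (hye : ∀ j p q, T.e j p q * y = y * T.e j p q) :
    y ∈ M.commutant := by
  have hye' : ∀ j p q, T.e j p q * star y = star y * T.e j p q := fun j p q => by
    have := congrArg star (hye j q p)
    simpa [(T.isUnits j).star_eq] using this.symm
  have h1 := T.irred_sa (add_mem hy (star_mem hy)) (IsSelfAdjoint.add_star_self y)
    fun j p q => by rw [mul_add, add_mul, hye, hye']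
  have h2 := T.irred_sa (_root_.P132.vN_smul_mem _ I (sub_mem hy (star_mem hy)))
    (by simp [IsSelfAdjoint, star_smul, star_sub, smul_sub]; abel)
    fun j p q => by rw [mul_smul_comm, smul_mul_assoc, mul_sub, sub_mul, hye, hye']
  have e1 : y = (2 : ℂ)⁻¹ • ((y + star y) - I • I • (y - star y)) := by
    rw [smul_smul, I_mul_I]; module
  rw [e1]
  exact _root_.P132.vN_smul_mem _ _ (sub_mem h1 (_root_.P132.vN_smul_mem _ _ h2))

end Tower

/-- With sites there is a gauge. -/
theorem gaugeConsOut : GaugeConsOut.{u} := by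
  intro H _ _ _ _ M ξ h hS
  obtain ⟨Si⟩ := hS
  obtain ⟨T⟩ := exists_tower Si h
  obtain ⟨ξ', hξ'⟩ := cauchySeq_tendsto_of_complete
    (cauchySeq_of_le_geometric (1 / 2) (1 / 4) (by norm_num) T.dist_vec)
  exact ⟨ξ', gauge_of_units (T.cycSep hξ') (fun j => Si.dim (T.i j)) T.e T.isUnits
    (fun _ _ hjl p q r s => T.e_comm hjl p q r s) (fun k => ⟨k, T.big k⟩)
    (fun j p q _ hy => T.centralised hξ' j p q hy) fun _ hy hye => T.irred hy hye⟩

end Vale.Agent.P096.AT
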