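import Vale.Agent.P096.AT.Means.Near
import Vale.Agent.P096.AT.Means.Omega

/-!
# P096, algebras of every type: the averaged intertwiners of the two flows

For a pair with a gauge and close logistic functions the Gaussian averages of
`U N r * U M (-r)` of width `2⁻ᵏ` are near unitaries which nearly normalise `M`, fix the gauge,
move slowly in `k` and tend strongly to one.
-/

noncomputable section

namespace Vale.Agent.P096.AT.Means

open Filter Topology MeasureTheory
open Vale.Agent.P132.Tomita (fR U CycSep)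

universe u

variable {H : Type u} [NormedAddCommGroup H] [InnerProductSpace ℂ H] [CompleteSpace H]
variable {M N : VonNeumannAlgebra H} {ξ : H}

lemma avgW_fix (hN : CycSep N ξ) (hM : CycSep M ξ) (a : ℝ) : avgW hN hM a ξ = ξ := by
  have e : ∀ r, W N M ξ r ξ = ξ := fun r => by
    rw [W, mul_apply_eq_comp, hM.U_omega, hN.U_omega]
  simp [avgW_apply, e]

lemma star_avgW (hN : CycSep N ξ) (hM : CycSep M ξ) {a : ℝ} (ha : 0 < a) :
    star (avgW hN hM a) = avgW hM hN a := by
  rw [← Ts_zero hN hM, star_Ts hN hM ha, Ts_zero]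

lemma commute_avgW (hN : CycSep N ξ) (hM : CycSep M ξ) (a : ℝ) {g : H →L[ℂ] H}
    (h1 : ∀ t, g * U N ξ t = U N ξ t * g) (h2 : ∀ t, g * U M ξ t = U M ξ t * g) :
    g * avgW hN hM a = avgW hN hM a * g := by
  refine ContinuousLinearMap.ext fun v => ?_
  rw [mul_apply_eq_comp, mul_apply_eq_comp, avgW_apply, avgW_apply,
    ← g.integral_comp_comm (integrable_W hN hM a v)]
  refine integral_congr_ae (Eventually.of_forall fun x => ?_)
  have e : g * W N M ξ (x / a) = W N M ξ (x / a) * g := by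
    rw [W, ← mul_assoc, h1, mul_assoc, h2, mul_assoc]
  exact congrArg (fun A : H →L[ℂ] H => A v) e

lemma tendsto_avgW (hN : CycSep N ξ) (hM : CycSep M ξ) (v : H) :
    Tendsto (fun k : ℕ => avgW hN hM ((2 : ℝ) ^ k) v) atTop (𝓝 v) := by
  simp only [avgW_apply]
  have e : (∫ _x, W N M ξ 0 v ∂gauss) = v := by
    simp [W, hN.U_zero, hM.U_zero]
  conv => arg 3; rw [← e]
  refine tendsto_integral_of_dominated_convergence (fun _ => ‖v‖)
    (fun k => (integrable_W hN hM _ v).aestronglyMeasurable) (integrable_const _)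
    (fun k => Eventually.of_forall fun x => norm_W_apply_le hN hM _ v)
    (Eventually.of_forall fun x => ((continuous_W_apply hN hM v).tendsto 0).comp ?_)
  exact tendsto_const_nhds.div_atTop (tendsto_pow_atTop_atTop_of_one_lt one_lt_two)

end Vale.Agent.P096.AT.Means

namespace Vale.Agent.P096.AT

universe u

open Means Filter Topology
open Vale.Agent.P132

/-- (B4) the averaged intertwiners of the two flows. -/
theorem meansOut (hC : CentOut.{u}) (hG : NearGaugeOut.{u}) (hS : ScaleOut.{u}) :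
    MeansOut.{u} := by
  obtain ⟨d₁, hd₁, hG⟩ := hG
  obtain ⟨κ, d₂, hκ, hd₂, hS⟩ := hS
  intro η hη
  set ω : ℝ := (η / 64) ^ 2 with hω
  have hω0 : 0 < ω := by positivity
  obtain ⟨ε, hε, hwin⟩ := exists_window_close.{u} hω0
  refine ⟨min (min d₁ d₂) (min (ε / κ) (η / 4)), by positivity, fun H _ _ _ M N ξ G d hP hd => ?_⟩
  have hdd₁ : d ≤ d₁ := hd.trans ((min_le_left _ _).trans (min_le_left _ _))
  have hdd₂ : d ≤ d₂ := hd.trans ((min_le_left _ _).trans (min_le_right _ _))
  have hdε : d ≤ ε / κ := hd.trans ((min_le_right _ _).trans (min_le_left _ _))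
  have hdη : d ≤ η / 4 := hd.trans ((min_le_right _ _).trans (min_le_right _ _))
  obtain ⟨hGN, -, hright⟩ := hG H M N ξ G d hP hdd₁
  have hM : Tomita.CycSep M ξ := hP.gauge.cs
  have hN : Tomita.CycSep N ξ := hGN.cs
  have hscale : ∀ c : ℝ, ‖Tomita.fR M ξ (fun r => (logi c r : ℂ)) -
      Tomita.fR N ξ (fun r => (logi c r : ℂ))‖ ≤ ε := fun c =>
    (hS H M N ξ G d hP hdd₂ c).trans (by rw [mul_comm, ← le_div_iff₀ hκ]; exact hdε)
  have hw := hwin H M N ξ hscale
  have hw0 : ∀ (k : ℕ) (c : ℝ), ‖Tomita.fR M ξ (win ((2 : ℝ) ^ k) 0 c) -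
      Tomita.fR N ξ (win ((2 : ℝ) ^ k) 0 c)‖ ≤ ω := fun k c =>
    hw k 0 (by norm_num) (Or.inl rfl) c
  have hw0' : ∀ (k : ℕ) (c : ℝ), ‖Tomita.fR N ξ (win ((2 : ℝ) ^ k) 0 c) -
      Tomita.fR M ξ (win ((2 : ℝ) ^ k) 0 c)‖ ≤ ω := fun k c => by
    rw [norm_sub_rev]; exact hw0 k c
  have hsq : √ω = η / 64 := by rw [hω, Real.sqrt_sq (by positivity)]
  have hpos : ∀ k : ℕ, (0 : ℝ) < 2 ^ k := fun k => by positivity
  set T : ℕ → (H →L[ℂ] H) := fun k => avgW hN hM ((2 : ℝ) ^ k) with hT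
  have hi1 : ∀ k, ‖star (T k) * T k - 1‖ ≤ η / 4 := fun k => by
    have h := norm_star_Ts_mul_Ts hN hM (hpos k) (hpos k) (by linarith [hpos k])
      (by linarith [hpos k]) 0 0 (hw0 k) (hw0 k)
    rw [Ts_zero, hsq] at h
    exact h.trans (by linarith)
  have hi2 : ∀ k, ‖T k * star (T k) - 1‖ ≤ η / 4 := fun k => by
    have h := norm_star_Ts_mul_Ts hM hN (hpos k) (hpos k) (by linarith [hpos k])
      (by linarith [hpos k]) 0 0 (hw0' k) (hw0' k)
    rw [Ts_zero, hsq, ← star_avgW hN hM (hpos k), star_star] at h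
    exact h.trans (by linarith)
  refine ⟨T, fun k => ⟨?_, norm_avgW_le hN hM _, (hi1 k).trans (by linarith),
    (hi2 k).trans (by linarith), ?_, ?_, ?_⟩, tendsto_avgW hN hM, fun s hs => ?_⟩
  · refine ⟨fun n g hg => ?_, avgW_fix hN hM _, ?_⟩
    · obtain ⟨-, -, -, -, hUM, hRM⟩ := hC H M ξ g hM (hP.gauge.mem n g hg)
        (hP.gauge.unit n g hg).1 (hP.gauge.unit n g hg).2 (hP.gauge.cent n g hg)
      obtain ⟨-, -, -, -, hUN, hRN⟩ := hC H N ξ g hN (hGN.mem n g hg)
        (hGN.unit n g hg).1 (hGN.unit n g hg).2 (hGN.cent n g hg)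
      refine ⟨commute_avgW hN hM _ hUN hUM, commute_avgW hN hM _ (fun t => ?_) hRM⟩
      rw [← hright n g hg]
      exact hRN t
    · rw [hT, star_avgW hN hM (hpos k)]
      exact avgW_fix hM hN _
  · intro n X hX hXc
    obtain ⟨Y, hY, hb⟩ := nearInto_avgW hN hM M (K := 2 * d) (by linarith [hP.near.nonneg])
      (fun m r X hX hXc => exists_near_W hN hM hP.near r hX hXc) (hpos k) (hi2 k) n X hX hXc
    exact ⟨Y, hY, fun v => (hb v).trans (by
      gcongr
      · linarith [hP.near.nonneg]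
      · linarith)⟩
  · intro n X hX hXc
    have h := hi1 k
    simp only [hT] at h
    simp only [hT]
    rw [star_avgW hN hM (hpos k)]
    obtain ⟨Y, hY, hb⟩ := nearInto_avgW hM hN M (K := 2 * d) (by linarith [hP.near.nonneg])
      (fun m r X hX hXc => exists_near_W' hN hM hP.near r hX hXc) (hpos k) (η := η / 4)
      (by rw [← star_avgW hN hM (hpos k), star_star]; exact h) n X hX hXc
    exact ⟨Y, hY, fun v => (hb v).trans (by
      gcongr
      · linarith [hP.near.nonneg]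
      · linarith)⟩
  · have h := norm_Ts_sub_Ts hN hM (hpos (k + 1)) (hpos k) (by rw [pow_succ]; linarith)
      (by rw [pow_succ]; linarith [hpos k]) 0 0 (hw0 (k + 1)) (hw0 k)
    rw [Ts_zero, Ts_zero, hsq] at h
    exact h.trans (by linarith)
  · have hw1 : ∀ c : ℝ, ‖Tomita.fR M ξ (win ((2 : ℝ) ^ 0) s c) -
        Tomita.fR N ξ (win ((2 : ℝ) ^ 0) s c)‖ ≤ ω := hw 0 s hs (Or.inr rfl)
    have h := norm_Ts_sub_Ts hN hM (hpos 0) (hpos 0) (by linarith [hpos 0])
      (by linarith [hpos 0]) s 0 hw1 (hw0 0)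
    rw [Ts_zero, hsq] at h
    exact h.trans (by linarith)

end Vale.Agent.P096.AT
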