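import Vale.Agent.P096.AT.Avg
import Vale.Agent.P096.Linear.Main
import Vale.Agent.P104.Sim.Amplify
import Vale.Agent.P078.General.Basic

/-!
# P096, algebras of every type: rigidity, after the minimiser

If an operator near one and near `M` is nearly invariant under the twisted moves of the unitaries
of `M` by a near-one unitary `U` fixing the gauge, then `U` is very near one.
-/

noncomputable section

namespace Vale.Agent.P096.AT

open scoped InnerProductSpace
open Filter Topology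
open Vale.Agent.P132
open Averages

universe u

namespace Rigid

variable {H : Type u} [NormedAddCommGroup H] [InnerProductSpace ℂ H] [CompleteSpace H]
variable {M : VonNeumannAlgebra H} {ξ : H} {G : ℕ → Finset (H →L[ℂ] H)}

/-- An operator nearly fixed by the groups and near `M` is near the centre. -/
lemma exists_central (h : Gauge M ξ G) {X y : H →L[ℂ] H} (hy : y ∈ M) {r s : ℝ}
    (hXy : ‖X - y‖ ≤ r) (hX : ∀ n, ∀ g ∈ G n, ‖g * X * star g - X‖ ≤ s) :
    ∃ z ∈ M, z ∈ M.commutant ∧ ‖X - z‖ ≤ r + s := by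
  obtain ⟨z, hz, hz', -, -, hlim⟩ := h.exists_avg_limit hy
  have hr : 0 ≤ r := (norm_nonneg _).trans hXy
  have hs : 0 ≤ s := (norm_nonneg _).trans (hX 0 1 (h.one_mem 0))
  refine ⟨z, hz, hz', ContinuousLinearMap.opNorm_le_bound _ (add_nonneg hr hs) fun v => ?_⟩
  refine le_of_tendsto ((tendsto_const_nhds (x := X v)).sub (hlim v)).norm (.of_forall fun n => ?_)
  have hk : (0 : ℝ) < (G n).card := by exact_mod_cast Finset.card_pos.2 ⟨1, h.one_mem n⟩
  have h1 : ‖X - avg (G n) X‖ ≤ s := by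
    have hk' : ((G n).card : ℂ) ≠ 0 := by exact_mod_cast hk.ne'
    have e : X - avg (G n) X = ((G n).card : ℂ)⁻¹ • ∑ g ∈ G n, (X - g * X * star g) := by
      rw [Finset.sum_sub_distrib, Finset.sum_const, ← Nat.cast_smul_eq_nsmul ℂ, smul_sub,
        smul_smul, inv_mul_cancel₀ hk', one_smul, avg]
    rw [e, norm_smul, norm_inv, Complex.norm_natCast, inv_mul_le_iff₀ hk]
    refine (norm_sum_le _ _).trans ((Finset.sum_le_sum fun g hg => ?_).trans_eq
      (by rw [Finset.sum_const, nsmul_eq_mul]))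
    rw [norm_sub_rev]
    exact hX n g hg
  calc ‖X v - avg (G n) y v‖ = ‖(X - avg (G n) X) v + avg (G n) (X - y) v‖ := by
        rw [avg_sub, sub_apply, sub_apply, sub_add_sub_cancel]
    _ ≤ ‖(X - avg (G n) X) v‖ + ‖avg (G n) (X - y) v‖ := norm_add_le _ _
    _ ≤ s * ‖v‖ + r * ‖v‖ := add_le_add ((X - avg (G n) X).le_of_opNorm_le h1 v)
        ((avg (G n) (X - y)).le_of_opNorm_le ((norm_avg_le (h.uGroup n) _).trans hXy) v)
    _ = (r + s) * ‖v‖ := by ring

/-- A bound at the unitaries is a bound on the commutators with all of `M`. -/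
lemma norm_comm_le (M : VonNeumannAlgebra H) {U : H →L[ℂ] H} {D : ℝ}
    (hU : ∀ u ∈ M, star u * u = 1 → u * star u = 1 → ‖U * u - u * U‖ ≤ D)
    {a : H →L[ℂ] H} (ha : a ∈ M) : ‖U * a - a * U‖ ≤ 2 * D * ‖a‖ := by
  rcases (norm_nonneg a).eq_or_lt with h0 | h0
  · rw [norm_eq_zero.1 h0.symm]; simp
  set c : ℂ := ((‖a‖⁻¹ : ℝ) : ℂ) with hc
  have hca : ‖c • a‖ ≤ 1 := by
    rw [norm_smul, hc, Complex.norm_real, norm_inv, norm_norm, inv_mul_cancel₀ h0.ne']
  have h1 : ‖U * (c • a) - (c • a) * U‖ ≤ 2 * D :=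
    P104.Sim.Amplify.adT_le_of_unitary M U hU (smul_mem_vna M c ha) hca
  rw [mul_smul_comm, smul_mul_assoc, ← smul_sub, norm_smul, hc, Complex.norm_real, norm_inv,
    norm_norm, inv_mul_le_iff₀ h0] at h1
  linarith

/-- An operator nearly commuting with `M` is near the commutant. -/
lemma exists_near_commutant {k₀ : ℝ}
    (hk₀ : ∀ (A : Type u) [CStarAlgebra A] (H : Type u) [NormedAddCommGroup H]
      [InnerProductSpace ℂ H] [CompleteSpace H] (σ : A →⋆ₐ[ℂ] (H →L[ℂ] H)) (T : H →L[ℂ] H)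
      (b : ℝ), 0 ≤ b → IsSelfAdjoint T → (∀ a, ‖T * σ a - σ a * T‖ ≤ b * ‖a‖) →
      ∃ T' : H →L[ℂ] H, (∀ a, σ a * T' = T' * σ a) ∧ IsSelfAdjoint T' ∧ ‖T - T'‖ ≤ k₀ * b)
    (M : VonNeumannAlgebra H) {U : H →L[ℂ] H} {b : ℝ} (hb : 0 ≤ b)
    (hU : ∀ a ∈ M, ‖U * a - a * U‖ ≤ b * ‖a‖) :
    ∃ y ∈ M.commutant, ‖U - y‖ ≤ 2 * |k₀| * b := by
  have : IsClosed (M.toStarSubalgebra : Set (H →L[ℂ] H)) := isClosed_vna M
  let _ : CStarAlgebra M.toStarSubalgebra := StarSubalgebra.cstarAlgebra M.toStarSubalgebra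
  have hU' : ∀ a ∈ M, ‖star U * a - a * star U‖ ≤ b * ‖a‖ := fun a ha => by
    have h1 := hU (star a) (StarMemClass.star_mem ha)
    rw [← norm_star, star_sub, star_mul, star_mul, star_star, norm_sub_rev, norm_star] at h1
    exact h1
  have part : ∀ T : H →L[ℂ] H, IsSelfAdjoint T → (∀ a ∈ M, ‖T * a - a * T‖ ≤ b * ‖a‖) →
      ∃ T' ∈ M.commutant, ‖T - T'‖ ≤ |k₀| * b := fun T hs hT => by
    obtain ⟨T', h1, -, h2⟩ := hk₀ M.toStarSubalgebra H M.toStarSubalgebra.subtype T b hb hs
      fun a => hT a a.2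
    exact ⟨T', VonNeumannAlgebra.mem_commutant_iff.2 fun y hy => h1 ⟨y, hy⟩,
      h2.trans (mul_le_mul_of_nonneg_right (le_abs_self k₀) hb)⟩
  set R := (2⁻¹ : ℂ) • (U + star U) with hR
  set S := (-Complex.I / 2) • (U - star U) with hS
  obtain ⟨R', hR', hRR⟩ := part R (by simp [hR, isSelfAdjoint_iff, add_comm]) fun a ha => by
    rw [hR, smul_mul_assoc, mul_smul_comm, ← smul_sub, norm_smul, norm_inv, Complex.norm_two,
      add_mul, mul_add, add_sub_add_comm]
    linarith [norm_add_le (U * a - a * U) (star U * a - a * star U), hU a ha, hU' a ha]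
  obtain ⟨S', hS', hSS⟩ := part S (by simp [hS, isSelfAdjoint_iff]; module) fun a ha => by
    rw [hS, smul_mul_assoc, mul_smul_comm, ← smul_sub, norm_smul, norm_div, norm_neg,
      Complex.norm_I, Complex.norm_two, sub_mul, mul_sub, sub_sub_sub_comm]
    linarith [norm_sub_le (U * a - a * U) (star U * a - a * star U), hU a ha, hU' a ha]
  have hsum : U = R + Complex.I • S := by
    rw [hR, hS, smul_smul, show Complex.I * (-Complex.I / 2) = 2⁻¹ by
      linear_combination (-2⁻¹ : ℂ) * Complex.I_mul_I]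
    module
  refine ⟨R' + Complex.I • S', add_mem hR' (smul_mem_vna _ _ hS'), ?_⟩
  rw [hsum, add_sub_add_comm, ← smul_sub]
  refine (norm_add_le _ _).trans ?_
  rw [norm_smul, Complex.norm_I, one_mul]
  linarith

/-- A central element nearly fixing the images of the vector is near zero. -/
lemma norm_central_le (hcs : Tomita.CycSep M ξ) {d : H →L[ℂ] H} (hd : d ∈ M)
    (hd' : d ∈ M.commutant)
    {r : ℝ} (hr : 0 ≤ r) (h : ∀ x ∈ M, x ∈ M.commutant → ‖d (x ξ)‖ ≤ r * ‖x ξ‖) : ‖d‖ ≤ r := by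
  refine le_of_forall_gt_imp_ge_of_dense fun r' hr' => ?_
  have hT : IsSelfAdjoint (star d * d) := IsSelfAdjoint.star_mul_self d
  have hTv : ∀ v, (⟪(star d * d) v, v⟫_ℂ).re = ‖d v‖ ^ 2 := fun v => by
    rw [mul_apply_eq_comp, Tomita.inner_star_left, inner_self_ofReal, Complex.ofReal_re]
  obtain ⟨s, hs, hsc, hlow, hup, -⟩ := P078.General.exists_cut hT
    (fun v => by rw [hTv]; exact sq_nonneg _) (t := r' ^ 2) (by
      have : 0 < r' := hr.trans_lt hr'
      positivity)
  have hTM : star d * d ∈ M ∧ star d * d ∈ M.commutant :=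
    ⟨MulMemClass.mul_mem (StarMemClass.star_mem hd) hd,
      MulMemClass.mul_mem (StarMemClass.star_mem hd') hd'⟩
  have hsM : s ∈ M := mem_of_comm_commutant fun y hy =>
    hsc y (comm_vna hTM.1 hy) (comm_vna hTM.1 (StarMemClass.star_mem hy))
  have hsM' : s ∈ M.commutant := mem_of_comm_commutant fun y hy => by
    rw [M.commutant_commutant] at hy
    exact hsc y (comm_vna hy hTM.2).symm (comm_vna (StarMemClass.star_mem hy) hTM.2).symm
  have hs0 : s = 0 := by
    refine hcs.separating s hsM ?_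
    have h1 := hlow (s ξ)
    rw [hTv, ← mul_apply_eq_comp s s, hs.isIdempotentElem.eq] at h1
    have h2 : ‖d (s ξ)‖ ^ 2 ≤ (r * ‖s ξ‖) ^ 2 :=
      pow_le_pow_left₀ (norm_nonneg _) (h s hsM hsM') 2
    have h3 : (r' ^ 2 - r ^ 2) * ‖s ξ‖ ^ 2 ≤ 0 := by nlinarith
    have h4 : 0 < r' ^ 2 - r ^ 2 := by nlinarith
    have h5 : ‖s ξ‖ ^ 2 = 0 :=
      le_antisymm (nonpos_of_mul_nonpos_right h3 h4) (sq_nonneg _)
    simpa using h5
  refine ContinuousLinearMap.opNorm_le_bound _ (hr.trans hr'.le) fun v => ?_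
  have h1 := hup v (by simp [hs0])
  rw [hTv, ← mul_pow] at h1
  exact le_of_pow_le_pow_left₀ two_ne_zero (by have := hr.trans hr'.le; positivity) h1

end Rigid

open Rigid in
/-- Rigidity after the minimiser. -/
theorem rigid_finish : ∃ k η₀ : ℝ, 0 < k ∧ 0 < η₀ ∧
    ∀ (H : Type u) [NormedAddCommGroup H] [InnerProductSpace ℂ H] [CompleteSpace H]
      (M : VonNeumannAlgebra H) (ξ : H) (G : ℕ → Finset (H →L[ℂ] H)) (U X : H →L[ℂ] H) (ε : ℝ),
      Gauge M ξ G → U ∈ unitary (H →L[ℂ] H) → Fixes M ξ G U → ‖U - 1‖ ≤ η₀ → 0 < ε →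
      (∃ y ∈ M, ‖X - y‖ ≤ ε) → ‖X - 1‖ ≤ 2 * ‖U - 1‖ →
      (∀ u ∈ M, star u * u = 1 → u * star u = 1 →
        ‖U * star u * star U * X * u - X‖ ≤ 5 * ε) →
      ‖U - 1‖ ≤ k * ε := by
  obtain ⟨k₀, hk₀⟩ := Linear.distance_formula.{u}
  refine ⟨272 * |k₀| + 3, 1 / 8, by positivity, by norm_num, ?_⟩
  intro H _ _ _ M ξ G U X ε h hU ⟨hUG, hUξ, _⟩ hη hε ⟨y, hy, hXy⟩ hX1 hX
  rcases le_total (1 / 24) ε with hbig | hbig
  · nlinarith [abs_nonneg k₀]
  have hU1 : star U * U = 1 := Unitary.star_mul_self_of_mem hU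
  have hU2 : U * star U = 1 := Unitary.mul_star_self_of_mem hU
  -- the operator is near a central element
  have hXg : ∀ n, ∀ g ∈ G n, ‖g * X * star g - X‖ ≤ 5 * ε := fun n g hg => by
    have h1 := hX (star g) (StarMemClass.star_mem (h.mem n g hg))
      (by rw [star_star]; exact (h.unit n g hg).2) (by rw [star_star]; exact (h.unit n g hg).1)
    rwa [star_star, show U * g * star U = g by rw [← (hUG n g hg).1, mul_assoc, hU2,
      mul_one]] at h1
  obtain ⟨z, hz, hz', hXz⟩ := exists_central h hy hXy hXg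
  have hz1 : ‖z - 1‖ ≤ 1 / 2 := by
    have := norm_sub_le_norm_sub_add_norm_sub z X 1
    rw [norm_sub_rev z X] at this
    linarith
  have hzU : z * U = U * z := h.central z hz hz' U fun n g hg => (hUG n g hg).1
  have hzU' : z * star U = star U * z := h.central z hz hz' _ fun n g hg => by
    have e := congrArg star (hUG n _ (h.star_mem n g hg)).1
    simpa only [star_mul, star_star] using e.symm
  -- the commutators with the unitaries
  have hcomm : ∀ u ∈ M, star u * u = 1 → u * star u = 1 → ‖U * u - u * U‖ ≤ 34 * ε := by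
    intro u hu h1 h2
    have hn1 : ∀ {g : H →L[ℂ] H}, star g * g = 1 → ‖g‖ ≤ 1 := fun h => norm_le_one_of_iso h
    have hus : star u ∈ M := StarMemClass.star_mem hu
    set p := U * u * star U with hp
    have hpn : ‖p‖ ≤ 1 := hn1 (by
      simp only [hp, star_mul, star_star]
      rw [show U * (star u * star U) * (U * u * star U) =
        U * (star u * (star U * U) * u) * star U by simp only [mul_assoc], hU1, mul_one, h1,
        mul_one, hU2])
    have hd : ‖p * z * star u - z‖ ≤ 17 * ε := by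
      have e1 := hX (star u) hus (by rw [star_star]; exact h2) (by rw [star_star]; exact h1)
      rw [star_star] at e1
      have e2 : p * z * star u - z =
          p * (z - X) * star u + (p * X * star u - X) + (X - z) := by noncomm_ring
      have e3 : ‖p * (z - X) * star u‖ ≤ ε + 5 * ε := by
        refine ((norm_mul_le _ _).trans (mul_le_of_le_one_right (norm_nonneg _) ?_)).trans
          ((norm_mul_le _ _).trans ((mul_le_of_le_one_left (norm_nonneg _) hpn).trans ?_))
        · rw [norm_star]; exact hn1 h1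
        · rw [norm_sub_rev]; exact hXz
      rw [e2]
      refine (norm_add₃_le).trans ?_
      linarith [norm_add_le (p * (z - X) * star u) (p * X * star u - X)]
    set w := p * star u - 1 with hw
    have hzw : z * w = p * z * star u - z := by
      have : z * p = p * z := by
        rw [hp, ← mul_assoc, ← mul_assoc, hzU, mul_assoc U z u, ← comm_vna hu hz', ← mul_assoc,
          mul_assoc (U * u) z, hzU', ← mul_assoc]
      rw [hw, mul_sub, mul_one, ← mul_assoc, this]
    have hwle : ‖w‖ ≤ 34 * ε := by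
      have e : w = z * w - (z - 1) * w := by rw [sub_mul, one_mul]; abel
      have := (norm_sub_le (z * w) ((z - 1) * w)).trans (add_le_add (hzw ▸ hd)
        ((norm_mul_le _ _).trans (mul_le_mul_of_nonneg_right hz1 (norm_nonneg w))))
      rw [← e] at this
      linarith
    have e : U * u - u * U = w * (u * U) := by
      rw [hw, hp, sub_mul, one_mul, show U * u * star U * star u * (u * U) =
        U * u * (star U * (star u * u) * U) by simp only [mul_assoc], h1, mul_one, hU1, mul_one]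
    rw [e]
    refine (norm_mul_le _ _).trans ((mul_le_of_le_one_right (norm_nonneg _) ?_).trans hwle)
    exact (norm_mul_le _ _).trans (mul_le_one₀ (hn1 h1) (norm_nonneg _) (hn1 hU1))
  -- near the centre, hence near one
  obtain ⟨y', hy', hUy'⟩ :=
    exists_near_commutant hk₀ M (b := 2 * (34 * ε)) (by positivity) fun a ha =>
      norm_comm_le M hcomm ha
  have hJ : ∀ n, ∀ g ∈ G n, g * Tomita.Jconj M ξ U = Tomita.Jconj M ξ U * g := fun n g hg => by
    have hg' : Tomita.Jconj M ξ (right M ξ g) = g := h.cs.Jconj_Jconj g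
    rw [← hg', ← Jconj_mul h.cs, (hUG n g hg).2, Jconj_mul h.cs]
  obtain ⟨z₁, hz₁, hz₁', hle⟩ := h.near_central
    (fun _ _ _ _ _ _ _ hh _ hx => hh.exists_avg_limit hx) hJ (h.cs.Jconj_mem hy')
  set c := Tomita.Jconj M ξ z₁ with hc
  set K := 2 * |k₀| * (2 * (34 * ε)) with hK
  have hcU : ‖U - c‖ ≤ K := by
    calc ‖U - c‖ = ‖Tomita.Jconj M ξ (Tomita.Jconj M ξ U - z₁)‖ := by
          rw [Jconj_sub, h.cs.Jconj_Jconj]
      _ ≤ ‖Tomita.Jconj M ξ U - Tomita.Jconj M ξ y'‖ := (norm_Jconj_le h.cs _).trans hle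
      _ ≤ ‖U - y'‖ := by rw [← Jconj_sub]; exact norm_Jconj_le h.cs _
      _ ≤ K := hUy'
  have hc1 : ‖c - 1‖ ≤ K := norm_central_le h.cs
    (sub_mem (h.cs.Jconj_mem hz₁') (OneMemClass.one_mem M))
    (sub_mem (h.cs.Jconj_mem_commutant hz₁) (OneMemClass.one_mem _)) (by positivity)
    fun x hx hx' => by
      have e : x * U = U * x := h.central x hx hx' U fun n g hg => (hUG n g hg).1
      have e' := DFunLike.congr_fun e ξ
      simp only [mul_apply_eq_comp, hUξ] at e'
      rw [sub_apply, one_apply_eq_self]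
      nth_rw 2 [e']
      rw [← sub_apply]
      refine ((c - U).le_opNorm _).trans (mul_le_mul_of_nonneg_right ?_ (norm_nonneg _))
      rw [norm_sub_rev]
      exact hcU
  have := norm_sub_le_norm_sub_add_norm_sub U c 1
  rw [hK] at hcU hc1
  linarith

end Vale.Agent.P096.AT
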