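import Vale.Agent.P096.AT.RigidCore
import Vale.Agent.P096.AT.RigidFinish

/-!
# P096, algebras of every type: rigidity

A unitary near one which fixes a gauge and maps the algebra `ε` near itself is `k ε` near one.
-/

noncomputable section

namespace Vale.Agent.P096.AT

universe u

/-- (B3) rigidity. -/
theorem rigidOut : CentOut.{u} → AvgOut.{u} → RigidOut.{u} := by
  intro _ hA
  obtain ⟨k, η₀, hk, hη₀, hfin⟩ := rigid_finish.{u}
  refine ⟨k, η₀, hk, hη₀, fun H _ _ _ M ξ G U ε hG hU hF hη hε hN => ?_⟩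
  refine le_of_forall_pos_le_add fun θ hθ => ?_
  have hε' : 0 < ε + θ / k := by positivity
  have hN' : NearInto U M (ε + θ / k) := fun n X hX hX1 => by
    obtain ⟨Y, hY, hb⟩ := hN n X hX hX1
    refine ⟨Y, hY, fun v => (hb v).trans (mul_le_mul_of_nonneg_right ?_
      (Finset.sum_nonneg fun j _ => sq_nonneg _))⟩
    exact pow_le_pow_left₀ hε (le_add_of_nonneg_right (by positivity)) 2
  obtain ⟨X, hX, hX1, hfix⟩ := exists_fixed_twist hA hG hU hε' hN'
  have h := hfin H M ξ G U X (ε + θ / k) hG hU hF hη hε' hX hX1 hfix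
  rwa [mul_add, mul_div_cancel₀ θ hk.ne'] at h

end Vale.Agent.P096.AT
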