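import Vale.Agent.P096.AT.Scale.Flat
import Vale.Agent.P132.Tomita.Modular

/-!
# P096, algebras of every type: the logistic functions of two modular operators

The pair `(v, 0)` splits into a part in the scaled graph space of an algebra and a part orthogonal
to it; the first component of the first part is a logistic function of `R` at the shift `log (a/b)`
applied to `v`. Near graphs give near logistic functions, at rational scales and then at all.
-/

noncomputable section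

namespace Vale.Agent.P096.AT.Scale

open scoped InnerProductSpace Vale.Agent.P132.Tomita
open Filter Topology Set
open Vale.Agent.P132

universe u

variable {H : Type u} [NormedAddCommGroup H] [InnerProductSpace ℂ H] [CompleteSpace H]
variable {M N : VonNeumannAlgebra H} {ξ : H} {J : H →L⋆[ℂ] H}

/-- The splitting of `(v, 0)` along the graph space. -/
lemma exists_split (h : Tomita.CycSep N ξ) (hJ : IsConj J) {a b : ℝ} (ha : 0 < a) (hb : 0 < b)
    (v : H) :
    ∃ A B : Pr H, A ∈ graphSpace (Real.sqrt b) (Real.sqrt a) J ξ N ∧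
      B ∈ (graphSpace (Real.sqrt b) (Real.sqrt a) J ξ N)ᗮ ∧
      A + B = WithLp.toLp 2 (v, 0) ∧
      A.fst = Tomita.fR N ξ (fun r => ((b * r / (b * r + a * (2 - r)) : ℝ) : ℂ)) v := by
  set sb := Real.sqrt b
  set sa := Real.sqrt a
  have hsb : sb * sb = b := Real.mul_self_sqrt hb.le
  have hsa : sa * sa = a := Real.mul_self_sqrt ha.le
  set γ : ℝ → ℝ := fun r => b * r + a * (2 - r)
  have hγ : ∀ r ∈ Icc (0 : ℝ) 2, 0 < γ r := fun r hr => by
    have h1 := mul_nonneg hb.le hr.1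
    rcases hr.2.eq_or_lt with h2 | h2
    · subst h2; simp only [γ]; nlinarith
    · simp only [γ]; nlinarith [mul_pos ha (sub_pos.2 h2)]
  have hγc : ContinuousOn γ (Icc 0 2) := by fun_prop
  set f : ℝ → ℂ := fun r => ((sb / γ r : ℝ) : ℂ)
  set g : ℝ → ℂ := fun r => ((sa * Real.sqrt (2 - r) / γ r : ℝ) : ℂ)
  have hf : ContinuousOn f (Icc 0 2) := Complex.continuous_ofReal.comp_continuousOn
    (continuousOn_const.div hγc fun r hr => (hγ r hr).ne')
  have hg : ContinuousOn g (Icc 0 2) := Complex.continuous_ofReal.comp_continuousOn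
    ((continuousOn_const.mul (Real.continuous_sqrt.comp (continuous_const.sub continuous_id)).continuousOn).div
      hγc fun r hr => (hγ r hr).ne')
  set u := Tomita.fR N ξ f v
  set w := Tomita.fR N ξ g v
  set A : Pr H := WithLp.toLp 2 ((sb : ℂ) • Tomita.R N ξ u, (sa : ℂ) • J (Tomita.D N ξ u))
  set B : Pr H := WithLp.toLp 2 ((sa : ℂ) • Tomita.fR N ξ Tomita.rootS w,
    -((sb : ℂ) • J (Tomita.J₀ N ξ (Tomita.fR N ξ Tomita.rootR w))))
  have hid : ContinuousOn (fun r : ℝ => (r : ℂ)) (Icc 0 2) :=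
    Complex.continuous_ofReal.continuousOn
  have hfst : A.fst = Tomita.fR N ξ (fun r => ((b * r / (b * r + a * (2 - r)) : ℝ) : ℂ)) v := by
    show (sb : ℂ) • Tomita.R N ξ u = _
    rw [← Tomita.fR_id, Tomita.fR_mul_apply hid hf, ← smul_apply,
      ← Tomita.fR_const_mul _ (show ContinuousOn (fun r : ℝ => (r : ℂ) * f r) (Icc 0 2) from hid.mul hf)]
    refine congrArg (fun T : H →L[ℂ] H => T v) (Tomita.fR_congr fun r _ => ?_)
    simp only [f, γ, ← hsb]
    push_cast
    ring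
  refine ⟨A, B, ?_, ?_, ?_, hfst⟩
  · -- the graph part
    set C : Set H := {k | (WithLp.toLp 2 ((sb : ℂ) • k, (sa : ℂ) • J k) : Pr H) ∈
      graphSpace sb sa J ξ N}
    have hC : IsClosed C := by
      refine (Submodule.isClosed_topologicalClosure _).preimage ?_
      exact (WithLp.prod_continuous_toLp 2 H H).comp
        ((continuous_id.const_smul _).prodMk (J.continuous.const_smul _))
    have hK : ∀ k ∈ Tomita.K N ξ, k ∈ C := fun k hk => by
      have hk' : k ∈ closure (Tomita.saVectors N ξ : Set H) := by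
        rw [← Submodule.topologicalClosure_coe]
        exact hk
      refine hC.closure_subset_iff.2 ?_ hk'
      rintro _ ⟨y, hy, hys, rfl⟩
      have := graphMap_mem (sb := sb) (sa := sa) (J := J) (ξ := ξ) hy
      rwa [graphMap_apply, hys.star_eq] at this
    have e : A = (WithLp.toLp 2 ((sb : ℂ) • Tomita.proj N ξ u,
          (sa : ℂ) • J (Tomita.proj N ξ u)) : Pr H) +
        Complex.I • (WithLp.toLp 2 ((sb : ℂ) • Tomita.proj N ξ (-Complex.I • u),
          (sa : ℂ) • J (Tomita.proj N ξ (-Complex.I • u))) : Pr H) := by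
      apply WithLp.ofLp_injective
      simp only [A, WithLp.ofLp_add, WithLp.ofLp_smul, Prod.mk_add_mk, Prod.smul_mk,
        Tomita.R_apply, Tomita.D_apply, Tomita.projI, map_sub, map_smulₛₗ, smul_add,
        Complex.conj_I, RingHom.id_apply, neg_smul, smul_neg, sub_neg_eq_add]
      rw [smul_comm Complex.I (sb : ℂ), smul_comm Complex.I (sa : ℂ)]
    rw [e]
    exact add_mem (hK _ (Tomita.proj_mem _))
      ((graphSpace sb sa J ξ N).smul_mem _ (hK _ (Tomita.proj_mem _)))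
  · -- the orthogonal part
    rw [graphSpace, Submodule.orthogonal_closure, Submodule.mem_orthogonal]
    rintro _ ⟨y, hy, rfl⟩
    have hroot := h.root_J (star_mem (s := N) hy)
    rw [star_star] at hroot
    have hsa' : ∀ {F : ℝ → ℂ}, (∀ r, (starRingEnd ℂ) (F r) = F r) → ∀ p q : H,
        ⟪Tomita.fR N ξ F p, q⟫_ℂ = ⟪p, Tomita.fR N ξ F q⟫_ℂ := fun hF p q =>
      Tomita.inner_sa_left (Tomita.isSelfAdjoint_fR hF) p q
    rw [graphMap_apply]
    simp only [B, WithLp.prod_inner_apply, inner_smul_left, inner_smul_right, inner_neg_right,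
      Complex.conj_ofReal, hJ.inner_map, h.inner_J]
    rw [← hsa' (F := Tomita.rootR) (fun r => Complex.conj_ofReal _), hroot,
      hsa' (F := Tomita.rootS) (fun r => Complex.conj_ofReal _)]
    ring
  · have h1 : A.fst + B.fst = v := by
      rw [hfst]
      show _ + (sa : ℂ) • Tomita.fR N ξ Tomita.rootS w = v
      rw [Tomita.fR_mul_apply Tomita.continuous_rootS.continuousOn hg, ← smul_apply,
        ← Tomita.fR_const_mul _ (show ContinuousOn (fun r => Tomita.rootS r * g r) (Icc 0 2) from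
          Tomita.continuous_rootS.continuousOn.mul hg), ← add_apply,
        ← Tomita.fR_add (show ContinuousOn
            (fun r : ℝ => ((b * r / (b * r + a * (2 - r)) : ℝ) : ℂ)) (Icc 0 2) from
            Complex.continuous_ofReal.comp_continuousOn
              ((continuousOn_const.mul continuousOn_id).div hγc fun r hr => (hγ r hr).ne'))
          (show ContinuousOn (fun r : ℝ => (sa : ℂ) * (Tomita.rootS r * g r)) (Icc 0 2) from
            continuousOn_const.mul (Tomita.continuous_rootS.continuousOn.mul hg)),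
        Tomita.fR_congr (g := fun _ => (1 : ℂ)) fun r hr => ?_, Tomita.fR_const, one_smul,
        one_apply_eq_self]
      have hs : Real.sqrt (2 - r) * Real.sqrt (2 - r) = 2 - r :=
        Real.mul_self_sqrt (by linarith [hr.2])
      have hne := (hγ r hr).ne'
      simp only [g, Tomita.rootS, ← Complex.ofReal_mul, ← Complex.ofReal_add]
      rw [← Complex.ofReal_one]
      congr 1
      have e : sa * (Real.sqrt (2 - r) * (sa * Real.sqrt (2 - r) / γ r)) = a * (2 - r) / γ r := by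
        rw [← hsa]; field_simp; linear_combination sa * sa * hs
      rw [e, show b * r + a * (2 - r) = γ r from rfl, ← add_div, div_self hne]
    have h2 : A.snd + B.snd = 0 := by
      show (sa : ℂ) • J (Tomita.D N ξ u) +
        -((sb : ℂ) • J (Tomita.J₀ N ξ (Tomita.fR N ξ Tomita.rootR w))) = 0
      have e : (sa : ℂ) • Tomita.T N ξ u = (sb : ℂ) • Tomita.fR N ξ Tomita.rootR w := by
        rw [Tomita.T, Tomita.fR_mul_apply Tomita.continuousOn_sq hf,
          Tomita.fR_mul_apply Tomita.continuous_rootR.continuousOn hg, ← smul_apply, ← smul_apply,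
          ← Tomita.fR_const_mul _ (show ContinuousOn (fun r => Tomita.sq r * f r) (Icc 0 2) from
            Tomita.continuousOn_sq.mul hf),
          ← Tomita.fR_const_mul _ (show ContinuousOn (fun r => Tomita.rootR r * g r) (Icc 0 2) from
            Tomita.continuous_rootR.continuousOn.mul hg)]
        refine congrArg (fun T : H →L[ℂ] H => T v) (Tomita.fR_congr fun r hr => ?_)
        simp only [f, g, ← Tomita.rootR_mul_rootS hr, Tomita.rootR, Tomita.rootS]
        push_cast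
        ring
      have e2 := congrArg (fun p => J (Tomita.J₀ N ξ p)) e
      simp only [map_smulₛₗ, Complex.conj_ofReal, h.J_T] at e2
      rw [e2, add_neg_cancel]
    apply WithLp.ofLp_injective
    exact Prod.ext h1 h2

/-- A vector of one graph space against one orthogonal to the other. -/
lemma inner_graph_le {G : ℕ → Finset (H →L[ℂ] H)} {d : ℝ} (hJ : IsConj J)
    (hB : Balanced M N ξ G 1) (hGN : ∀ n, ∀ g ∈ G n, g ∈ N ∧ right M ξ g ∈ N.commutant)
    (hd : 0 ≤ d) (hMN : MatWithin M N d) {nA nB : ℕ} (hA : 0 < nA) (hBn : 0 < nB) {A B : Pr H}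
    (hAm : A ∈ graphSpace (Real.sqrt (nB : ℝ)⁻¹) (Real.sqrt (nA : ℝ)⁻¹) J ξ M)
    (hBm : B ∈ (graphSpace (Real.sqrt (nB : ℝ)⁻¹) (Real.sqrt (nA : ℝ)⁻¹) J ξ N)ᗮ) :
    ‖⟪B, A⟫_ℂ‖ ≤ 2 * d * ‖B‖ * ‖A‖ := by
  have hA' : A ∈ closure (((M.toStarSubalgebra.toSubalgebra.toSubmodule).map
      (graphMap (Real.sqrt (nB : ℝ)⁻¹) (Real.sqrt (nA : ℝ)⁻¹) J ξ) : Submodule ℂ (Pr H)) :
        Set (Pr H)) := by
    rw [← Submodule.topologicalClosure_coe]
    exact hAm
  refine closure_minimal ?_ (isClosed_le (f := fun p => ‖⟪B, p⟫_ℂ‖)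
    (g := fun p => 2 * d * ‖B‖ * ‖p‖) (by fun_prop) (by fun_prop)) hA'
  rintro _ ⟨x, hx, rfl⟩
  refine (inner_le_offPart x hBm).trans ?_
  refine (mul_le_mul_of_nonneg_left (norm_offPart_le_graphMap hJ hB hGN hd hMN hA hBn hx)
    (norm_nonneg B)).trans_eq ?_
  ring

omit [CompleteSpace H] in
lemma norm_le_of_split {A B : Pr H} {S : Submodule ℂ (Pr H)} (hA : A ∈ S) (hB : B ∈ Sᗮ) {v : H}
    (h : A + B = WithLp.toLp 2 (v, 0)) : ‖A‖ ≤ ‖v‖ ∧ ‖B‖ ≤ ‖v‖ := by
  have h0 : ⟪A, B⟫_ℂ = 0 := Submodule.inner_right_of_mem_orthogonal hA hB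
  have h1 := norm_add_sq (𝕜 := ℂ) A B
  rw [h0, map_zero, mul_zero, add_zero, h, pr_norm_sq, norm_zero, zero_pow two_ne_zero,
    add_zero] at h1
  constructor <;> refine le_of_pow_le_pow_left₀ two_ne_zero (norm_nonneg _) ?_ <;>
    linarith [sq_nonneg ‖A‖, sq_nonneg ‖B‖]

/-- Closeness at the rational scales. -/
lemma norm_logi_sub_le {G : ℕ → Finset (H →L[ℂ] H)} {d : ℝ}
    (hBM : Balanced M N ξ G 1) (hBN : Balanced N M ξ G 1)
    (hGN : ∀ n, ∀ g ∈ G n, g ∈ N ∧ right M ξ g ∈ N.commutant)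
    (hr : ∀ n, ∀ g ∈ G n, right N ξ g = right M ξ g) (hd : 0 ≤ d)
    (hMN : MatWithin M N d) (hNM : MatWithin N M d) {nA nB : ℕ} (hA : 0 < nA) (hB : 0 < nB) :
    ‖Tomita.fR M ξ (fun r => (((nB : ℝ)⁻¹ * r / ((nB : ℝ)⁻¹ * r + (nA : ℝ)⁻¹ * (2 - r)) : ℝ) : ℂ)) -
      Tomita.fR N ξ (fun r => (((nB : ℝ)⁻¹ * r / ((nB : ℝ)⁻¹ * r + (nA : ℝ)⁻¹ * (2 - r)) : ℝ) : ℂ))‖
        ≤ 4 * d := by
  set F : ℝ → ℂ :=
    fun r => (((nB : ℝ)⁻¹ * r / ((nB : ℝ)⁻¹ * r + (nA : ℝ)⁻¹ * (2 - r)) : ℝ) : ℂ)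
  have hJ : IsConj (Tomita.J₀ M ξ) := ⟨hBM.csM.J_J, hBM.csM.norm_J⟩
  have ha : (0 : ℝ) < (nA : ℝ)⁻¹ := by positivity
  have hb : (0 : ℝ) < (nB : ℝ)⁻¹ := by positivity
  have hGM : ∀ n, ∀ g ∈ G n, g ∈ M ∧ right N ξ g ∈ M.commutant := fun n g hg =>
    ⟨(hBM.mem n g hg).1, by rw [hr n g hg]; exact (hBM.fix n g hg).1⟩
  refine ContinuousLinearMap.opNorm_le_bound _ (by positivity) fun v => ?_
  set v' := (Tomita.fR M ξ F - Tomita.fR N ξ F) v with hv'
  obtain ⟨A, B, hA1, hB1, he, hfA⟩ := exists_split hBM.csM hJ ha hb v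
  obtain ⟨A', B', hA2, hB2, he', hfA'⟩ := exists_split hBM.csN hJ ha hb v'
  obtain ⟨nA1, nB1⟩ := norm_le_of_split hA1 hB1 he
  obtain ⟨nA2, nB2⟩ := norm_le_of_split hA2 hB2 he'
  have h1 : ⟪A' + B', A⟫_ℂ = ⟪v', Tomita.fR M ξ F v⟫_ℂ := by
    rw [he', WithLp.prod_inner_apply, inner_zero_left, add_zero]
    exact congrArg (fun p => ⟪v', p⟫_ℂ) hfA
  have h2 : ⟪A', A + B⟫_ℂ = ⟪v', Tomita.fR N ξ F v⟫_ℂ := by
    rw [he, WithLp.prod_inner_apply, inner_zero_right, add_zero]
    refine (congrArg (fun p => ⟪p, v⟫_ℂ) hfA').trans ?_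
    exact Tomita.inner_sa_left (Tomita.isSelfAdjoint_fR fun r => Complex.conj_ofReal _) v' v
  have h3 : ⟪v', v'⟫_ℂ = ⟪B', A⟫_ℂ - ⟪A', B⟫_ℂ := by
    conv_lhs => arg 3; rw [hv']
    rw [sub_apply, inner_sub_right, ← h1, ← h2, inner_add_left, inner_add_right]
    ring
  have e1 := inner_graph_le hJ hBM hGN hd hMN hA hB hA1 hB2
  have e2 := inner_graph_le hJ hBN hGM hd hNM hA hB hA2 hB1
  have h4 : ‖v'‖ ^ 2 ≤ 4 * d * ‖v'‖ * ‖v‖ := by
    have h5 : ‖v'‖ ^ 2 = ‖⟪v', v'⟫_ℂ‖ := by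
      rw [inner_self_eq_norm_sq_to_K, norm_pow, RCLike.norm_ofReal, abs_norm]
    rw [h5, h3]
    refine (norm_sub_le _ _).trans ?_
    rw [← inner_conj_symm A' B, Complex.norm_conj]
    calc ‖⟪B', A⟫_ℂ‖ + ‖⟪B, A'⟫_ℂ‖ ≤ 2 * d * ‖B'‖ * ‖A‖ + 2 * d * ‖B‖ * ‖A'‖ := add_le_add e1 e2
      _ ≤ 2 * d * ‖v'‖ * ‖v‖ + 2 * d * ‖v‖ * ‖v'‖ := by gcongr
      _ = 4 * d * ‖v'‖ * ‖v‖ := by ring
  rcases (norm_nonneg v').eq_or_lt with h0 | h0
  · rw [← h0]; positivity
  · nlinarith

lemma continuousOn_logi (c : ℝ) :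
    ContinuousOn (fun r => (logi c r : ℂ)) (Icc 0 2) := by
  refine Complex.continuous_ofReal.comp_continuousOn (continuousOn_id.div (by fun_prop) ?_)
  intro r hr
  have hc := Real.exp_pos c
  rcases hr.1.eq_or_lt with h | h
  · subst h; simp [hc.ne']
  · exact (add_pos_of_pos_of_nonneg h (mul_nonneg hc.le (by linarith [hr.2]))).ne'

lemma abs_ratio_sub_le {p q r : ℝ} (hp : 0 < p) (hq : 0 < q) (hr : r ∈ Icc (0 : ℝ) 2) :
    |r / (r + p * (2 - r)) - r / (r + q * (2 - r))| ≤ |p - q| / min p q := by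
  have hm : 0 < min p q := lt_min hp hq
  have hs : 0 ≤ 2 - r := by linarith [hr.2]
  have hd : ∀ {t : ℝ}, 0 < t → 0 < r + t * (2 - r) := fun ht => by
    rcases hr.1.eq_or_lt with h | h
    · subst h; linarith
    · exact add_pos_of_pos_of_nonneg h (mul_nonneg ht.le hs)
  rw [div_sub_div _ _ (hd hp).ne' (hd hq).ne',
    show r * (r + q * (2 - r)) - (r + p * (2 - r)) * r = (q - p) * (r * (2 - r)) by ring,
    abs_div, abs_mul, abs_of_pos (mul_pos (hd hp) (hd hq)), abs_of_nonneg (mul_nonneg hr.1 hs),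
    abs_sub_comm q p, div_le_div_iff₀ (mul_pos (hd hp) (hd hq)) hm, mul_assoc]
  refine mul_le_mul_of_nonneg_left ?_ (abs_nonneg _)
  have h1 : 0 ≤ r * r := mul_self_nonneg r
  have h2 : 0 ≤ p * q * ((2 - r) * (2 - r)) := by positivity
  have h3 : r * (2 - r) * min p q ≤ r * (2 - r) * p :=
    mul_le_mul_of_nonneg_left (min_le_left _ _) (mul_nonneg hr.1 hs)
  have h4 : 0 ≤ r * (2 - r) * q := mul_nonneg (mul_nonneg hr.1 hs) hq.le
  nlinarith

/-- (B2) the logistic functions of the modular operators are close at every shift. -/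
theorem _root_.Vale.Agent.P096.AT.scaleOut :
    CentOut.{u} → AvgOut.{u} → NearGaugeOut.{u} → ScaleOut.{u} := by
  intro hC hA hN
  obtain ⟨d₁, hd₁, hbal⟩ := balancedOut hC hA hN
  obtain ⟨d₂, hd₂, hng⟩ := hN
  refine ⟨4, min d₁ d₂, by norm_num, lt_min hd₁ hd₂, fun H _ _ _ M N ξ G d hP hd c => ?_⟩
  obtain ⟨hBM, hBN⟩ := hbal H M N ξ G d hP (hd.trans (min_le_left _ _))
  obtain ⟨-, -, hr⟩ := hng H M N ξ G d hP (hd.trans (min_le_right _ _))
  set p := Real.exp c with hp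
  have hp0 : 0 < p := Real.exp_pos c
  refine le_of_forall_pos_le_add fun ε hε => ?_
  obtain ⟨nA, hnA⟩ := exists_nat_gt (max (4 / (p * ε)) (max (2 / p) 1))
  have hnA1 : (1 : ℝ) < nA := lt_of_le_of_lt ((le_max_right _ _).trans (le_max_right _ _)) hnA
  have hnA0 : (0 : ℝ) < nA := by linarith
  have hnA' : 0 < nA := by exact_mod_cast hnA0
  set nB : ℕ := ⌈p * nA⌉₊ with hnB
  have hnB' : 0 < nB := Nat.ceil_pos.2 (by positivity)
  set q : ℝ := (nB : ℝ) / nA with hq
  have hq0 : 0 < q := by positivity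
  have hpq : p ≤ q ∧ q - p ≤ 1 / nA := by
    have h1 := Nat.le_ceil (p * nA)
    have h2 := (Nat.ceil_lt_add_one (a := p * nA) (by positivity)).le
    constructor
    · rw [hq, le_div_iff₀ hnA0]; exact h1
    · rw [hq, div_sub' hnA0.ne', div_le_div_iff_of_pos_right hnA0]
      rw [← hnB] at h2
      linarith
  have hsmall : |p - q| / min p q ≤ ε / 2 := by
    rw [min_eq_left hpq.1, abs_of_nonpos (by linarith [hpq.1]), neg_sub, div_le_iff₀ hp0]
    refine hpq.2.trans ?_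
    have h4 : 4 / (p * ε) < nA := lt_of_le_of_lt (le_max_left _ _) hnA
    rw [div_lt_iff₀ (by positivity)] at h4
    rw [div_le_iff₀ hnA0]
    nlinarith
  set F : ℝ → ℂ :=
    fun r => (((nB : ℝ)⁻¹ * r / ((nB : ℝ)⁻¹ * r + (nA : ℝ)⁻¹ * (2 - r)) : ℝ) : ℂ)
  have hF : ∀ r, F r = ((r / (r + q * (2 - r)) : ℝ) : ℂ) := fun r => by
    simp only [F, Complex.ofReal_inj, hq]
    field_simp
  have hFc : ContinuousOn F (Icc 0 2) := by
    refine (continuousOn_logi (Real.log q)).congr fun r _ => ?_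
    rw [hF r]
    simp [logi, Real.exp_log hq0]
  have hclose : ∀ A : VonNeumannAlgebra H,
      ‖Tomita.fR A ξ (fun r => (logi c r : ℂ)) - Tomita.fR A ξ F‖ ≤ ε / 2 := by
    intro A
    rw [← Tomita.fR_sub (continuousOn_logi c) hFc]
    refine Tomita.norm_fR_le (by positivity) fun r hr' => ?_
    rw [hF, ← Complex.ofReal_sub, Complex.norm_real, Real.norm_eq_abs]
    exact (abs_ratio_sub_le hp0 hq0 hr').trans hsmall
  have hmid := norm_logi_sub_le hBM hBN hP.inN hr hP.near.nonneg hP.near.fwd hP.near.bwd hnA' hnB'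
  have e1 := norm_sub_le_norm_sub_add_norm_sub
    (Tomita.fR M ξ fun r => (logi c r : ℂ)) (Tomita.fR M ξ F) (Tomita.fR N ξ fun r => (logi c r : ℂ))
  have e2 := norm_sub_le_norm_sub_add_norm_sub
    (Tomita.fR M ξ F) (Tomita.fR N ξ F) (Tomita.fR N ξ fun r => (logi c r : ℂ))
  have e3 := hclose M
  have e4 := hclose N
  rw [norm_sub_rev] at e4
  linarith

end Vale.Agent.P096.AT.Scale
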