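import Vale.Agent.P096.AT.CrossTail
import Vale.Agent.P096.AT.CrossAlg
import Vale.Agent.P096.AT.CrossMean
import Vale.Agent.P096.KK.Represent
import Vale.Agent.P096.KK.WeakLim

/-!
# P096, algebras of every type: the linear selection for a pair with a gauge

For a small mesh `g` the algebras of the crossed products are finite, so a unitary `u` near one
carries one onto the other. The corner of `u (E (π x)) u*`, with `E` a mean along the flow, lies in
the second algebra; a weak limit as the mesh tends to zero is linear and near the inclusion.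
-/

noncomputable section

namespace Vale.Agent.P096.AT.Cross

open scoped InnerProductSpace
open Filter Topology
open Vale.Agent.P132

universe u

variable {H : Type u} [NormedAddCommGroup H] [InnerProductSpace ℂ H] [CompleteSpace H]

omit [CompleteSpace H] in
/-- The space of the crossed product is separable. -/
lemma separableSpace_K [TopologicalSpace.SeparableSpace H] :
    TopologicalSpace.SeparableSpace (K H) := by
  rw [← TopologicalSpace.isSeparable_univ_iff]
  have hS : TopologicalSpace.IsSeparable (⋃ i : ℤ, Set.range fun v : H => inj i v) :=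
    TopologicalSpace.IsSeparable.iUnion fun i =>
      TopologicalSpace.isSeparable_range (inj i).continuous
  refine (hS.span (R := ℂ)).closure.mono fun f _ => ?_
  refine mem_closure_of_tendsto (hasSum_inj f) (Eventually.of_forall fun s => ?_)
  exact Submodule.sum_mem _ fun i _ =>
    Submodule.subset_span (Set.mem_iUnion.2 ⟨i, Set.mem_range_self _⟩)

lemma norm_conj_sub_le {A : Type*} [NormedRing A] [StarRing A] [NormedStarGroup A] (u x : A)
    {θ : ℝ} (hu1 : ‖u - 1‖ ≤ θ) (hu : ‖u‖ ≤ 1) :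
    ‖u * x * star u - x‖ ≤ 2 * θ * ‖x‖ := by
  have e : u * x * star u - x = (u - 1) * x * star u + x * (star u - 1) := by
    simp only [sub_mul, mul_sub, one_mul, mul_one]; abel
  have h1 : ‖star u - 1‖ ≤ θ := by
    calc ‖star u - 1‖ = ‖star (u - 1)‖ := by rw [star_sub, star_one]
      _ ≤ θ := by rwa [norm_star]
  have hs : ‖star u‖ ≤ 1 := by rwa [norm_star]
  have hθ : 0 ≤ θ := (norm_nonneg _).trans hu1
  rw [e]
  calc ‖(u - 1) * x * star u + x * (star u - 1)‖
      ≤ ‖(u - 1) * x * star u‖ + ‖x * (star u - 1)‖ := norm_add_le _ _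
    _ ≤ θ * ‖x‖ * 1 + ‖x‖ * θ := by
        refine add_le_add ((norm_mul_le _ _).trans (mul_le_mul ((norm_mul_le _ _).trans
          (mul_le_mul_of_nonneg_right hu1 (norm_nonneg _))) hs (norm_nonneg _) (by positivity)))
          ((norm_mul_le _ _).trans (mul_le_mul_of_nonneg_left h1 (norm_nonneg _)))
    _ = 2 * θ * ‖x‖ := by ring

/-- A weak limit of the corners is a linear map to `N` near the inclusion. -/
theorem exists_nearMap_of_conj {M N : VonNeumannAlgebra H} {ξ : H} (hM : Tomita.CycSep M ξ)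
    (hN : Tomita.CycSep N ξ) {θ : ℝ} (g : ℕ → ℝ) (u : ℕ → (K H →L[ℂ] K H))
    (hu : ∀ n, u n ∈ unitary (K H →L[ℂ] K H)) (hu1 : ∀ n, ‖u n - 1‖ ≤ θ)
    (hmap : ∀ n, ∀ X ∈ alg M ξ (g n), u n * X * star (u n) ∈ alg N ξ (g n))
    (E : (n : ℕ) → ((K H →L[ℂ] K H) →ₗ[ℂ] (K H →L[ℂ] K H)))
    (hEn : ∀ n X, ‖E n X‖ ≤ ‖X‖)
    (hEm : ∀ n, ∀ x ∈ M, E n (pi M ξ (g n) x) ∈ alg M ξ (g n))
    (hEc : ∀ x ∈ M, ∀ v, ∀ ε : ℝ, 0 < ε → ∀ᶠ n in atTop,
      ‖entry (E n (pi M ξ (g n) x)) 0 0 v - x v‖ ≤ ε) :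
    ∃ T, Linear.IsNearMap (Linear.carrierSet M) (Linear.carrierSet N) (2 * θ) T := by
  set l := Ultrafilter.of (atTop : Filter ℕ)
  set S : ℕ → (H →L[ℂ] H) → (H →L[ℂ] H) := fun n x =>
    entry (u n * E n (pi M ξ (g n) x) * star (u n)) 0 0 with hS
  have hub : ∀ n, ‖u n‖ ≤ 1 := fun n => ContinuousLinearMap.opNorm_le_bound _ zero_le_one fun v =>
    le_of_eq (by rw [one_mul, ContinuousLinearMap.norm_map_of_mem_unitary (hu n)])
  have hθ : 0 ≤ θ := (norm_nonneg _).trans (hu1 0)
  have hb : ∀ n x v, ‖S n x v‖ ≤ (1 + 2 * θ) * ‖x‖ * ‖v‖ := fun n x v => by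
    refine ((S n x).le_opNorm v).trans (mul_le_mul_of_nonneg_right ?_ (norm_nonneg v))
    refine (norm_entry_le _ _ _).trans ?_
    have h1 := norm_conj_sub_le (u n) (E n (pi M ξ (g n) x)) (hu1 n) (hub n)
    have h2 : ‖E n (pi M ξ (g n) x)‖ ≤ ‖x‖ := (hEn n _).trans (norm_pi_le hM x)
    have h3 := norm_le_norm_add_norm_sub' (u n * E n (pi M ξ (g n) x) * star (u n))
      (E n (pi M ξ (g n) x))
    nlinarith
  have hex : ∀ x v, ∃ w, KK.WLim l (fun n => S n x v) w := fun x v =>
    KK.exists_wLim l _ fun n => hb n x v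
  choose L hL using hex
  have hSadd : ∀ n x y, S n (x + y) = S n x + S n y := fun n x y => by
    simp only [hS, pi_add hM, map_add, mul_add, add_mul, entry_add]
  have hSsmul : ∀ n (c : ℂ) x, S n (c • x) = c • S n x := fun n c x => by
    simp only [hS, pi_smul hM, map_smul, mul_smul_comm, smul_mul_assoc, entry_smul]
  let T : (H →L[ℂ] H) → (H →L[ℂ] H) := fun x =>
    LinearMap.mkContinuous
      { toFun := L x
        map_add' := fun v w => (hL x (v + w)).unique (by simpa using (hL x v).add (hL x w))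
        map_smul' := fun c v => (hL x (c • v)).unique (by simpa using (hL x v).smul c) }
      ((1 + 2 * θ) * ‖x‖) fun v => (hL x v).norm_le (Eventually.of_forall fun n => hb n x v)
  have hT : ∀ x v, KK.WLim l (fun n => S n x v) (T x v) := fun x v => hL x v
  refine ⟨T, ⟨fun x _ y _ => ?_, fun c x _ => ?_⟩, fun x hx => ⟨?_, ?_⟩⟩
  · ext v
    refine (hT (x + y) v).unique ?_
    simpa [hSadd] using (hT x v).add (hT y v)
  · ext v
    refine (hT (c • x) v).unique ?_
    simpa [hSsmul] using (hT x v).smul c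
  · change T x ∈ N
    rw [← N.commutant_commutant, VonNeumannAlgebra.mem_commutant_iff]
    intro y hy
    ext v
    refine ((hT x v).map y).unique ((hT x (y v)).congr (Eventually.of_forall fun n => ?_))
    have h1 := entry_mem hN (hmap n _ (hEm n x hx)) 0 0
    exact DFunLike.congr_fun (VonNeumannAlgebra.mem_commutant_iff.1 hy _ h1) v
  · refine ContinuousLinearMap.opNorm_le_bound _ (by positivity) fun v => ?_
    refine le_of_forall_pos_le_add fun ε hε => ?_
    rw [sub_apply]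
    refine ((hT x v).sub (KK.WLim.const (x v))).norm_le ?_
    refine ((hEc x hx v ε hε).filter_mono (Ultrafilter.of_le _)).mono fun n hn => ?_
    set X := E n (pi M ξ (g n) x)
    have h2 : ‖X‖ ≤ ‖x‖ := (hEn n _).trans (norm_pi_le hM x)
    have h3 : ‖entry (u n * X * star (u n)) 0 0 v - entry X 0 0 v‖ ≤ 2 * θ * ‖x‖ * ‖v‖ := by
      have h4 : ‖entry (u n * X * star (u n) - X) 0 0 v‖ ≤ 2 * θ * ‖x‖ * ‖v‖ :=
        ((entry (u n * X * star (u n) - X) 0 0).le_of_opNorm_le
          ((norm_entry_le _ _ _).trans ((norm_conj_sub_le _ _ (hu1 n) (hub n)).trans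
            (mul_le_mul_of_nonneg_left h2 (by positivity)))) v)
      simpa only [entry_apply, sub_apply, lp.coeFn_sub, Pi.sub_apply] using h4
    exact (norm_sub_le_norm_sub_add_norm_sub _ (entry X 0 0 v) _).trans (add_le_add h3 hn)

/-- The means of the copies in the crossed products of `M`, with corners tending to `x`. -/
theorem exists_nearMap {M N : VonNeumannAlgebra H} {ξ : H} (hM : Tomita.CycSep M ξ)
    (hN : Tomita.CycSep N ξ) {θ : ℝ} (g : ℕ → ℝ) (hg : ∀ n, g n ≠ 0)
    (hg0 : Tendsto g atTop (𝓝 0)) (u : ℕ → (K H →L[ℂ] K H))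
    (hu : ∀ n, u n ∈ unitary (K H →L[ℂ] K H)) (hu1 : ∀ n, ‖u n - 1‖ ≤ θ)
    (hmap : ∀ n, ∀ X ∈ alg M ξ (g n), u n * X * star (u n) ∈ alg N ξ (g n)) :
    ∃ T, Linear.IsNearMap (Linear.carrierSet M) (Linear.carrierSet N) (2 * θ) T := by
  choose E hEf hEn hEc hEb using fun n => (isFlow hM (g n)).exists_mean
  refine exists_nearMap_of_conj hM hN g u hu hu1 hmap E hEn
    (fun n x hx => mean_mem hM (hEf n) (hEc n) fun y hy => pi_comm_const hM hx hy)
    fun x _ v ε hε => ?_
  obtain ⟨g₀, hg₀, hc⟩ := corner_tendsto hM x v hε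
  filter_upwards [hg0.eventually (Metric.closedBall_mem_nhds 0 hg₀)] with n hn
  have hb : |g n| ≤ g₀ := by simpa [Real.dist_eq] using hn
  exact hEb n H (pi M ξ (g n) x) (coord 0) (inj 0 v) (x v) ε fun t => hc _ (hg n) hb t

end Vale.Agent.P096.AT.Cross

namespace Vale.Agent.P096.AT

open Filter Topology
open Vale.Agent.P132

universe v

/-- (C) the linear selection for a pair with a gauge. -/
theorem selectionOut (hFlow : FlowOut.{v}) (hKK : KK.FiniteTraceKKSep.{v}) (hC : CentOut.{v})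
    (hNG : NearGaugeOut.{v}) : SelectionOut.{v} := by
  intro η hη
  obtain ⟨δK, hδK, hKK⟩ := hKK (η / 2) (half_pos hη)
  obtain ⟨δF, hδF, hFlow⟩ := hFlow (δK / 8) (by positivity)
  obtain ⟨d₀, hd₀, hNG⟩ := hNG
  refine ⟨min δF (min d₀ (δK / 4)), lt_min hδF (lt_min hd₀ (by positivity)),
    fun H _ _ _ _ M N ξ G d hP hE hd => ?_⟩
  have hd1 : d ≤ δF := hd.trans (min_le_left _ _)
  have hd2 : d ≤ d₀ := hd.trans ((min_le_right _ _).trans (min_le_left _ _))
  have hd3 : d ≤ δK / 4 := hd.trans ((min_le_right _ _).trans (min_le_right _ _))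
  have hM : Tomita.CycSep M ξ := hP.gauge.cs
  have hN : Tomita.CycSep N ξ := (hNG H M N ξ G d hP hd2).1.cs
  have hU : ∀ n, ∀ g ∈ G n, ∀ t, g * Tomita.U M ξ t = Tomita.U M ξ t * g := fun n g hg =>
    (hC H M ξ g hM (hP.gauge.mem n g hg) (hP.gauge.unit n g hg).1 (hP.gauge.unit n g hg).2
      (hP.gauge.cent n g hg)).2.2.2.2.1
  set gs : ℕ → ℝ := fun n => 1 / (n + 1) with hgs
  have hg : ∀ n, gs n ≠ 0 := fun n => by positivity
  have hex : ∀ n, ∃ u ∈ unitary (Cross.K H →L[ℂ] Cross.K H), ‖u - 1‖ ≤ η / 2 ∧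
      ∀ X ∈ Cross.alg M ξ (gs n), u * X * star u ∈ Cross.alg N ξ (gs n) := fun n => by
    have hk : kkDist (Cross.alg M ξ (gs n)) (Cross.alg N ξ (gs n)) ≤ d + 2 * (δK / 8) :=
      Cross.kkDist_alg_le hM hN hP.near.nonneg hP.near.fwd hP.near.bwd
        (hFlow H M N ξ G d hP hd1) (gs n)
    obtain ⟨u, hu, hu1, himg⟩ := @hKK (Cross.K H) _ _ _ Cross.separableSpace_K
      (Cross.alg M ξ (gs n)) (Cross.alg N ξ (gs n)) (Cross.traceSeq ξ (gs n))
      (Cross.isNormalTrace hM (hg n)) (Cross.noAbelian_alg hM (hg n) hU hE) (by linarith)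
    exact ⟨u, hu, hu1.le, fun X hX => (Set.ext_iff.1 himg _).1 ⟨X, hX, rfl⟩⟩
  choose u hu hu1 hmap using hex
  obtain ⟨T, hT⟩ := Cross.exists_nearMap hM hN gs hg
    tendsto_one_div_add_atTop_nhds_zero_nat u hu hu1 hmap
  rw [mul_div_cancel₀ η two_ne_zero] at hT
  exact ⟨T, hT⟩

end Vale.Agent.P096.AT
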