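import Vale.Agent.P096.AT.Setting
import Vale.Agent.P096.Linear.Main
import Vale.Agent.P096.KK.WeakLim
import Vale.Agent.P104.Sim.Kaplansky

/-!
# P096: the strong conjecture reduces to separable Hilbert spaces

For close algebras `M` and `N`, finitely many operators and finitely many vectors sit in a separable
pair of close algebras on a separable reducing subspace. The separable conjugations give a
contractive linear map on all operators; a weak limit over the finite data maps `M` linearly into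
`N` near the inclusion, and linearly close algebras are conjugate.
-/

noncomputable section

namespace Vale.Agent.P096.AT

universe u

namespace SepToGen

open scoped InnerProductSpace Topology
open TopologicalSpace ContinuousLinearMap Filter
open Vale.Agent.P104.Sim (bicomm)

set_option linter.unusedSectionVars false

variable {H : Type u} [NormedAddCommGroup H] [InnerProductSpace ℂ H] [CompleteSpace H]

/-- Every point of the unit ball of `A` is within `r` of the unit ball of `B`. -/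
def Near (A B : StarSubalgebra ℂ (H →L[ℂ] H)) (r : ℝ) : Prop :=
  ∀ a ∈ A, ‖a‖ ≤ 1 → ∃ b ∈ B, ‖b‖ ≤ 1 ∧ ‖a - b‖ ≤ r

/-- A separable closed star subalgebra. -/
structure SepSub (H : Type u) [NormedAddCommGroup H] [InnerProductSpace ℂ H] [CompleteSpace H] where
  /-- The subalgebra. -/
  alg : StarSubalgebra ℂ (H →L[ℂ] H)
  sep : IsSeparable (alg : Set (H →L[ℂ] H))

lemma isClosed_vn (M : VonNeumannAlgebra H) : IsClosed (M : Set (H →L[ℂ] H)) := by
  rw [← M.centralizer_centralizer]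
  exact Set.isClosed_centralizer _

lemma isSeparable_adjoin_countable {s : Set (H →L[ℂ] H)} (hs : s.Countable) :
    IsSeparable ((StarAlgebra.adjoin ℂ s : StarSubalgebra ℂ (H →L[ℂ] H)) : Set (H →L[ℂ] H)) := by
  have hs' : (s ∪ star s).Countable := hs.union (by
    rw [← Set.image_star]; exact hs.image _)
  have hm : (Submonoid.closure (s ∪ star s) : Set (H →L[ℂ] H)).Countable := by
    have := hs'.to_subtype
    refine (Set.countable_range fun l : List ↥(s ∪ star s) => (l.map Subtype.val).prod).mono ?_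
    intro x hx
    obtain ⟨l, hl, rfl⟩ := Submonoid.exists_list_of_mem_closure hx
    exact ⟨l.attach.map fun y => ⟨y.1, hl y.1 y.2⟩, by simp [List.map_map, Function.comp_def]⟩
  have h := (hm.isSeparable.span (R := ℂ) (M := H →L[ℂ] H))
  rw [← Algebra.adjoin_eq_span] at h
  exact h

lemma isSeparable_adjoin {s : Set (H →L[ℂ] H)} (hs : IsSeparable s) :
    IsSeparable ((StarAlgebra.adjoin ℂ s : StarSubalgebra ℂ (H →L[ℂ] H)) : Set (H →L[ℂ] H)) := by
  obtain ⟨c, hc, hsc⟩ := hs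
  refine (isSeparable_adjoin_countable hc).closure.mono ?_
  rw [← StarSubalgebra.topologicalClosure_coe]
  refine SetLike.coe_subset_coe.2 (StarAlgebra.adjoin_le ?_)
  intro x hx
  rw [StarSubalgebra.topologicalClosure_coe]
  exact closure_mono (StarAlgebra.subset_adjoin ℂ c) (hsc hx)

lemma near_mono {A B B' : StarSubalgebra ℂ (H →L[ℂ] H)} {r : ℝ} (h : Near A B r) (hB : B ≤ B') :
    Near A B' r := fun a ha h1 => by
  obtain ⟨b, hb, hb1, hd⟩ := h a ha h1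
  exact ⟨b, hB hb, hb1, hd⟩

lemma exists_half {M N : VonNeumannAlgebra H} {r r' : ℝ} (h : kkDist M N < r) (hr : r < r')
    (A : SepSub H) (hA : A.alg ≤ M.toStarSubalgebra) (B : SepSub H)
    (hB : B.alg ≤ N.toStarSubalgebra) :
    ∃ B' : SepSub H, B'.alg ≤ N.toStarSubalgebra ∧ B.alg ≤ B'.alg ∧ Near A.alg B'.alg r' := by
  have hs : IsSeparable ((A.alg : Set (H →L[ℂ] H)) ∩ Metric.closedBall 0 1) :=
    A.sep.mono Set.inter_subset_left
  obtain ⟨c, hcs, hc, hsc⟩ := hs.exists_countable_dense_subset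
  have hex : ∀ d : c, ∃ b ∈ N, ‖b‖ ≤ 1 ∧ ‖(d : H →L[ℂ] H) - b‖ < r := fun d =>
    kk_exists_near h (hA (hcs d.2).1) (by simpa using (hcs d.2).2)
  choose b hb hb1 hbd using hex
  have := hc.to_subtype
  refine ⟨⟨StarAlgebra.adjoin ℂ ((B.alg : Set (H →L[ℂ] H)) ∪ Set.range b),
    isSeparable_adjoin (B.sep.union (Set.countable_range b).isSeparable)⟩, ?_, ?_, ?_⟩
  · exact StarAlgebra.adjoin_le (Set.union_subset hB (Set.range_subset_iff.2 hb))
  · exact fun x hx => StarAlgebra.subset_adjoin ℂ _ (Or.inl hx)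
  · intro a ha ha1
    obtain ⟨d, hd, had⟩ := Metric.mem_closure_iff.1 (hsc ⟨ha, by simpa using ha1⟩) (r' - r)
      (by linarith)
    refine ⟨b ⟨d, hd⟩, StarAlgebra.subset_adjoin ℂ _ (Or.inr ⟨_, rfl⟩), hb1 _, ?_⟩
    have h1 := norm_sub_le_norm_sub_add_norm_sub a d (b ⟨d, hd⟩)
    rw [dist_eq_norm] at had
    have h2 := hbd ⟨d, hd⟩
    linarith

lemma near_closure {A B : ℕ → StarSubalgebra ℂ (H →L[ℂ] H)} (hA : Monotone A) {r r' : ℝ}
    (hr : r < r') (h : ∀ n, Near (A n) (B (n + 1)) r) :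
    Near (⨆ n, A n).topologicalClosure (⨆ n, B n).topologicalClosure r' := by
  intro a ha ha1
  rw [← SetLike.mem_coe, StarSubalgebra.topologicalClosure_coe,
    StarSubalgebra.coe_iSup_of_directed hA.directed_le] at ha
  obtain ⟨x, hx, hax⟩ := Metric.mem_closure_iff.1 ha ((r' - r) / 2) (by linarith)
  obtain ⟨n, hn⟩ := Set.mem_iUnion.1 hx
  rw [dist_eq_norm] at hax
  set t : ℝ := (max 1 ‖x‖)⁻¹ with ht
  have hm : 0 < max 1 ‖x‖ := by positivity
  have ht0 : 0 ≤ t := by positivity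
  have ht1 : t ≤ 1 := inv_le_one_of_one_le₀ (le_max_left _ _)
  have htx : t * ‖x‖ ≤ 1 := by
    rw [ht, inv_mul_le_one₀ hm]; exact le_max_right _ _
  obtain ⟨b, hb, hb1, hbd⟩ := h n ((t : ℂ) • x) ((A n).smul_mem hn _) (by
    rw [norm_smul, Complex.norm_real, Real.norm_eq_abs, abs_of_nonneg ht0]; exact htx)
  refine ⟨b, StarSubalgebra.le_topologicalClosure _ (le_iSup B (n + 1) hb), hb1, ?_⟩
  have h3 : ‖x - (t : ℂ) • x‖ = ‖x‖ - t * ‖x‖ := by
    have e : x - (t : ℂ) • x = ((1 - t : ℝ) : ℂ) • x := by push_cast; rw [sub_smul, one_smul]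
    rw [e, norm_smul, Complex.norm_real, Real.norm_eq_abs, abs_of_nonneg (by linarith)]
    ring
  have h4 : ‖x‖ - t * ‖x‖ ≤ ‖a - x‖ := by
    rcases le_total ‖x‖ 1 with hx1 | hx1
    · rw [ht, max_eq_left hx1]; simp
    · rw [ht, max_eq_right hx1, inv_mul_cancel₀ (by linarith)]
      linarith [norm_le_norm_add_norm_sub' x a, norm_sub_rev x a]
  have h5 := norm_sub_le_norm_sub_add_norm_sub a x b
  have h6 := norm_sub_le_norm_sub_add_norm_sub x ((t : ℂ) • x) b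
  linarith

/-- Countably many elements of `M` lie in a separable closed subalgebra of `M` with a separable
closed subalgebra of `N` whose ball is close in both directions. -/
lemma exists_pair {M N : VonNeumannAlgebra H} {r r' : ℝ} (h : kkDist M N < r) (hr : r < r')
    (S : Set (H →L[ℂ] H)) (hSc : S.Countable) (hS : ∀ x ∈ S, x ∈ M) :
    ∃ A B : SepSub H, IsClosed (A.alg : Set (H →L[ℂ] H)) ∧ IsClosed (B.alg : Set (H →L[ℂ] H)) ∧
      (∀ x ∈ S, x ∈ A.alg) ∧ A.alg ≤ M.toStarSubalgebra ∧ B.alg ≤ N.toStarSubalgebra ∧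
      Near A.alg B.alg r' ∧ Near B.alg A.alg r' := by
  let P := {p : SepSub H × SepSub H //
    p.1.alg ≤ M.toStarSubalgebra ∧ p.2.alg ≤ N.toStarSubalgebra}
  set s := (r + r') / 2 with hs
  have hstep : ∀ p : P, ∃ q : P, p.1.1.alg ≤ q.1.1.alg ∧ p.1.2.alg ≤ q.1.2.alg ∧
      Near p.1.1.alg q.1.2.alg s ∧ Near p.1.2.alg q.1.1.alg s := by
    rintro ⟨⟨A, B⟩, hA, hB⟩
    obtain ⟨B', hB', hBB', hn1⟩ := exists_half (r' := s) h (by linarith) A hA B hB
    obtain ⟨A', hA', hAA', hn2⟩ := exists_half (r' := s) (by rwa [kk_comm] at h) (by linarith)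
      B hB A hA
    exact ⟨⟨(A', B'), hA', hB'⟩, hAA', hBB', hn1, hn2⟩
  choose f hf1 hf2 hf3 hf4 using hstep
  let p0 : P := ⟨(⟨StarAlgebra.adjoin ℂ S, isSeparable_adjoin_countable hSc⟩,
    ⟨StarAlgebra.adjoin ℂ ∅, isSeparable_adjoin_countable Set.countable_empty⟩),
    StarAlgebra.adjoin_le hS, StarAlgebra.adjoin_le (Set.empty_subset _)⟩
  let p : ℕ → P := fun n => f^[n] p0
  have hp : ∀ n, p (n + 1) = f (p n) := fun n => Function.iterate_succ_apply' f n p0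
  let A : ℕ → StarSubalgebra ℂ (H →L[ℂ] H) := fun n => (p n).1.1.alg
  let B : ℕ → StarSubalgebra ℂ (H →L[ℂ] H) := fun n => (p n).1.2.alg
  have hA : Monotone A := monotone_nat_of_le_succ fun n => by
    show (p n).1.1.alg ≤ (p (n + 1)).1.1.alg
    rw [hp]; exact hf1 _
  have hB : Monotone B := monotone_nat_of_le_succ fun n => by
    show (p n).1.2.alg ≤ (p (n + 1)).1.2.alg
    rw [hp]; exact hf2 _
  have hsep : ∀ C : ℕ → SepSub H, Monotone (fun n => (C n).alg) →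
      IsSeparable ((⨆ n, (C n).alg).topologicalClosure : Set (H →L[ℂ] H)) := fun C hC => by
    rw [StarSubalgebra.topologicalClosure_coe, StarSubalgebra.coe_iSup_of_directed hC.directed_le]
    exact (IsSeparable.iUnion fun n => (C n).sep).closure
  refine ⟨⟨_, hsep (fun n => (p n).1.1) hA⟩, ⟨_, hsep (fun n => (p n).1.2) hB⟩,
    StarSubalgebra.isClosed_topologicalClosure _, StarSubalgebra.isClosed_topologicalClosure _,
    fun x hx => ?_, ?_, ?_, ?_, ?_⟩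
  · exact StarSubalgebra.le_topologicalClosure _ (le_iSup A 0 (StarAlgebra.subset_adjoin ℂ _ hx))
  · exact StarSubalgebra.topologicalClosure_minimal (iSup_le fun n => (p n).2.1) (isClosed_vn M)
  · exact StarSubalgebra.topologicalClosure_minimal (iSup_le fun n => (p n).2.2) (isClosed_vn N)
  · refine near_closure hA (r := s) (by linarith) fun n => ?_
    show Near _ (p (n + 1)).1.2.alg s
    rw [hp]; exact hf3 _
  · refine near_closure hB (r := s) (by linarith) fun n => ?_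
    show Near _ (p (n + 1)).1.1.alg s
    rw [hp]; exact hf4 _

/-- A separable set of operators has countably many vectors which norm it. -/
lemma exists_norming {A : Set (H →L[ℂ] H)} (hA : IsSeparable A) :
    ∃ F : Set H, F.Countable ∧ ∀ a ∈ A, ∀ η : ℝ, 0 < η →
      ∃ v ∈ F, ‖v‖ ≤ 1 ∧ ‖a‖ ≤ ‖a v‖ + η := by
  obtain ⟨c, hc, hAc⟩ := hA
  have hex : ∀ d : c, ∀ m : ℕ, ∃ v : H, ‖v‖ ≤ 1 ∧
      ‖(d : H →L[ℂ] H)‖ ≤ ‖(d : H →L[ℂ] H) v‖ + 1 / ((m : ℝ) + 1) := by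
    intro d m
    by_contra hne
    push Not at hne
    have hnn : (0 : ℝ) ≤ ‖(d : H →L[ℂ] H)‖ - 1 / ((m : ℝ) + 1) := by
      have h0 := hne 0 (by simp)
      rw [map_zero, norm_zero, zero_add] at h0
      exact sub_nonneg.2 h0.le
    have := opNorm_le_of_unit_norm (C := ‖(d : H →L[ℂ] H)‖ - 1 / ((m : ℝ) + 1)) hnn
      (fun v hv => le_of_lt (by linarith [hne v hv.le]))
    have hp : (0 : ℝ) < 1 / ((m : ℝ) + 1) := by positivity
    linarith
  choose v hv1 hv using hex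
  have := hc.to_subtype
  refine ⟨Set.range fun p : c × ℕ => v p.1 p.2, Set.countable_range _, fun a ha η hη => ?_⟩
  obtain ⟨d, hd, had⟩ := Metric.mem_closure_iff.1 (hAc ha) (η / 4) (by positivity)
  obtain ⟨m, hm⟩ := exists_nat_one_div_lt (show (0 : ℝ) < η / 4 by positivity)
  rw [dist_eq_norm] at had
  refine ⟨v ⟨d, hd⟩ m, ⟨(⟨d, hd⟩, m), rfl⟩, hv1 _ _, ?_⟩
  have h1 : ‖a‖ ≤ ‖a - d‖ + ‖d‖ := norm_le_norm_sub_add a d
  have h2 : ‖d (v ⟨d, hd⟩ m)‖ ≤ ‖a (v ⟨d, hd⟩ m)‖ + ‖a - d‖ := by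
    refine (norm_le_norm_add_norm_sub' _ (a (v ⟨d, hd⟩ m))).trans (add_le_add le_rfl ?_)
    rw [← neg_sub, norm_neg, ← sub_apply]
    exact ((a - d).le_opNorm _).trans (mul_le_of_le_one_right (norm_nonneg _) (hv1 _ _))
  have h3 := hv ⟨d, hd⟩ m
  simp only at h3
  linarith

/-- A separable subspace containing given vectors, invariant under given separable sets. -/
lemma exists_reducing {C : StarSubalgebra ℂ (H →L[ℂ] H)} (hC : IsSeparable (C : Set (H →L[ℂ] H)))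
    {F : Set H} (hF : F.Countable) :
    ∃ K : Submodule ℂ H, IsClosed (K : Set H) ∧ SeparableSpace K ∧ F ⊆ K ∧
      ∀ a ∈ C, ∀ v ∈ K, a v ∈ K := by
  set s : Set H := (fun p : (H →L[ℂ] H) × H => p.1 p.2) '' ((C : Set (H →L[ℂ] H)) ×ˢ F)
  have hs : IsSeparable s := (hC.prod hF.isSeparable).image
    (isBoundedBilinearMap_apply.continuous)
  set K := (Submodule.span ℂ s).topologicalClosure
  refine ⟨K, Submodule.isClosed_topologicalClosure _, ?_, fun v hv => ?_, fun a ha => ?_⟩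
  · have : IsSeparable (K : Set H) := by
      rw [Submodule.topologicalClosure_coe]; exact hs.span.closure
    exact this.separableSpace
  · exact Submodule.le_topologicalClosure _
      (Submodule.subset_span ⟨(1, v), ⟨one_mem C, hv⟩, rfl⟩)
  · show Set.MapsTo a (K : Set H) (K : Set H)
    rw [Submodule.topologicalClosure_coe]
    refine Set.MapsTo.closure ?_ a.continuous
    intro v hv
    induction hv using Submodule.span_induction with
    | mem x hx =>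
      obtain ⟨⟨c, w⟩, ⟨hc, hw⟩, rfl⟩ := hx
      exact Submodule.subset_span ⟨(a * c, w), ⟨mul_mem ha hc, hw⟩, rfl⟩
    | zero => simp
    | add x y _ _ hx hy => rw [map_add]; exact add_mem hx hy
    | smul t x _ hx => rw [map_smul]; exact Submodule.smul_mem _ t hx

section Abstract

variable {L : Type*} [NormedAddCommGroup L] [InnerProductSpace ℂ L] [CompleteSpace L]

lemma norm_star_op (v : L →L[ℂ] L) : ‖star v‖ = ‖v‖ := norm_star v

lemma norm_conj_le {v : L →L[ℂ] L} (hv : ‖v‖ ≤ 1) (y : L →L[ℂ] L) : ‖v * y * star v‖ ≤ ‖y‖ := by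
  calc ‖v * y * star v‖ ≤ ‖v‖ * ‖y‖ * ‖star v‖ :=
        (norm_mul_le _ _).trans (mul_le_mul_of_nonneg_right (norm_mul_le _ _) (norm_nonneg _))
    _ ≤ 1 * ‖y‖ * 1 := by rw [norm_star]; gcongr
    _ = ‖y‖ := by ring

lemma norm_conj_sub_le {v : L →L[ℂ] L} {ε : ℝ} (hv : ‖v‖ ≤ 1) (hv1 : ‖v - 1‖ ≤ ε)
    (y : L →L[ℂ] L) : ‖v * y * star v - y‖ ≤ 2 * ε * ‖y‖ := by
  have e : v * y * star v - y = (v - 1) * (y * star v) + y * star (v - 1) := by
    rw [star_sub, star_one]; noncomm_ring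
  rw [e]
  refine (norm_add_le _ _).trans ?_
  have hε : 0 ≤ ε := (norm_nonneg _).trans hv1
  have u1 : ‖(v - 1) * (y * star v)‖ ≤ ε * ‖y‖ :=
    (norm_mul_le _ _).trans (mul_le_mul hv1
      ((norm_mul_le _ _).trans (mul_le_of_le_one_right (norm_nonneg _) (by rwa [norm_star])))
      (norm_nonneg _) hε)
  have u2 : ‖y * star (v - 1)‖ ≤ ‖y‖ * ε :=
    (norm_mul_le _ _).trans (mul_le_mul le_rfl (by rwa [norm_star]) (norm_nonneg _) (norm_nonneg _))
  linarith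

lemma norm_le_one_of_unitary {v : L →L[ℂ] L} (hv : v ∈ unitary (L →L[ℂ] L)) : ‖v‖ ≤ 1 :=
  Vale.Agent.P104.Patch.norm_coe_uunit_le (⟨v, hv⟩ : unitary (L →L[ℂ] L))

end Abstract

variable (K : Submodule ℂ H) [CompleteSpace K]

/-- Compression to a closed subspace. -/
def cmp (a : H →L[ℂ] H) : K →L[ℂ] K := K.orthogonalProjectionOnto ∘L a ∘L K.subtypeL

lemma cmp_coe {a : H →L[ℂ] H} (h : ∀ v ∈ K, a v ∈ K) (v : K) : ((cmp K a v : K) : H) = a v := by
  simp [cmp, Submodule.starProjection_eq_self_iff.2 (h _ v.2)]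

lemma norm_cmp_le (a : H →L[ℂ] H) : ‖cmp K a‖ ≤ ‖a‖ := by
  refine opNorm_le_bound _ (norm_nonneg _) fun v => ?_
  exact (K.norm_orthogonalProjectionOnto_apply_le _).trans (a.le_opNorm _)

/-- The restriction of a subalgebra to an invariant subspace. -/
def restr (A : StarSubalgebra ℂ (H →L[ℂ] H)) (h : ∀ a ∈ A, ∀ v ∈ K, a v ∈ K) :
    A →⋆ₐ[ℂ] (K →L[ℂ] K) where
  toFun a := cmp K a
  map_one' := ext fun v => Subtype.ext (by simpa using cmp_coe K (h 1 (one_mem A)) v)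
  map_mul' a b := ext fun v => Subtype.ext (by
    rw [cmp_coe K (h _ (a * b).2), mul_apply_eq_comp, cmp_coe K (h _ a.2), cmp_coe K (h _ b.2)]
    rfl)
  map_zero' := by simp [cmp]
  map_add' a b := by simp [cmp]
  commutes' c := ext fun v => Subtype.ext (by
    simpa [Algebra.algebraMap_eq_smul_one] using
      cmp_coe K (a := algebraMap ℂ (H →L[ℂ] H) c) (fun v hv => by
        simpa [Algebra.algebraMap_eq_smul_one] using K.smul_mem c hv) v)
  map_star' a := by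
    simp only [cmp, star_eq_adjoint, adjoint_comp, Submodule.adjoint_subtypeL,
      Submodule.adjoint_orthogonalProjectionOnto, StarMemClass.coe_star, comp_assoc]

lemma exists_wLim_of_bicomm {A : Type*} [CStarAlgebra A] {L : Type*} [NormedAddCommGroup L]
    [InnerProductSpace ℂ L] [CompleteSpace L] (σ : A →⋆ₐ[ℂ] (L →L[ℂ] L)) {x : L →L[ℂ] L}
    (hx : x ∈ bicomm σ) (hx1 : ‖x‖ ≤ 1) :
    ∃ a : Finset L × ℕ → A, (∀ j, ‖a j‖ ≤ 1) ∧ ∀ v,
      Tendsto (fun j => σ (a j) v) atTop (𝓝 (x v)) := by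
  classical
  have hex : ∀ j : Finset L × ℕ, ∃ a : A, ‖a‖ ≤ 1 ∧
      ∀ v : j.1, ‖σ a v - x v‖ ≤ 1 / ((j.2 : ℝ) + 1) := fun j => by
    obtain ⟨a, ha, hd⟩ := P104.Sim.kaplansky σ hx hx1 (fun v : j.1 => (v : L))
      (ε := 1 / ((j.2 : ℝ) + 1)) (by positivity)
    exact ⟨a, ha, fun v => (hd v).1⟩
  choose a ha hd using hex
  refine ⟨a, ha, fun v => ?_⟩
  rw [Metric.tendsto_nhds]
  intro ε hε
  obtain ⟨m, hm⟩ := exists_nat_one_div_lt hε
  filter_upwards [eventually_ge_atTop (({v}, m) : Finset L × ℕ)] with j hj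
  rw [dist_eq_norm]
  have hm' : (1 : ℝ) / ((j.2 : ℝ) + 1) ≤ 1 / ((m : ℝ) + 1) :=
    one_div_le_one_div_of_le (by positivity) (by simpa using hj.2)
  exact lt_of_le_of_lt ((hd j ⟨v, hj.1 (Finset.mem_singleton_self v)⟩).trans hm') hm

/-- Closeness of the restricted algebras passes to their weak closures. -/
lemma near_bicomm {A B : StarSubalgebra ℂ (H →L[ℂ] H)} [IsClosed (A : Set (H →L[ℂ] H))]
    [IsClosed (B : Set (H →L[ℂ] H))] (hA : ∀ a ∈ A, ∀ v ∈ K, a v ∈ K)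
    (hB : ∀ a ∈ B, ∀ v ∈ K, a v ∈ K) {r : ℝ} (h : Near A B r)
    {x : K →L[ℂ] K} (hx : x ∈ bicomm (restr K A hA)) (hx1 : ‖x‖ ≤ 1) :
    ∃ y ∈ bicomm (restr K B hB), ‖y‖ ≤ 1 ∧ ‖x - y‖ ≤ r := by
  classical
  obtain ⟨a, ha, hlim⟩ := exists_wLim_of_bicomm _ hx hx1
  have hb : ∀ j, ∃ b : B, ‖(b : H →L[ℂ] H)‖ ≤ 1 ∧ ‖((a j : A) : H →L[ℂ] H) - b‖ ≤ r :=
    fun j => by
      obtain ⟨b, hb, h1, h2⟩ := h _ (a j).2 (ha j)
      exact ⟨⟨b, hb⟩, h1, h2⟩
  choose b hb1 hbd using hb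
  let l : Ultrafilter (Finset K × ℕ) := Ultrafilter.of atTop
  have hbv : ∀ j v, ‖restr K B hB (b j) v‖ ≤ 1 * ‖v‖ := fun j v =>
    (le_opNorm _ v).trans (mul_le_mul_of_nonneg_right ((norm_cmp_le K _).trans (hb1 j))
      (norm_nonneg v))
  obtain ⟨y₀, hy₀⟩ := KK.exists_linear_wLim l (fun j => (restr K B hB (b j) : K →ₗ[ℂ] K)) ⊤
    (fun v _ => ⟨1 * ‖v‖, fun j => hbv j v⟩)
  have hy : ∀ v, ‖y₀ v‖ ≤ 1 * ‖v‖ := fun v =>
    (hy₀ v trivial).norm_le (Eventually.of_forall fun j => hbv j v)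
  refine ⟨y₀.mkContinuous 1 hy, ?_, LinearMap.mkContinuous_norm_le _ zero_le_one _,
    opNorm_le_bound _ ((norm_nonneg _).trans (hbd (∅, 0))) fun v => ?_⟩
  · refine P104.Sim.mem_bicomm.2 fun g hg => ext fun v => ?_
    have h1 := KK.WLim.map g (hy₀ v trivial)
    have h2 := hy₀ (g v) trivial
    refine (h1.congr (Eventually.of_forall fun j => ?_)).unique h2
    exact (congrArg (fun T : K →L[ℂ] K => T v) (hg (b j))).symm
  · have hxlim : KK.WLim l (fun j => restr K A hA (a j) v) (x v) := fun w =>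
      (((hlim v).inner tendsto_const_nhds).mono_left (Ultrafilter.of_le _))
    refine (hxlim.sub (hy₀ v trivial)).norm_le (Eventually.of_forall fun j => ?_)
    show ‖cmp K (a j) v - cmp K (b j) v‖ ≤ _
    have e : cmp K ((a j : A) : H →L[ℂ] H) - cmp K (b j) =
        cmp K (((a j : A) : H →L[ℂ] H) - b j) := by simp [cmp, comp_sub, sub_comp]
    rw [← sub_apply, e]
    exact (le_opNorm _ v).trans
      (mul_le_mul_of_nonneg_right ((norm_cmp_le K _).trans (hbd j)) (norm_nonneg v))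

lemma kkDist_restr_le {A B : StarSubalgebra ℂ (H →L[ℂ] H)} [IsClosed (A : Set (H →L[ℂ] H))]
    [IsClosed (B : Set (H →L[ℂ] H))] (hA : ∀ a ∈ A, ∀ v ∈ K, a v ∈ K)
    (hB : ∀ a ∈ B, ∀ v ∈ K, a v ∈ K) {r : ℝ} (hr : 0 ≤ r) (h : Near A B r) (h' : Near B A r) :
    kkDist (bicomm (restr K A hA)) (bicomm (restr K B hB)) ≤ r :=
  kk_le hr (fun _ hx hx1 => near_bicomm K hA hB h hx hx1)
    (fun _ hx hx1 => near_bicomm K hB hA h' hx hx1)

/-- Conjugate the compression and extend by zero. -/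
def conjMap (v : K →L[ℂ] K) : (H →L[ℂ] H) →ₗ[ℂ] (H →L[ℂ] H) where
  toFun x := K.subtypeL ∘L (v * cmp K x * star v) ∘L K.orthogonalProjectionOnto
  map_add' x y := by simp [cmp, mul_add, add_mul, comp_add, add_comp]
  map_smul' c x := by
    refine ext fun p => ?_
    simp [cmp, mul_apply_eq_comp]

lemma inner_conjMap (v : K →L[ℂ] K) (x : H →L[ℂ] H) (p q : H) (hp : p ∈ K) (hq : q ∈ K) :
    ⟪q, conjMap K v x p⟫_ℂ = ⟪(⟨q, hq⟩ : K), (v * cmp K x * star v) ⟨p, hp⟩⟫_ℂ := by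
  have e : K.orthogonalProjectionOnto p = ⟨p, hp⟩ :=
    K.orthogonalProjectionOnto_mem_subspace_eq_self ⟨p, hp⟩
  show ⟪q, ((v * cmp K x * star v) (K.orthogonalProjectionOnto p) : H)⟫_ℂ = _
  rw [e]
  rfl

lemma norm_conjMap_le {v : K →L[ℂ] K} (hv : ‖v‖ ≤ 1) (x : H →L[ℂ] H) (p : H) :
    ‖conjMap K v x p‖ ≤ ‖x‖ * ‖p‖ := by
  show ‖((v * cmp K x * star v) (K.orthogonalProjectionOnto p) : H)‖ ≤ _
  refine ((v * cmp K x * star v).le_opNorm _).trans ?_
  exact mul_le_mul ((norm_conj_le hv _).trans (norm_cmp_le K x))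
    (K.norm_orthogonalProjectionOnto_apply_le p) (norm_nonneg _) (norm_nonneg _)

lemma conjMap_near {v : K →L[ℂ] K} {ε : ℝ} (hv : ‖v‖ ≤ 1) (hv1 : ‖v - 1‖ ≤ ε)
    {x : H →L[ℂ] H} (hx : ∀ w ∈ K, x w ∈ K) {p q : H} (hp : p ∈ K) (hq : q ∈ K) :
    ‖⟪conjMap K v x p, q⟫_ℂ - ⟪x p, q⟫_ℂ‖ ≤ 2 * ε * ‖x‖ * ‖p‖ * ‖q‖ := by
  have hε : 0 ≤ ε := (ContinuousLinearMap.opNorm_nonneg _).trans hv1
  have e1 : ⟪q, x p⟫_ℂ = ⟪(⟨q, hq⟩ : K), cmp K x ⟨p, hp⟩⟫_ℂ := by
    rw [Submodule.coe_inner, cmp_coe K hx]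
  rw [← inner_conj_symm (conjMap K v x p) q, ← inner_conj_symm (x p) q, ← map_sub,
    Complex.norm_conj, inner_conjMap K v x p q hp hq, e1, ← inner_sub_right, ← sub_apply]
  refine (norm_inner_le_norm _ _).trans ?_
  calc ‖(⟨q, hq⟩ : K)‖ * ‖(v * cmp K x * star v - cmp K x) ⟨p, hp⟩‖
      ≤ ‖q‖ * (2 * ε * ‖x‖ * ‖p‖) := mul_le_mul_of_nonneg_left
        ((le_opNorm _ _).trans (mul_le_mul_of_nonneg_right
          ((norm_conj_sub_le hv hv1 _).trans
            (mul_le_mul_of_nonneg_left (norm_cmp_le K x) (by positivity)))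
          (norm_nonneg _))) (norm_nonneg _)
    _ = 2 * ε * ‖x‖ * ‖p‖ * ‖q‖ := by ring

lemma conjMap_comm {B : StarSubalgebra ℂ (H →L[ℂ] H)} [IsClosed (B : Set (H →L[ℂ] H))]
    (hB : ∀ a ∈ B, ∀ v ∈ K, a v ∈ K) (v : K →L[ℂ] K) {x g : H →L[ℂ] H}
    (hz : v * cmp K x * star v ∈ bicomm (restr K B hB)) (hg : ∀ b ∈ B, b * g = g * b)
    {p q : H} (hp : p ∈ K) (hq : q ∈ K) (hgp : g p ∈ K) (hgq : star g q ∈ K) :
    ⟪q, conjMap K v x (g p)⟫_ℂ = ⟪star g q, conjMap K v x p⟫_ℂ := by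
  let U : Fin 2 → K := ![⟨q, hq⟩, -⟨star g q, hgq⟩]
  let V : Fin 2 → K := ![⟨g p, hgp⟩, ⟨p, hp⟩]
  have h1 := P104.Sim.sum_inner_eq_zero_of_mem_bicomm (restr K B hB) hz U V fun b => by
    show ∑ i, ⟪U i, cmp K (b : H →L[ℂ] H) (V i)⟫_ℂ = 0
    simp only [U, V, Fin.sum_univ_two, Matrix.cons_val_zero, Matrix.cons_val_one,
      inner_neg_left, Submodule.coe_inner, Submodule.coe_neg, cmp_coe K (hB b b.2)]
    rw [show (b : H →L[ℂ] H) (g p) = g ((b : H →L[ℂ] H) p) from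
      congrArg (fun f : H →L[ℂ] H => f p) (hg b b.2)]
    simp [star_eq_adjoint, adjoint_inner_left]
  simp only [U, V, Fin.sum_univ_two, Matrix.cons_val_zero, Matrix.cons_val_one,
    inner_neg_left, add_neg_eq_zero] at h1
  rw [inner_conjMap K v x (g p) q hgp hq, inner_conjMap K v x p (star g q) hp hgq]
  exact h1

/-- The properties of a separable conjugation on one reducing subspace. -/
lemma exists_map {δ ε : ℝ}
    {A B : StarSubalgebra ℂ (H →L[ℂ] H)} [IsClosed (A : Set (H →L[ℂ] H))]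
    [IsClosed (B : Set (H →L[ℂ] H))] (hA : ∀ a ∈ A, ∀ v ∈ K, a v ∈ K)
    (hB : ∀ a ∈ B, ∀ v ∈ K, a v ∈ K)
    (hmain : ∀ N : VonNeumannAlgebra K, kkDist (bicomm (restr K A hA)) N < δ →
        ∃ v ∈ unitary (K →L[ℂ] K), ‖v - 1‖ < ε ∧
          (fun x => v * x * star v) '' (bicomm (restr K A hA) : Set (K →L[ℂ] K)) =
            (N : Set (K →L[ℂ] K))) {r : ℝ} (hr : 0 ≤ r) (hrδ : r < δ)
    (h : Near A B r) (h' : Near B A r) :
    ∃ T : (H →L[ℂ] H) →ₗ[ℂ] (H →L[ℂ] H), (∀ x v, ‖T x v‖ ≤ ‖x‖ * ‖v‖) ∧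
      (∀ x ∈ A, ∀ p ∈ K, ∀ q ∈ K,
        ‖⟪T x p, q⟫_ℂ - ⟪x p, q⟫_ℂ‖ ≤ 2 * ε * ‖x‖ * ‖p‖ * ‖q‖) ∧
      (∀ x ∈ A, ∀ g : H →L[ℂ] H, (∀ b ∈ B, b * g = g * b) → ∀ p ∈ K, ∀ q ∈ K, g p ∈ K →
        star g q ∈ K → ⟪q, T x (g p)⟫_ℂ = ⟪star g q, T x p⟫_ℂ) := by
  obtain ⟨v, hv, hv1, himg⟩ := hmain (bicomm (restr K B hB))
    ((kkDist_restr_le K hA hB hr h h').trans_lt hrδ)
  have hva : ‖v‖ ≤ 1 := norm_le_one_of_unitary hv
  refine ⟨conjMap K v, norm_conjMap_le K hva, fun x hx p hp q hq =>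
    conjMap_near K hva hv1.le (hA x hx) hp hq, fun x hx g hg p hp q hq hgp hgq =>
    conjMap_comm K hB v ?_ hg hp hq hgp hgq⟩
  rw [← SetLike.mem_coe, ← himg]
  exact ⟨_, P104.Sim.apply_mem_bicomm (restr K A hA) ⟨x, hx⟩, rfl⟩

/-- `Q` holds for the restrictions of every large enough separable subalgebra of `M` to every
large enough reducing subspace. -/
def Cofinal (Q : ∀ (L : Type u) [NormedAddCommGroup L] [InnerProductSpace ℂ L] [CompleteSpace L],
    VonNeumannAlgebra L → Prop) (M : VonNeumannAlgebra H) : Prop :=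
  ∀ S : Finset (H →L[ℂ] H), ∃ (S' : Set (H →L[ℂ] H)) (F' : Set H),
    S'.Countable ∧ F'.Countable ∧ (∀ x ∈ S', x ∈ M) ∧
      ∀ (A : StarSubalgebra ℂ (H →L[ℂ] H)) [IsClosed (A : Set (H →L[ℂ] H))] (K : Submodule ℂ H)
        [CompleteSpace K] [SeparableSpace K] (hA : ∀ a ∈ A, ∀ v ∈ K, a v ∈ K),
        A ≤ M.toStarSubalgebra → IsSeparable (A : Set (H →L[ℂ] H)) → S' ⊆ A →
        (∀ x ∈ S, x ∈ M → x ∈ A) → F' ⊆ K → Q K (bicomm (restr K A hA))

/-- The conjecture on separable spaces for the algebras satisfying `Q`. -/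
def StableSep (Q : ∀ (L : Type u) [NormedAddCommGroup L] [InnerProductSpace ℂ L] [CompleteSpace L],
    VonNeumannAlgebra L → Prop) : Prop :=
  ∀ ε : ℝ, 0 < ε → ∃ δ : ℝ, 0 < δ ∧
    ∀ (L : Type u) [NormedAddCommGroup L] [InnerProductSpace ℂ L] [CompleteSpace L]
      [SeparableSpace L] (M N : VonNeumannAlgebra L), Q L M → kkDist M N < δ →
        ∃ v ∈ unitary (L →L[ℂ] L), ‖v - 1‖ < ε ∧
          (fun x => v * x * star v) '' (M : Set (L →L[ℂ] L)) = (N : Set (L →L[ℂ] L))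

/-- The data of one separable conjugation. -/
lemma exists_local {Q : ∀ (L : Type u) [NormedAddCommGroup L] [InnerProductSpace ℂ L]
    [CompleteSpace L], VonNeumannAlgebra L → Prop} (hsep : StableSep Q) {ε : ℝ} (hε : 0 < ε) :
    ∃ δ : ℝ, 0 < δ ∧ ∀ (H : Type u) [NormedAddCommGroup H] [InnerProductSpace ℂ H] [CompleteSpace H]
      (M N : VonNeumannAlgebra H), Cofinal Q M → kkDist M N < δ →
      ∀ (S : Finset (H →L[ℂ] H)) (F : Finset H), ∃ T : (H →L[ℂ] H) →ₗ[ℂ] (H →L[ℂ] H),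
        (∀ x v, ‖T x v‖ ≤ ‖x‖ * ‖v‖) ∧
        (∀ x ∈ S, x ∈ M → ∀ v ∈ F, ∀ w ∈ F,
          ‖⟪T x v, w⟫_ℂ - ⟪x v, w⟫_ℂ‖ ≤ 2 * ε * ‖x‖ * ‖v‖ * ‖w‖) ∧
        (∀ x ∈ S, x ∈ M → ∀ g ∈ N.commutant, ∀ v ∈ F, ∀ w ∈ F, g v ∈ F → star g w ∈ F →
          ⟪w, T x (g v)⟫_ℂ = ⟪star g w, T x v⟫_ℂ) := by
  obtain ⟨δ, hδ, hmain⟩ := hsep ε hε
  refine ⟨δ / 2, by positivity, fun H _ _ _ M N hQM hMN S F => ?_⟩
  classical
  obtain ⟨S', F', hS'c, hF'c, hS'M, hQ⟩ := hQM S
  obtain ⟨A, B, hAc, hBc, hSA, hAM, hBN, hAB, hBA⟩ :=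
    exists_pair hMN (show δ / 2 < 3 * δ / 4 by linarith) (↑{x ∈ S | x ∈ M} ∪ S')
      ((Finset.countable_toSet _).union hS'c)
      (fun x hx => hx.elim (fun h => (Finset.mem_filter.1 h).2) (hS'M x))
  obtain ⟨G, hG, hnorm⟩ := exists_norming (A.sep.union B.sep)
  obtain ⟨K, hKc, hKs, hFK, hinv⟩ := exists_reducing
    (C := StarAlgebra.adjoin ℂ ((A.alg : Set (H →L[ℂ] H)) ∪ B.alg))
    (isSeparable_adjoin (A.sep.union B.sep)) ((F.countable_toSet.union hF'c).union hG)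
  have : CompleteSpace K := hKc.completeSpace_coe
  have hA : ∀ a ∈ A.alg, ∀ v ∈ K, a v ∈ K := fun a ha =>
    hinv a (StarAlgebra.subset_adjoin ℂ _ (Or.inl ha))
  have hB : ∀ a ∈ B.alg, ∀ v ∈ K, a v ∈ K := fun a ha =>
    hinv a (StarAlgebra.subset_adjoin ℂ _ (Or.inr ha))
  obtain ⟨T, hT1, hT2, hT3⟩ :=
    exists_map K hA hB (fun N' h' => hmain K _ N' (hQ A.alg K hA hAM A.sep
      (fun x hx => hSA x (Or.inr hx))
      (fun x hx hxM => hSA x (Or.inl (Finset.mem_filter.2 ⟨hx, hxM⟩)))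
      (fun x hx => hFK (Or.inl (Or.inr hx)))) h') (show (0 : ℝ) ≤ 3 * δ / 4 by positivity) (by linarith) hAB hBA
  refine ⟨T, hT1, fun x hxS hxM p hp q hq => ?_, fun x hxS hxM g hg p hp q hq hgp hgq => ?_⟩
  · exact hT2 x (hSA x (Or.inl (Finset.mem_filter.2 ⟨hxS, hxM⟩))) p (hFK (Or.inl (Or.inl hp))) q (hFK (Or.inl (Or.inl hq)))
  · exact hT3 x (hSA x (Or.inl (Finset.mem_filter.2 ⟨hxS, hxM⟩))) g
      (fun b hb => VonNeumannAlgebra.mem_commutant_iff.1 hg b (hBN hb)) p (hFK (Or.inl (Or.inl hp)))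
      q (hFK (Or.inl (Or.inl hq))) (hFK (Or.inl (Or.inl hgp))) (hFK (Or.inl (Or.inl hgq)))

/-- Linear selection for the algebras which are cofinally of a class stable on separable spaces. -/
theorem selection_of_cofinal {Q : ∀ (L : Type u) [NormedAddCommGroup L] [InnerProductSpace ℂ L]
    [CompleteSpace L], VonNeumannAlgebra L → Prop} (hsep : StableSep Q) :
    ∀ ε : ℝ, 0 < ε → ∃ δ : ℝ, 0 < δ ∧
      ∀ (H : Type u) [NormedAddCommGroup H] [InnerProductSpace ℂ H] [CompleteSpace H]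
        (M N : VonNeumannAlgebra H), Cofinal Q M → kkDist M N < δ →
        ∃ T, Linear.IsNearMap (Linear.carrierSet M) (Linear.carrierSet N) ε T := by
  intro ε hε
  obtain ⟨δ, hδ, hloc⟩ := exists_local hsep (half_pos hε)
  refine ⟨δ, hδ, fun H _ _ _ M N hQM hMN => ?_⟩
  classical
  choose T hT1 hT2 hT3 using hloc H M N hQM hMN
  let l : Ultrafilter (Finset (H →L[ℂ] H) × Finset H) := Ultrafilter.of atTop
  have hev : ∀ (x : H →L[ℂ] H) (s : Finset H),
      ∀ᶠ j in (l : Filter (Finset (H →L[ℂ] H) × Finset H)), x ∈ j.1 ∧ s ⊆ j.2 := fun x s =>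
    (Ultrafilter.of_le _) (Filter.mem_atTop_sets.2 ⟨({x}, s), fun j hj =>
      ⟨hj.1 (Finset.mem_singleton_self x), hj.2⟩⟩)
  have hex : ∀ x : H →L[ℂ] H, ∃ y : H →L[ℂ] H, ∀ v, KK.WLim l (fun j => T j.1 j.2 x v) (y v) := by
    intro x
    obtain ⟨y₀, hy₀⟩ := KK.exists_linear_wLim l (fun j => (T j.1 j.2 x : H →ₗ[ℂ] H)) ⊤
      (fun v _ => ⟨‖x‖ * ‖v‖, fun j => hT1 _ _ x v⟩)
    exact ⟨y₀.mkContinuous ‖x‖ fun v => (hy₀ v trivial).norm_le
      (Eventually.of_forall fun j => hT1 _ _ x v), fun v => hy₀ v trivial⟩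
  choose Y hY using hex
  refine ⟨Y, ⟨fun x _ y _ => ext fun v => ?_, fun c x _ => ext fun v => ?_⟩, fun x hx => ⟨?_, ?_⟩⟩
  · refine (hY (x + y) v).unique (((hY x v).add (hY y v)).congr (Eventually.of_forall fun j => ?_))
    simp
  · refine (hY (c • x) v).unique (((hY x v).smul c).congr (Eventually.of_forall fun j => ?_))
    simp
  · show Y x ∈ (N : Set (H →L[ℂ] H))
    rw [← N.commutant_commutant]
    refine VonNeumannAlgebra.mem_commutant_iff.2 fun g hg => ext fun p => ext_inner_right ℂ fun q => ?_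
    show ⟪g (Y x p), q⟫_ℂ = ⟪Y x (g p), q⟫_ℂ
    rw [← adjoint_inner_right, ← star_eq_adjoint]
    refine tendsto_nhds_unique (hY x p (star g q)) ((hY x (g p) q).congr' ?_)
    filter_upwards [hev x {p, q, g p, star g q}] with j hj
    have h1 := hT3 j.1 j.2 x hj.1 hx g hg p (hj.2 (by simp)) q (hj.2 (by simp)) (hj.2 (by simp))
      (hj.2 (by simp))
    have h2 := congrArg (starRingEnd ℂ) h1
    rwa [inner_conj_symm, inner_conj_symm] at h2
  · refine opNorm_le_bound _ (by positivity) fun p => ?_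
    set d := (Y x - x) p with hd
    rcases eq_or_ne ‖d‖ 0 with h0 | h0
    · rw [h0]; positivity
    have hb : ‖⟪d, d⟫_ℂ‖ ≤ ε * ‖x‖ * ‖p‖ * ‖d‖ := by
      have ht : Tendsto (fun j : Finset (H →L[ℂ] H) × Finset H => ⟪T j.1 j.2 x p, d⟫_ℂ - ⟪x p, d⟫_ℂ)
          (l : Filter (Finset (H →L[ℂ] H) × Finset H)) (𝓝 ⟪d, d⟫_ℂ) := by
        have := (hY x p d).sub (tendsto_const_nhds (x := ⟪x p, d⟫_ℂ))
        rwa [← inner_sub_left, ← sub_apply] at this
      refine le_of_tendsto ht.norm ?_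
      filter_upwards [hev x {p, d}] with j hj
      refine (hT2 j.1 j.2 x hj.1 hx p (hj.2 (by simp)) d (hj.2 (by simp))).trans_eq ?_
      ring
    rw [inner_self_eq_norm_sq_to_K, norm_pow, RCLike.norm_ofReal, abs_norm, sq] at hb
    exact le_of_mul_le_mul_right hb (lt_of_le_of_ne (norm_nonneg _) (Ne.symm h0))

/-- The cofinally stable algebras are stable on every Hilbert space. -/
theorem stable_of_cofinal {Q : ∀ (L : Type u) [NormedAddCommGroup L] [InnerProductSpace ℂ L]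
    [CompleteSpace L], VonNeumannAlgebra L → Prop} (hsep : StableSep Q) :
    ∀ ε : ℝ, 0 < ε → ∃ δ : ℝ, 0 < δ ∧
      ∀ (H : Type u) [NormedAddCommGroup H] [InnerProductSpace ℂ H] [CompleteSpace H]
        (M N : VonNeumannAlgebra H), Cofinal Q M → kkDist M N < δ →
        Linear.ConjWithin (Linear.carrierSet M) (Linear.carrierSet N) ε := by
  intro ε hε
  obtain ⟨δ, hδ, h⟩ := Linear.linearlyClose'.{u} ε hε
  obtain ⟨δ', hδ', hsel⟩ := selection_of_cofinal hsep δ hδ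
  refine ⟨min δ δ', lt_min hδ hδ', fun H _ _ _ M N hQ hMN => ?_⟩
  obtain ⟨T, hT⟩ := hsel H M N hQ (hMN.trans_le (min_le_right _ _))
  exact h H M N (hMN.trans_le (min_le_left _ _)) T hT

/-- Linear selection follows from the conjecture for separable spaces. -/
theorem linearSelection_of_strongSep (hsep : StrongKKSep.{u}) : Linear.LinearSelection.{u} := by
  intro ε hε
  obtain ⟨δ, hδ, h⟩ := selection_of_cofinal (Q := fun _ _ _ _ _ => True)
    (fun ε hε => by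
      obtain ⟨δ, hδ, hm⟩ := hsep ε hε
      exact ⟨δ, hδ, fun L _ _ _ _ M N _ hMN => hm L M N hMN⟩) ε hε
  exact ⟨δ, hδ, fun H _ _ _ M N hMN => h H M N (fun S =>
    ⟨∅, ∅, Set.countable_empty, Set.countable_empty, fun x hx => hx.elim,
      fun A _ K _ _ hA _ _ _ _ _ => trivial⟩) hMN⟩

/-- The strong conjecture is equivalent to its restriction to separable Hilbert spaces. -/
theorem strongKK_iff_sep : StrongKK.{u} ↔ StrongKKSep.{u} :=
  ⟨fun h ε hε => by
    obtain ⟨δ, hδ, hm⟩ := h ε hε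
    exact ⟨δ, hδ, fun H _ _ _ _ M N hMN => hm H M N hMN⟩,
  fun h => Linear.strongKK_iff_linearSelection.2 (linearSelection_of_strongSep h)⟩

end SepToGen

/-- The strong conjecture follows from its restriction to separable Hilbert spaces. -/
theorem sepToGen (h : StrongKKSep.{u}) : StrongKK.{u} :=
  SepToGen.strongKK_iff_sep.2 h

/-- Linear selection on separable spaces gives the conjecture there. -/
theorem strongKKSep_of_selection (h : LinearSelectionSep.{u}) : StrongKKSep.{u} := by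
  intro ε hε
  obtain ⟨δ, hδ, hmain⟩ := Linear.linearlyClose.{u} ε hε
  obtain ⟨δ', hδ', hsel⟩ := h δ hδ
  refine ⟨min δ δ', lt_min hδ hδ', fun H _ _ _ _ M N hMN => ?_⟩
  obtain ⟨T, hl, hT⟩ := hsel H M N (hMN.trans_le (min_le_right _ _))
  exact hmain H M N (hMN.trans_le (min_le_left _ _)) (Linear.ofLinearOn hl) fun x => hT _ x.2

end Vale.Agent.P096.AT
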