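import Vale.Agent.P096.AT.Setting
import Vale.Agent.P096.KK.RepresentBasic
import Vale.Agent.P085.Final.Sep

/-!
# P096, algebras of every type: amplify and compress to a standard form

In the countable multiple a weighted dense sequence is a separating vector. Its orbit carries `M`
in standard form, and the projection onto the orbit rotates into the commutant of the amplified
nearby algebra.
-/

noncomputable section

namespace Vale.Agent.P096.AT

open ContinuousLinearMap Vale.Agent.P096.KK.Ind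
open Vale.Agent.P085 (separableSpace_lp_two)
open Vale.Agent.P132

universe u

section Orbit

variable {K : Type u} [NormedAddCommGroup K] [InnerProductSpace ℂ K] [CompleteSpace K]
variable (A : VonNeumannAlgebra K) (v : K)

/-- The map `a ↦ a v`. -/
def evalAt : ↥A.toStarSubalgebra →ₗ[ℂ] K where
  toFun a := (a : K →L[ℂ] K) v
  map_add' _ _ := rfl
  map_smul' _ _ := rfl

/-- The closure of the orbit of a vector. -/
def orbitOf : Submodule ℂ K := (LinearMap.range (evalAt A v)).topologicalClosure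

instance : CompleteSpace (orbitOf A v) := Submodule.topologicalClosure.completeSpace _

lemma self_mem_orbitOf : v ∈ orbitOf A v :=
  Submodule.le_topologicalClosure _ ⟨⟨1, one_mem A⟩, rfl⟩

lemma good_orbitOf (h : ∀ a ∈ A, a v = 0 → a = 0) : Good A (orbitOf A v).subtypeL where
  iso l := by
    rw [Submodule.adjoint_subtypeL]
    exact Submodule.orthogonalProjectionOnto_mem_subspace_eq_self l
  range_mem := by
    rw [Submodule.adjoint_subtypeL]
    show (orbitOf A v).starProjection ∈ A.commutant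
    rw [VonNeumannAlgebra.IsStarProjection.mem_iff isStarProjection_starProjection]
    intro y hy
    rw [VonNeumannAlgebra.commutant_commutant] at hy
    rw [Submodule.range_starProjection, Module.End.mem_invtSubmodule]
    refine Set.MapsTo.closure (f := y) ?_ y.continuous
    rintro _ ⟨x, rfl⟩
    exact ⟨⟨y * (x : K →L[ℂ] K), mul_mem hy x.2⟩, rfl⟩
  faithful a ha h0 := h a ha (h0 ⟨v, self_mem_orbitOf A v⟩)

lemma cycSep_orbitOf (hv : ‖v‖ = 1) (h : ∀ a ∈ A, a v = 0 → a = 0) :
    Tomita.CycSep (induced A (orbitOf A v).subtypeL) ⟨v, self_mem_orbitOf A v⟩ where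
  norm_one := hv
  cyclic := by
    set w : orbitOf A v := ⟨v, self_mem_orbitOf A v⟩
    have hA := good_orbitOf A v h
    intro x
    rw [closure_subtype, ← Set.image_comp]
    refine closure_mono ?_ x.2
    rintro _ ⟨a, rfl⟩
    exact ⟨cmp (orbitOf A v).subtypeL a, hA.cmp_mem a.2, hA.apply_W a.2 w⟩
  separating T hT h0 := by
    have hA := good_orbitOf A v h
    obtain ⟨a, ha, rfl, -⟩ := hA.exists_lift hT
    have h1 := (hA.apply_W ha ⟨v, self_mem_orbitOf A v⟩).symm
    rw [h0, map_zero] at h1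
    rw [h a ha h1]
    ext l
    simp [cmp_apply]

end Orbit

section Separating

variable {H : Type u} [NormedAddCommGroup H] [InnerProductSpace ℂ H] [CompleteSpace H]

/-- On a separable space the countable multiple has a vector separating all diagonal operators. -/
lemma exists_separating [TopologicalSpace.SeparableSpace H] [Nontrivial H] :
    ∃ ξ : Big H, ‖ξ‖ = 1 ∧ ∀ a : H →L[ℂ] H, dia a ξ = 0 → a = 0 := by
  set d := TopologicalSpace.denseSeq H
  set c : ℕ → ℝ := fun i => (1 / 2) ^ i / (1 + ‖d i‖) with hc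
  have hd : ∀ i, 0 < 1 + ‖d i‖ := fun i => by positivity
  have hc0 : ∀ i, 0 < c i := fun i => by rw [hc]; exact div_pos (by positivity) (hd i)
  have hx : ∀ i, ‖((c i : ℝ) : ℂ) • d i‖ ≤ (1 / 2) ^ i := fun i => by
    rw [norm_smul, Complex.norm_real, Real.norm_eq_abs, abs_of_pos (hc0 i), hc,
      div_mul_eq_mul_div, div_le_iff₀ (hd i)]
    exact mul_le_mul_of_nonneg_left (by linarith) (by positivity)
  have hm : Memℓp (fun i => ((c i : ℝ) : ℂ) • d i) 2 := by
    refine memℓp_gen ?_
    simp only [ENNReal.toReal_ofNat, Real.rpow_two]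
    refine Summable.of_nonneg_of_le (fun i => by positivity) (fun i => ?_)
      (summable_geometric_of_lt_one (r := (1 / 4 : ℝ)) (by norm_num) (by norm_num))
    calc ‖((c i : ℝ) : ℂ) • d i‖ ^ 2 ≤ ((1 / 2 : ℝ) ^ i) ^ 2 :=
          pow_le_pow_left₀ (norm_nonneg _) (hx i) 2
      _ = (1 / 4) ^ i := by rw [← pow_mul, mul_comm, pow_mul]; norm_num
  set ξ : Big H := ⟨_, hm⟩
  have hsep : ∀ a : H →L[ℂ] H, dia a ξ = 0 → a = 0 := fun a ha => by
    have h1 : ∀ i, a (d i) = 0 := fun i => by
      have h2 : a (((c i : ℝ) : ℂ) • d i) = 0 := congrArg (fun w : Big H => w i) ha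
      rw [map_smul, smul_eq_zero] at h2
      exact h2.resolve_left (by exact_mod_cast (hc0 i).ne')
    exact DFunLike.coe_injective ((TopologicalSpace.denseRange_denseSeq H).equalizer a.continuous
      continuous_const (funext h1))
  have hξ : ξ ≠ 0 := fun e => one_ne_zero (hsep 1 (by rw [e, map_zero]))
  refine ⟨((‖ξ‖⁻¹ : ℝ) : ℂ) • ξ, ?_, fun a ha => hsep a ?_⟩
  · rw [norm_smul, Complex.norm_real, norm_inv, norm_norm, inv_mul_cancel₀ (norm_ne_zero_iff.2 hξ)]
  · rw [map_smul, smul_eq_zero] at ha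
    exact ha.resolve_left (by simp [hξ])

end Separating

section Lift

variable {H : Type u} [NormedAddCommGroup H] [InnerProductSpace ℂ H] [CompleteSpace H]
variable {L : Type u} [NormedAddCommGroup L] [InnerProductSpace ℂ L] [CompleteSpace L]
variable {M N : VonNeumannAlgebra H} {W₀ W : L →L[ℂ] Big H}

/-- A linear selection between the compressed amplifications lifts. -/
lemma transfer_induced (hg₀ : Good (bigAlg M) W₀) (hg : Good (bigAlg N) W) {d e r : ℝ}
    (hW : ‖W - W₀‖ ≤ e) (h : kkDist (bigAlg M) (bigAlg N) < d) (hd : d ≤ 1)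
    (hr : 2 * d + 4 * e ≤ r) :
    Transfer M N (induced (bigAlg M) W₀) (induced (bigAlg N) W) r := by
  classical
  intro η T₁ hη hT₁
  obtain ⟨⟨hadd, hsmul⟩, hnear⟩ := hT₁
  have hi₀ := norm_le_one_of_iso hg₀.iso
  have hi := norm_le_one_of_iso hg.iso
  have he : 0 ≤ e := (W - W₀).opNorm_nonneg.trans hW
  have hex : ∀ x : H →L[ℂ] H, x ∈ M → ∃ y ∈ N,
      cmp W (dia y) = T₁ (cmp W₀ (dia x)) ∧ ‖y - x‖ ≤ (8 * η + r) * ‖x‖ := by
    intro x hx
    have hax : dia x ∈ bigAlg M := dia_mem hx
    obtain ⟨hT, hTn⟩ := hnear _ (hg₀.cmp_mem hax)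
    obtain ⟨b, hb, hbT, -⟩ := hg.exists_lift hT
    obtain ⟨y, hy, rfl⟩ := mem_bigAlg.1 hb
    refine ⟨y, hy, hbT, ?_⟩
    obtain ⟨n, hn, han⟩ := Linear.exists_near_scaled h hax
    have hnx : ‖n‖ ≤ 2 * ‖dia x‖ := by
      have h1 : ‖n‖ ≤ ‖n - dia x‖ + ‖dia x‖ := by simpa using norm_add_le (n - dia x) (dia x)
      rw [norm_sub_rev] at h1
      nlinarith [norm_nonneg (dia x)]
    have h1 : ‖dia y - n‖ ≤ η * ‖dia x‖ + (d * ‖dia x‖ + 2 * e * (2 * ‖dia x‖)) := by
      rw [← hg.norm_cmp (sub_mem hb hn), cmp_sub, hbT]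
      refine (norm_sub_le_norm_sub_add_norm_sub _ (cmp W₀ (dia x)) _).trans (add_le_add
        (hTn.trans (mul_le_mul_of_nonneg_left (norm_cmp_le hi₀ _) hη))
        ((cmp_near hi₀ hi hW (dia x) n).trans (add_le_add han
          (mul_le_mul_of_nonneg_left hnx (by positivity)))))
    have h2 := norm_sub_le_norm_sub_add_norm_sub (dia y) n (dia x)
    rw [norm_sub_rev n (dia x)] at h2
    have hn0 := norm_nonneg x
    rw [← dia_sub] at h2
    rw [norm_dia] at h1 han h2
    nlinarith
  choose T hTN hT hTn using hex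
  have hinj : ∀ {a b : H →L[ℂ] H}, a ∈ N → b ∈ N → cmp W (dia a) = cmp W (dia b) → a = b :=
    fun {a b} ha hb e => by
      have h1 := hg.cmp_injective (dia_mem ha) (dia_mem hb) e
      have h2 := norm_dia (a - b)
      rw [dia_sub, h1, sub_self, norm_zero] at h2
      exact sub_eq_zero.1 (norm_eq_zero.1 h2.symm)
  refine ⟨fun x => if hx : x ∈ M then T x hx else 0, ⟨fun x hx y hy => ?_, fun c x hx => ?_⟩,
    fun x hx => ?_⟩
  · replace hx : x ∈ M := hx
    replace hy : y ∈ M := hy
    have hs := add_mem hx hy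
    simp only [dif_pos hs, dif_pos hx, dif_pos hy]
    refine hinj (hTN _ hs) (add_mem (hTN _ hx) (hTN _ hy)) ?_
    rw [dia_add, cmp_add, hT, hT, hT, dia_add, cmp_add]
    exact hadd _ (hg₀.cmp_mem (dia_mem hx)) _ (hg₀.cmp_mem (dia_mem hy))
  · replace hx : x ∈ M := hx
    have hs : c • x ∈ M := SMulMemClass.smul_mem (s := M.toStarSubalgebra) c hx
    simp only [dif_pos hs, dif_pos hx]
    refine hinj (hTN _ hs) (SMulMemClass.smul_mem (s := N.toStarSubalgebra) c (hTN _ hx)) ?_
    rw [dia_smul, cmp_smul, hT, hT, dia_smul, cmp_smul]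
    exact hsmul c _ (hg₀.cmp_mem (dia_mem hx))
  · replace hx : x ∈ M := hx
    simp only [dif_pos hx]
    exact ⟨hTN _ hx, hTn _ hx⟩

end Lift

/-- Close algebras are near at all matrix sizes, also with their commutants. -/
lemma exists_near_bound : ∃ k : ℝ, 1 ≤ k ∧
    ∀ (H : Type u) [NormedAddCommGroup H] [InnerProductSpace ℂ H] [CompleteSpace H]
      (M N : VonNeumannAlgebra H), kkDist M.commutant N.commutant ≤ k * kkDist M N ∧
        ∀ r : ℝ, k * k * kkDist M N < r → Near M N r := by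
  obtain ⟨k₀, hk₀⟩ := commutant_and_matWithin Linear.distance_formula.{u}
  refine ⟨|k₀| + 1, by linarith [abs_nonneg k₀], fun H _ _ _ M N => ?_⟩
  have hd : 0 ≤ kkDist M N := Metric.hausdorffDist_nonneg
  have hkk : k₀ ≤ |k₀| + 1 := by linarith [le_abs_self k₀]
  have hc : kkDist M.commutant N.commutant ≤ (|k₀| + 1) * kkDist M N :=
    (hk₀ H M N).1.trans (mul_le_mul_of_nonneg_right hkk hd)
  refine ⟨hc, fun r hr => ?_⟩
  have h1 : (|k₀| + 1) * kkDist M N < r := by
    refine lt_of_le_of_lt ?_ hr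
    exact mul_le_mul_of_nonneg_right (by nlinarith [abs_nonneg k₀]) hd
  have h2 : k₀ * kkDist M.commutant N.commutant < r := by
    refine lt_of_le_of_lt ((mul_le_mul_of_nonneg_right hkk Metric.hausdorffDist_nonneg).trans ?_) hr
    rw [mul_assoc]
    exact mul_le_mul_of_nonneg_left hc (by positivity)
  refine ⟨((mul_nonneg (by positivity) hd).trans_lt hr).le, (hk₀ H M N).2 r ?_,
    (hk₀ H N M).2 r ?_, (hk₀ H _ _).2 r h2, (hk₀ H _ _).2 r ?_⟩
  · exact (mul_le_mul_of_nonneg_right hkk hd).trans_lt h1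
  · rw [kk_comm]
    exact (mul_le_mul_of_nonneg_right hkk hd).trans_lt h1
  · rwa [kk_comm]

/-- (E1) amplify and compress to a standard form. -/
theorem standardOut : StandardOut.{u} := by
  intro r hr
  obtain ⟨k, hk1, hk⟩ := exists_near_bound.{u}
  have hk0 : 0 < k := by linarith
  set C : ℝ := 210 * (k * 2 + 1) with hC
  have hC0 : 0 < C := by positivity
  set δ : ℝ := min (r / (8 * k * k * (1 + C))) (1 / (1000 * (1 + C)))
  have hδ : 0 < δ := by positivity
  have b1 : δ * (8 * k * k * (1 + C)) ≤ r := (le_div_iff₀ (by positivity)).1 (min_le_left _ _)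
  have b2 : δ * (1000 * (1 + C)) ≤ 1 := (le_div_iff₀ (by positivity)).1 (min_le_right _ _)
  have hCδ : 0 ≤ C * δ := by positivity
  have hkk : 1 ≤ k * k := by nlinarith
  have b3 : 8 * δ + 8 * (C * δ) ≤ r := by nlinarith
  refine ⟨δ, hδ, fun H _ _ _ _ _ M N hMN => ?_⟩
  obtain ⟨ξ, hξ, hsep⟩ := exists_separating (H := H)
  have hB : kkDist (bigAlg M) (bigAlg N) < 2 * δ := by linarith [kkDist_bigAlg_le hMN]
  set s : ℝ := k * 2 * δ + δ with hs
  have hcomm : kkDist (bigAlg M).commutant (bigAlg N).commutant < s := by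
    have h1 := ((hk _ (bigAlg M) (bigAlg N)).1).trans (mul_le_mul_of_nonneg_left hB.le hk0.le)
    linarith
  have hs210 : 210 * s = C * δ := by rw [hs, hC]; ring
  have hsepA : ∀ a ∈ bigAlg M, a ξ = 0 → a = 0 := fun X hX h0 => by
    obtain ⟨a, -, rfl⟩ := mem_bigAlg.1 hX
    rw [hsep a h0]
    exact ext_big fun _ _ => rfl
  have hg₀ := good_orbitOf (bigAlg M) ξ hsepA
  obtain ⟨W, hgW, -, hW⟩ := exists_rotated hg₀ hcomm hB (by nlinarith) (by nlinarith)
  rw [hs210] at hW
  have hLd := kkDist_induced hg₀ hgW hW hB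
  have : TopologicalSpace.SeparableSpace (Big H) := separableSpace_lp_two
  have : SecondCountableTopology (Big H) := UniformSpace.secondCountable_of_separable _
  refine ⟨orbitOf (bigAlg M) ξ, inferInstance, inferInstance, inferInstance, inferInstance,
    _, induced (bigAlg N) W, _, cycSep_orbitOf (bigAlg M) ξ hξ hsepA, (hk _ _ _).2 r ?_,
    transfer_induced hg₀ hgW hW hB (by nlinarith) (by linarith)⟩
  refine (mul_le_mul_of_nonneg_left hLd (by positivity)).trans_lt ?_
  nlinarith

end Vale.Agent.P096.AT
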