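import Vale.Agent.P096.AT.Main
import Vale.Agent.P096.AT.SepToGen
import Vale.Agent.P096.AT.Standard
import Vale.Agent.P096.AT.Absorb
import Vale.Agent.P096.AT.Means
import Vale.Agent.P096.AT.Scale
import Vale.Agent.P096.AT.Gauge
import Vale.Agent.P096.AT.Selection
import Vale.Agent.P096.AT.Rigid
import Vale.Agent.P096.AT.Cent
import Vale.Agent.P096.AT.Avg
import Vale.Agent.P096.AT.Flow
import Vale.Agent.P096.AT.Align
import Vale.Agent.P096.KK.Main
import Vale.Agent.P096.KK.Gauge
import Vale.Agent.P096.KK.Mult
import Vale.Agent.P096.KK.Difference
import Vale.Agent.P096.KK.Spheres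
import Vale.Agent.P096.KK.Triangle

/-!
# P096: the strong Kadison-Kastler conjecture for all von Neumann algebras
-/

noncomputable section

namespace Vale.Agent.P096.AT

universe u

open KK in
/-- The finite case on separable spaces. -/
theorem finiteTraceKKSep : KK.FiniteTraceKKSep.{u} :=
  finiteTraceKKSep_of_gauge (gaugeOut (keyOut_of (differenceOut spheresOut) triangleOut)
    (multOut ampOut selectOut) ampOut selectOut)

theorem nearGaugeOut' : NearGaugeOut.{u} := nearGaugeOut centOut (avgOut centOut)

/-- The modular flows of a gauged pair are uniformly close. -/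
theorem flowOut' : FlowOut.{u} :=
  flowOut centOut nearGaugeOut' (meansOut centOut nearGaugeOut'
    (scaleOut centOut (avgOut centOut) nearGaugeOut')) (rigidOut centOut (avgOut centOut))

/-- Close algebras on separable spaces admit a linear selection. -/
theorem linearSelectionSep' : LinearSelectionSep.{u} :=
  linearSelectionSep standardOut absorbOut gaugeConsOut alignOut
    (selectionOut flowOut' finiteTraceKKSep centOut nearGaugeOut')

/-- The strong Kadison-Kastler conjecture. -/
theorem strongKK : StrongKK.{u} :=
  sepToGen (strongKKSep_of_linearSelectionSep linearSelectionSep')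

end Vale.Agent.P096.AT
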