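import Vale.Agent.P096.AT.Setting
import Vale.Agent.P104.Groth

/-!
# P096, algebras of every type: the gap between the real subspaces

For a self-adjoint `a` of `M` the vector `(1 - P) (a ξ)`, `P` the projection of the nearby algebra,
is small in operator norm of `a`. The little Grothendieck inequality, applied to the conjugates of
`q a q` by a balanced group, improves this to the norm of `a ξ`.
-/

noncomputable section

namespace Vale.Agent.P096.AT

open scoped InnerProductSpace Vale.Agent.P132.Tomita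
open Filter Topology
open Vale.Agent.P132

universe u

variable {H : Type u} [NormedAddCommGroup H] [InnerProductSpace ℂ H] [CompleteSpace H]

namespace Gap

variable {M N : VonNeumannAlgebra H} {ξ : H}

/-- The distance to the real subspace of `N`, as a real linear map. -/
def off (N : VonNeumannAlgebra H) (ξ : H) : H →L[ℝ] H :=
  ContinuousLinearMap.id ℝ H - Tomita.proj N ξ

lemma off_apply (v : H) : off N ξ v = v - Tomita.proj N ξ v := rfl

lemma norm_off_le {v w : H} (hw : w ∈ Tomita.K N ξ) : ‖off N ξ v‖ ≤ ‖v - w‖ := by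
  rw [off_apply, Tomita.proj, (Tomita.K N ξ).starProjection_minimal]
  exact ciInf_le (f := fun w : Tomita.K N ξ => ‖v - w‖)
    ⟨0, by rintro _ ⟨x, rfl⟩; exact norm_nonneg _⟩ ⟨w, hw⟩

/-- A central projection commutes with the projection on the real subspace. -/
lemma off_central {z : H →L[ℂ] H} (hz : IsStarProjection z) (hzN : z ∈ N)
    (hzc : z ∈ N.commutant) (v : H) : off N ξ (z v) = z (off N ξ v) := by
  have hsa : IsSelfAdjoint z := hz.isSelfAdjoint
  have hK : ∀ k ∈ Tomita.K N ξ, z k ∈ Tomita.K N ξ := by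
    intro k hk
    refine map_mem_closure (f := z) z.continuous hk ?_
    rintro _ ⟨a, ha, hsa', rfl⟩
    exact ⟨z * a, mul_mem hzN ha, hsa.commute_iff hsa' |>.1
      (VonNeumannAlgebra.mem_commutant_iff.1 hzc a ha).symm, rfl⟩
  have hP : Tomita.proj N ξ (z v) = z (Tomita.proj N ξ v) := by
    refine Submodule.eq_starProjection_of_mem_orthogonal (hK _ (Tomita.proj_mem v)) ?_
    intro k hk
    rw [← map_sub, Tomita.real_inner_def, ← Tomita.inner_sa_left hsa]
    exact Submodule.sub_starProjection_mem_orthogonal v _ (hK k hk)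
  rw [off_apply, off_apply, hP, map_sub]

lemma sum_norm_sq {Z : Finset (H →L[ℂ] H)} (hp : ∀ z ∈ Z, IsStarProjection z)
    (hs : ∑ z ∈ Z, z = 1) (v : H) : ∑ z ∈ Z, ‖z v‖ ^ 2 = ‖v‖ ^ 2 := by
  have h : ∀ z ∈ Z, ‖z v‖ ^ 2 = (⟪v, z v⟫_ℂ).re := fun z hz => by
    rw [norm_sq_eq_re_inner (𝕜 := ℂ), Tomita.inner_sa_left (hp z hz).isSelfAdjoint,
      ← mul_apply_eq_comp, (hp z hz).isIdempotentElem.eq]
    rfl
  rw [Finset.sum_congr rfl h, ← Complex.re_sum, ← inner_sum, norm_sq_eq_re_inner (𝕜 := ℂ)]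
  congr
  have := congrArg (fun T : H →L[ℂ] H => T v) hs
  simpa using this

/-- A sum of positive terms is bounded by its quadratic form. -/
lemma norm_sum_star_mul_le {ι : Type*} (s : Finset ι) (x : ι → H →L[ℂ] H) {c : ℝ} (hc : 0 ≤ c)
    (h : ∀ v, ∑ i ∈ s, ‖x i v‖ ^ 2 ≤ c * ‖v‖ ^ 2) : ‖∑ i ∈ s, star (x i) * x i‖ ≤ c := by
  refine ContinuousLinearMap.opNorm_le_bound _ hc fun v => ?_
  set w := (∑ i ∈ s, star (x i) * x i) v with hw
  rcases (norm_nonneg w).eq_or_lt with h0 | h0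
  · rw [← h0]; positivity
  have e : ∀ u, ⟪u, w⟫_ℂ = ∑ i ∈ s, ⟪x i u, x i v⟫_ℂ := fun u => by
    rw [hw]
    simp only [FunLike.coe_sum, Finset.sum_apply, mul_apply_eq_comp, inner_sum]
    exact Finset.sum_congr rfl fun i _ => by
      rw [← Tomita.inner_star_left, star_star]
  have h1 : ‖w‖ ^ 2 ≤ ∑ i ∈ s, ‖x i w‖ * ‖x i v‖ := by
    rw [norm_sq_eq_re_inner (𝕜 := ℂ) w, e w, RCLike.re_eq_complex_re, Complex.re_sum]
    exact Finset.sum_le_sum fun i _ => (Complex.re_le_norm _).trans (norm_inner_le_norm _ _)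
  have h2 := Finset.sum_mul_sq_le_sq_mul_sq s (fun i => ‖x i w‖) (fun i => ‖x i v‖)
  have h3 : (‖w‖ ^ 2) ^ 2 ≤ (c * ‖w‖ ^ 2) * (c * ‖v‖ ^ 2) :=
    (pow_le_pow_left₀ (by positivity) h1 2).trans (h2.trans (mul_le_mul (h w) (h v)
      (Finset.sum_nonneg fun i _ => by positivity) (by positivity)))
  have h4 : ‖w‖ ^ 2 ≤ (c * ‖v‖) ^ 2 := by
    have hp : 0 < ‖w‖ ^ 2 := by positivity
    nlinarith
  exact le_of_pow_le_pow_left₀ two_ne_zero (by positivity) h4

lemma happ {a b : H →L[ℂ] H} (h : a * b = 1) (v : H) : a (b v) = v := by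
  have := congrArg (fun T : H →L[ℂ] H => T v) h
  simpa [mul_apply_eq_comp] using this

lemma norm_apply_of_iso {g : H →L[ℂ] H} (hg : star g * g = 1) (v : H) : ‖g v‖ = ‖v‖ := by
  refine (sq_eq_sq₀ (norm_nonneg _) (norm_nonneg _)).1 ?_
  rw [norm_sq_eq_re_inner (𝕜 := ℂ), norm_sq_eq_re_inner (𝕜 := ℂ), ← Tomita.inner_star_left,
    happ hg]

/-- The symmetry `g J g J` moves `y ξ` to `g y g* ξ`. -/
lemma sym_apply {g y : H →L[ℂ] H} (hg : star g * g = 1)
    (hr : right M ξ g ∈ M.commutant) (hfix : g (right M ξ g ξ) = ξ) (hy : y ∈ M) :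
    g (right M ξ g (y ξ)) = (g * y * star g) ξ := by
  have h1 : right M ξ g ξ = star g ξ := by
    have h2 := congrArg (fun v => star g v) hfix
    rwa [happ hg] at h2
  rw [Tomita.commute_apply hy hr, h1]
  simp [mul_apply_eq_comp]

lemma sym_norm (hcs : Tomita.CycSep M ξ) {g : H →L[ℂ] H} (hg : star g * g = 1) (v : H) :
    ‖g (right M ξ g v)‖ = ‖v‖ := by
  rw [norm_apply_of_iso hg, right, Tomita.Jconj_apply, hcs.norm_J, norm_apply_of_iso hg,
    hcs.norm_J]

/-- The little Grothendieck inequality for a linear map with a bound. -/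
lemma little {A : Type*} [CStarAlgebra A] {K : Type*} [NormedAddCommGroup K] [InnerProductSpace ℂ K]
    (T₀ : A →ₗ[ℂ] K) {C : ℝ} (hC : 0 ≤ C) (hb : ∀ x, ‖T₀ x‖ ≤ C * ‖x‖) {ι : Type*} (s : Finset ι)
    (x : ι → A) : ∑ i ∈ s, ‖T₀ (x i)‖ ^ 2 ≤
      C ^ 2 * (‖∑ i ∈ s, star (x i) * x i‖ + ‖∑ i ∈ s, x i * star (x i)‖) :=
  (Vale.Agent.P104.Groth.little_grothendieck (T₀.mkContinuous C hb) s x).trans
    (mul_le_mul_of_nonneg_right
      (pow_le_pow_left₀ (norm_nonneg _) (LinearMap.mkContinuous_norm_le _ hC _) 2) (by positivity))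

/-- The bound on one central piece. -/
lemma piece {S : ℕ → Finset (H →L[ℂ] H)} {L : ℝ} (hB : Balanced M N ξ S L) {d : ℝ} (hd : 0 ≤ d)
    (hnear : ∀ x ∈ M, ∃ n ∈ N, ‖n - x‖ ≤ d * ‖x‖) {a q z : H →L[ℂ] H} {n : ℕ} (ha : a ∈ M)
    (hsa : IsSelfAdjoint a) (hq : IsStarProjection q) (hqM : q ∈ M)
    (hqS : ∀ g ∈ S n, g * q = q * g) (hz : IsStarProjection z) (hzM : z ∈ M)
    (hzM' : z ∈ M.commutant) (hzN : z ∈ N) (hzN' : z ∈ N.commutant) :
    ‖z (off N ξ (q (a (q ξ))))‖ ^ 2 ≤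
      8 * d ^ 2 * (‖z * q * avg (S n) (a * a) * q‖ * ‖z ξ‖ ^ 2) := by
  have : IsClosed (M.toStarSubalgebra : Set (H →L[ℂ] H)) := by
    change IsClosed (M : Set (H →L[ℂ] H))
    rw [← M.centralizer_centralizer]
    exact Set.isClosed_centralizer _
  let _ : CStarAlgebra M.toStarSubalgebra := StarSubalgebra.cstarAlgebra M.toStarSubalgebra
  set A := M.toStarSubalgebra
  set re : (H →L[ℂ] H) → (H →L[ℂ] H) := fun x => (1 / 2 : ℂ) • (x + star x) with hre
  set im : (H →L[ℂ] H) → (H →L[ℂ] H) := fun x => (-Complex.I / 2) • (x - star x) with him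
  set f : (H →L[ℂ] H) → H := fun x => off N ξ (z (x ξ)) with hf
  have fadd : ∀ x y, f (x + y) = f x + f y := fun x y => by simp [hf, map_add]
  have fsmul : ∀ (r : ℝ) x, f ((r : ℂ) • x) = r • f x := fun r x => by
    show off N ξ (z (((r : ℂ) • x) ξ)) = _
    rw [smul_apply, Complex.coe_smul, ContinuousLinearMap.map_smul_of_tower, map_smul]
  have fsub : ∀ x y, f (x - y) = f x - f y := fun x y => by
    rw [eq_sub_iff_add_eq, ← fadd, sub_add_cancel]
  set t : A → H := fun x => f (re x) + Complex.I • f (im x) with ht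
  have tadd : ∀ x y : A, t (x + y) = t x + t y := fun x y => by
    have e1 : re ((x + y : A) : H →L[ℂ] H) = re x + re y := by
      simp only [hre, AddMemClass.coe_add, star_add, ← smul_add]; abel_nf
    have e2 : im ((x + y : A) : H →L[ℂ] H) = im x + im y := by
      simp only [him, AddMemClass.coe_add, star_add, ← smul_add]; congr 1; abel
    simp only [ht, e1, e2, fadd, smul_add]
    abel
  have treal : ∀ (r : ℝ) (x : A), t ((r : ℂ) • x) = (r : ℂ) • t x := fun r x => by
    have hc : ((((r : ℂ) • x : A)) : H →L[ℂ] H) = (r : ℂ) • (x : H →L[ℂ] H) := rfl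
    have e1 : re (((r : ℂ) • x : A) : H →L[ℂ] H) = (r : ℂ) • re x := by
      simp only [hre, hc, star_smul, Complex.star_def, Complex.conj_ofReal]; module
    have e2 : im (((r : ℂ) • x : A) : H →L[ℂ] H) = (r : ℂ) • im x := by
      simp only [him, hc, star_smul, Complex.star_def, Complex.conj_ofReal]; module
    simp only [ht, e1, e2, fsmul, ← Complex.coe_smul, smul_add, smul_smul, mul_comm Complex.I]
  have tI : ∀ x : A, t (Complex.I • x) = Complex.I • t x := fun x => by
    have hc : ((Complex.I • x : A) : H →L[ℂ] H) = Complex.I • (x : H →L[ℂ] H) := rfl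
    have e1 : re ((Complex.I • x : A) : H →L[ℂ] H) = ((-1 : ℝ) : ℂ) • im x := by
      simp only [hre, him, hc, star_smul, Complex.star_def, Complex.conj_I, Complex.ofReal_neg,
        Complex.ofReal_one]; module
    have e2 : im ((Complex.I • x : A) : H →L[ℂ] H) = re x := by
      simp only [hre, him, hc, star_smul, Complex.star_def, Complex.conj_I, smul_sub, smul_smul,
        neg_smul, smul_neg, sub_neg_eq_add]
      rw [div_mul_eq_mul_div, neg_mul, Complex.I_mul_I, neg_neg, ← smul_add]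
    simp only [ht, e1, e2, fsmul, smul_add, smul_smul, Complex.I_mul_I, neg_smul, one_smul]
    abel
  let T₀ : A →ₗ[ℂ] H :=
    { toFun := t
      map_add' := tadd
      map_smul' := fun c x => by
        have hc : c • x = ((c.re : ℂ) • x) + (c.im : ℂ) • (Complex.I • x) := by
          rw [smul_smul, ← add_smul, Complex.re_add_im]
        rw [RingHom.id_apply, hc, tadd, treal, treal, tI, smul_smul, ← add_smul,
          Complex.re_add_im] }
  have hzsa : IsSelfAdjoint z := hz.isSelfAdjoint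
  have fbound : ∀ x ∈ M, IsSelfAdjoint x → ‖f x‖ ≤ d * ‖z ξ‖ * ‖x‖ := by
    intro x hx hxs
    obtain ⟨y, hy, hyx⟩ := hnear x hx
    set w : H →L[ℂ] H := (1 / 2 : ℂ) • (y + star y) with hw
    have hwN : w ∈ N := N.toStarSubalgebra.smul_mem (add_mem hy (star_mem hy)) _
    have hws : IsSelfAdjoint w := by simp [hw, IsSelfAdjoint, star_smul, add_comm]
    have hwx : ‖w - x‖ ≤ d * ‖x‖ := by
      have e : w - x = (1 / 2 : ℂ) • ((y - x) + star (y - x)) := by
        rw [hw, star_sub, hxs.star_eq]; module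
      have h2 := norm_add_le (y - x) (star (y - x))
      rw [norm_star] at h2
      rw [e, norm_smul, show ‖(1 / 2 : ℂ)‖ = 1 / 2 by norm_num]
      linarith
    have hzw : z * w = w * z := (VonNeumannAlgebra.mem_commutant_iff.1 hzN' w hwN).symm
    have hzx : z * x = x * z := (VonNeumannAlgebra.mem_commutant_iff.1 hzM' x hx).symm
    have hmem : z (w ξ) ∈ Tomita.K N ξ :=
      Tomita.apply_mem_K (a := z * w) (mul_mem hzN hwN) ((hzsa.commute_iff hws).1 hzw)
    refine (norm_off_le hmem).trans ?_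
    have e : z (x ξ) - z (w ξ) = (x - w) (z ξ) := by
      rw [sub_apply, ← mul_apply_eq_comp z x, hzx, ← mul_apply_eq_comp z w, hzw,
        mul_apply_eq_comp, mul_apply_eq_comp]
    rw [e, mul_right_comm]
    refine ((x - w).le_opNorm _).trans (mul_le_mul_of_nonneg_right ?_ (norm_nonneg _))
    rwa [norm_sub_rev]
  have tbound : ∀ x : A, ‖t x‖ ≤ 2 * (d * ‖z ξ‖) * ‖x‖ := by
    intro x
    have h1 : ‖re x‖ ≤ ‖x‖ := by
      rw [hre, norm_smul]
      have := norm_add_le (x : H →L[ℂ] H) (star (x : H →L[ℂ] H))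
      rw [norm_star] at this
      norm_num
      exact le_trans (by linarith) (le_refl ‖(x : H →L[ℂ] H)‖)
    have h2 : ‖im x‖ ≤ ‖x‖ := by
      rw [him, norm_smul]
      have := norm_sub_le (x : H →L[ℂ] H) (star (x : H →L[ℂ] H))
      rw [norm_star] at this
      norm_num
      exact le_trans (by linarith) (le_refl ‖(x : H →L[ℂ] H)‖)
    have hs1 : IsSelfAdjoint (re x) := by simp [hre, IsSelfAdjoint, star_smul, add_comm]
    have hs2 : IsSelfAdjoint (im x) := by
      simp only [him, IsSelfAdjoint, star_smul, star_sub, star_star, Complex.star_def, map_div₀,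
        map_neg, Complex.conj_I, map_ofNat]
      module
    have m1 : re x ∈ M := A.smul_mem (add_mem x.2 (star_mem x.2)) _
    have m2 : im x ∈ M := A.smul_mem (sub_mem x.2 (star_mem x.2)) _
    refine (norm_add_le _ _).trans ?_
    rw [norm_smul, Complex.norm_I, one_mul]
    have k := mul_nonneg hd (norm_nonneg (z ξ))
    have b1 := (fbound _ m1 hs1).trans (mul_le_mul_of_nonneg_left h1 k)
    have b2 := (fbound _ m2 hs2).trans (mul_le_mul_of_nonneg_left h2 k)
    linarith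
  have tsa : ∀ x : A, IsSelfAdjoint (x : H →L[ℂ] H) → T₀ x = f x := by
    intro x hx
    show t x = _
    have e1 : re x = x := by simp only [hre, hx.star_eq]; module
    have e2 : im x = ((0 : ℝ) : ℂ) • (x : H →L[ℂ] H) := by simp [him, hx.star_eq]
    simp only [ht, e1, e2, fsmul, zero_smul, smul_zero, add_zero]
  set b := q * a * q with hb
  have hbM : b ∈ M := mul_mem (mul_mem hqM ha) hqM
  have hbs : IsSelfAdjoint b := by
    simp [hb, IsSelfAdjoint, star_mul, hq.isSelfAdjoint.star_eq, hsa.star_eq, mul_assoc]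
  have hcomm : ∀ x ∈ M, ∀ v, z (x v) = x (z v) := fun x hx v =>
    DFunLike.congr_fun (VonNeumannAlgebra.mem_commutant_iff.1 hzM' x hx).symm v
  set x : {g // g ∈ S n} → A := fun g =>
    ⟨z * (g.1 * b * star g.1), mul_mem hzM (mul_mem (mul_mem (hB.mem n g.1 g.2).1 hbM)
      (star_mem (hB.mem n g.1 g.2).1))⟩ with hx
  have hxs : ∀ g, IsSelfAdjoint ((x g : A) : H →L[ℂ] H) := fun g => by
    refine (hzsa.commute_iff (hbs.conjugate g.1)).1 ?_
    exact (VonNeumannAlgebra.mem_commutant_iff.1 hzM' _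
      (mul_mem (mul_mem (hB.mem n g.1 g.2).1 hbM) (star_mem (hB.mem n g.1 g.2).1))).symm
  -- the images all have the norm of the piece
  have hT : ∀ g, ‖T₀ (x g)‖ = ‖z (off N ξ (q (a (q ξ))))‖ := by
    intro g
    obtain ⟨hgM, hg1, hg2⟩ := hB.mem n g.1 g.2
    obtain ⟨hr, hfix⟩ := hB.fix n g.1 g.2
    have e : z ((z * (g.1 * b * star g.1)) ξ) = g.1 (right M ξ g.1 (z (b ξ))) := by
      rw [mul_apply_eq_comp, ← mul_apply_eq_comp z z, hz.isIdempotentElem.eq,
        ← sym_apply hg1 hr hfix hbM, hcomm _ hgM,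
        ← Tomita.commute_apply (a := z) hzM hr]
    rw [tsa _ (hxs g)]
    show ‖off N ξ (z ((z * (g.1 * b * star g.1)) ξ))‖ = _
    rw [e, off_apply, hB.sym n g.1 g.2, ← map_sub, ← map_sub, sym_norm hB.csM hg1, ← off_apply,
      off_central hz hzN hzN', hb, mul_apply_eq_comp, mul_apply_eq_comp]
  have key0 := @little (↥A) (StarSubalgebra.cstarAlgebra A) H _ _ T₀ (2 * (d * ‖z ξ‖)) (by positivity)
  have key := key0 tbound Finset.univ x
  have hk : (0 : ℝ) < (S n).card := by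
    exact_mod_cast Finset.card_pos.2 ⟨1, hB.one_mem n⟩
  set C := ‖z * q * avg (S n) (a * a) * q‖
  have hC : ∀ y : {g // g ∈ S n} → A, (∀ g, y g = x g) →
      ‖∑ g, star (y g) * y g‖ ≤ (S n).card * C := by
    intro y hy
    have e : ((∑ g, star (y g) * y g : A) : H →L[ℂ] H) =
        ∑ g : {g // g ∈ S n}, star ((y g : A) : H →L[ℂ] H) * ((y g : A) : H →L[ℂ] H) := by
      rw [AddSubmonoidClass.coe_finsetSum]; rfl
    show ‖((∑ g, star (y g) * y g : A) : H →L[ℂ] H)‖ ≤ _
    rw [e]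
    refine norm_sum_star_mul_le _ _ (by positivity) fun v => ?_
    have e2 : ∀ g : {g // g ∈ S n}, ‖((y g : A) : H →L[ℂ] H) v‖ ^ 2 ≤
        (⟪v, (z * q * (g.1 * (a * a) * star g.1) * q) v⟫_ℂ).re := by
      intro g
      obtain ⟨hgM, hg1, hg2⟩ := hB.mem n g.1 g.2
      have hgs : star g.1 ∈ M := star_mem hgM
      have hsq : star g.1 * q = q * star g.1 := by
        have h3 := congrArg star (hqS g.1 g.2)
        simpa [star_mul, hq.isSelfAdjoint.star_eq] using h3.symm
      rw [hy g]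
      set u := q (z v) with hu
      have l1 : ‖((x g : A) : H →L[ℂ] H) v‖ ≤ ‖a (star g.1 u)‖ := by
        show ‖(z * (g.1 * b * star g.1)) v‖ ≤ _
        rw [mul_apply_eq_comp, hcomm _ (mul_mem (mul_mem hgM hbM) hgs), mul_apply_eq_comp,
          mul_apply_eq_comp, norm_apply_of_iso hg1, hb, mul_apply_eq_comp, mul_apply_eq_comp,
          ← mul_apply_eq_comp q (star g.1), ← hsq, mul_apply_eq_comp, ← hu]
        exact (q.le_opNorm _).trans (mul_le_of_le_one_left (norm_nonneg _) hq.norm_le)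
      refine (pow_le_pow_left₀ (norm_nonneg _) l1 2).trans (le_of_eq ?_)
      rw [norm_sq_eq_re_inner (𝕜 := ℂ)]
      show (⟪a (star g.1 u), a (star g.1 u)⟫_ℂ).re = _
      rw [Tomita.inner_sa_left hsa, Tomita.inner_star_left]
      simp only [hu, mul_apply_eq_comp]
      rw [Tomita.inner_sa_left hq.isSelfAdjoint, Tomita.inner_sa_left hzsa]
      simp only [hcomm _ hqM, hcomm _ hgM, hcomm _ hgs, hcomm _ ha]
      rw [← mul_apply_eq_comp z z, hz.isIdempotentElem.eq]
    refine (Finset.sum_le_sum fun g _ => e2 g).trans ?_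
    rw [← Complex.re_sum, ← inner_sum]
    refine (Complex.re_le_norm _).trans ((norm_inner_le_norm _ _).trans ?_)
    have e3 : ∑ g : {g // g ∈ S n}, (z * q * (g.1 * (a * a) * star g.1) * q) v =
        ((S n).card : ℂ) • (z * q * avg (S n) (a * a) * q) v := by
      rw [show ∑ g : {g // g ∈ S n}, (z * q * (g.1 * (a * a) * star g.1) * q) v =
        ∑ g ∈ S n, (z * q * (g * (a * a) * star g) * q) v from
          Finset.sum_coe_sort (S n) fun g => (z * q * (g * (a * a) * star g) * q) v]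
      simp only [avg, mul_smul_comm, smul_mul_assoc, smul_apply, Finset.mul_sum,
        Finset.sum_mul, FunLike.coe_sum, Finset.sum_apply, smul_smul]
      rw [mul_inv_cancel₀ (by exact_mod_cast hk.ne'), one_smul]
    rw [e3, norm_smul, Complex.norm_natCast]
    calc ‖v‖ * ((S n).card * ‖(z * q * avg (S n) (a * a) * q) v‖)
        ≤ ‖v‖ * ((S n).card * (C * ‖v‖)) := by
          gcongr; exact (z * q * avg (S n) (a * a) * q).le_opNorm v
      _ = (S n).card * C * ‖v‖ ^ 2 := by ring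
  have h1 := hC x fun _ => rfl
  have h2 : ‖∑ g, x g * star (x g)‖ ≤ (S n).card * C := by
    refine le_trans (le_of_eq ?_) h1
    congr 1
    refine Finset.sum_congr rfl fun g _ => ?_
    rw [show star (x g) = x g from Subtype.ext (hxs g).star_eq]
  rw [Finset.sum_congr rfl fun g _ => by rw [hT g], Finset.sum_const, Finset.card_univ,
    Fintype.card_coe, nsmul_eq_mul] at key
  have h3 : ((S n).card : ℝ) * ‖z (off N ξ (q (a (q ξ))))‖ ^ 2 ≤
      ((S n).card : ℝ) * (8 * d ^ 2 * (C * ‖z ξ‖ ^ 2)) :=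
    key.trans ((mul_le_mul_of_nonneg_left (add_le_add h1 h2) (by positivity)).trans_eq (by ring))
  exact le_of_mul_le_mul_left h3 hk

/-- The bound on the vectors of self-adjoint elements. -/
lemma bound_sa {S : ℕ → Finset (H →L[ℂ] H)} {L : ℝ} (hL : 0 ≤ L) (hB : Balanced M N ξ S L) {d : ℝ}
    (hd : 0 ≤ d) (hnear : ∀ x ∈ M, ∃ n ∈ N, ‖n - x‖ ≤ d * ‖x‖) {a : H →L[ℂ] H} (ha : a ∈ M)
    (hsa : IsSelfAdjoint a) : ‖off N ξ (a ξ)‖ ≤ (8 * L + 1) * d * ‖a ξ‖ := by
  have main : ∀ η : ℝ, 0 < η → ‖off N ξ (a ξ)‖ ^ 2 ≤ 8 * d ^ 2 * (L * ‖a ξ‖ ^ 2 + η) := by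
    intro η hη
    obtain ⟨Z, q, hZ, -, hsum, hq, hlim, hflat⟩ := hB.flat a ha hsa η hη
    have hp := fun z hz => (hZ z hz).1
    have hn : ∀ n, ‖off N ξ (q n (a (q n ξ)))‖ ^ 2 ≤ 8 * d ^ 2 * (L * ‖a ξ‖ ^ 2 + η) := by
      intro n
      rw [← sum_norm_sq hp hsum]
      obtain ⟨hqp, hqM, hqS⟩ := hq n
      calc ∑ z ∈ Z, ‖z (off N ξ (q n (a (q n ξ))))‖ ^ 2
          ≤ ∑ z ∈ Z, 8 * d ^ 2 * (L * ‖z (a ξ)‖ ^ 2 + η * ‖z ξ‖ ^ 2) := by
            refine Finset.sum_le_sum fun z hz => ?_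
            obtain ⟨hzp, hzM, hzM', hzN, hzN'⟩ := hZ z hz
            refine (piece hB hd hnear ha hsa hqp hqM hqS hzp hzM hzM' hzN hzN').trans ?_
            refine mul_le_mul_of_nonneg_left ?_ (by positivity)
            rw [← Tomita.commute_apply (a := a) (b := z) ha hzM' ξ |>.symm]
            exact hflat n z hz
        _ = 8 * d ^ 2 * (L * ‖a ξ‖ ^ 2 + η) := by
            rw [← Finset.mul_sum, Finset.sum_add_distrib, ← Finset.mul_sum, ← Finset.mul_sum,
              sum_norm_sq hp hsum, sum_norm_sq hp hsum, hB.csM.norm_one]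
            ring
    have ht : Tendsto (fun n => q n (a (q n ξ))) atTop (𝓝 (a ξ)) := by
      rw [tendsto_iff_norm_sub_tendsto_zero]
      have h1 : Tendsto (fun n => ‖a‖ * ‖q n ξ - ξ‖ + ‖q n (a ξ) - a ξ‖) atTop (𝓝 0) := by
        have t1 := (tendsto_iff_norm_sub_tendsto_zero.1 (hlim ξ)).const_mul ‖a‖
        simpa using t1.add (tendsto_iff_norm_sub_tendsto_zero.1 (hlim (a ξ)))
      refine squeeze_zero (fun _ => norm_nonneg _) (fun n => ?_) h1
      refine (norm_sub_le_norm_sub_add_norm_sub _ (q n (a ξ)) _).trans (add_le_add_left ?_ _)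
      rw [← map_sub, ← map_sub]
      exact ((q n).le_opNorm _).trans ((mul_le_of_le_one_left (norm_nonneg _)
        (hq n).1.norm_le).trans (a.le_opNorm _))
    exact le_of_tendsto' ((((off N ξ).continuous.tendsto _).comp ht).norm.pow 2) hn
  have h0 : ‖off N ξ (a ξ)‖ ^ 2 ≤ 8 * d ^ 2 * (L * ‖a ξ‖ ^ 2) := by
    refine le_of_forall_pos_le_add fun e he => ?_
    refine (main (e / (8 * d ^ 2 + 1)) (by positivity)).trans ?_
    have : 8 * d ^ 2 * (e / (8 * d ^ 2 + 1)) ≤ e := by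
      rw [← mul_div_assoc, div_le_iff₀ (by positivity)]
      nlinarith
    linarith
  refine le_of_pow_le_pow_left₀ two_ne_zero (by positivity) (h0.trans ?_)
  have h8 : 8 * L ≤ (8 * L + 1) ^ 2 := by nlinarith
  calc 8 * d ^ 2 * (L * ‖a ξ‖ ^ 2) = (8 * L) * (d ^ 2 * ‖a ξ‖ ^ 2) := by ring
    _ ≤ (8 * L + 1) ^ 2 * (d ^ 2 * ‖a ξ‖ ^ 2) := mul_le_mul_of_nonneg_right h8 (by positivity)
    _ = ((8 * L + 1) * d * ‖a ξ‖) ^ 2 := by ring

end Gap

open Gap

/-- (B1) -/
theorem gapOut : GapOut.{u} := by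
  intro L hL
  refine ⟨8 * L + 1, by positivity, fun H _ _ _ M N ξ S d hB hd hnear v => ?_⟩
  have hK : ∀ w ∈ Tomita.K M ξ, ‖off N ξ w‖ ≤ (8 * L + 1) * d * ‖w‖ := by
    intro w hw
    refine closure_minimal (t := {w : H | ‖off N ξ w‖ ≤ (8 * L + 1) * d * ‖w‖}) ?_
      (isClosed_le (off N ξ).continuous.norm (continuous_const.mul continuous_norm)) hw
    rintro _ ⟨a, ha, hsa, rfl⟩
    exact bound_sa hL hB hd hnear ha hsa
  rw [norm_sub_rev, ← off_apply]
  exact (hK _ (Tomita.proj_mem v)).trans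
    (mul_le_mul_of_nonneg_left (Tomita.norm_proj_le M ξ v) (by positivity))

end Vale.Agent.P096.AT
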