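import Vale.Agent.P096.AT.Align
import Vale.Agent.P096.Linear.Main

/-!
# P096, algebras of every type: linear selection and the strong conjecture on separable spaces

Standard form, tensoring with sites, the gauge, the rotation and the selection compose to a linear
selection for all close pairs on separable spaces; linear closeness then gives the conjugacy.
-/

noncomputable section

namespace Vale.Agent.P096.AT

open Vale.Agent.P132

universe u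

/-- Linear selection from the five steps. -/
theorem linearSelectionSep (hSt : StandardOut.{u}) (hAb : AbsorbOut.{u}) (hGa : GaugeConsOut.{u})
    (hAl : AlignOut.{u}) (hSe : SelectionOut.{u}) : LinearSelectionSep.{u} := by
  intro ε hε
  obtain ⟨δ₄, hδ₄, hSe⟩ := hSe (ε / 2048) (by positivity)
  set r₃ := min δ₄ (ε / 256) with hr₃
  obtain ⟨δ₃, hδ₃, hAl⟩ := hAl r₃ (lt_min hδ₄ (by positivity))
  set r₂ := min δ₃ (ε / 32) with hr₂
  obtain ⟨δ₂, hδ₂, hAb⟩ := hAb r₂ (lt_min hδ₃ (by positivity))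
  set r₁ := min δ₂ (ε / 4) with hr₁
  obtain ⟨δ₁, hδ₁, hSt⟩ := hSt r₁ (lt_min hδ₂ (by positivity))
  refine ⟨δ₁, hδ₁, fun H _ _ _ _ M N hMN => ?_⟩
  rcases subsingleton_or_nontrivial H with hH | hH
  · exact ⟨id, ⟨fun _ _ _ _ => rfl, fun _ _ _ => rfl⟩, fun x _ =>
      ⟨by rw [Subsingleton.elim (id x) 0]; exact zero_mem N, by
        simp only [id, sub_self, norm_zero]; positivity⟩⟩
  obtain ⟨H₁, _, _, _, _, M₁, N₁, ξ, hcs, hn₁, ht₁⟩ := hSt H M N hMN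
  obtain ⟨H₂, _, _, _, _, M₂, N₂, ξ₂, hcs₂, hs, hn₂, ht₂⟩ :=
    hAb H₁ M₁ N₁ ξ hcs (hn₁.mono (min_le_left _ _))
  obtain ⟨ξ₃, G, hG, hEq⟩ := hGa H₂ M₂ ξ₂ hcs₂ hs
  obtain ⟨N₃, hP, ht₃⟩ := hAl H₂ M₂ N₂ ξ₃ G hG (hn₂.mono (min_le_left _ _))
  obtain ⟨T, hT⟩ := hSe H₂ M₂ N₃ ξ₃ G r₃ hP hEq (min_le_left _ _)
  obtain ⟨T₂, hT₂⟩ := ht₃ _ T (by positivity) hT
  have h0 : 0 ≤ 8 * (ε / 2048) + r₃ := by positivity
  obtain ⟨T₁, hT₁⟩ := ht₂ _ T₂ h0 hT₂
  have h1 : 0 ≤ 8 * (8 * (ε / 2048) + r₃) + r₂ := by positivity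
  obtain ⟨T₀, hl, hT₀⟩ := ht₁ _ T₁ h1 hT₁
  refine ⟨T₀, hl, fun x hx => ⟨(hT₀ x hx).1, (hT₀ x hx).2.trans ?_⟩⟩
  gcongr
  have e3 : r₃ ≤ ε / 256 := min_le_right _ _
  have e2 : r₂ ≤ ε / 32 := min_le_right _ _
  have e1 : r₁ ≤ ε / 4 := min_le_right _ _
  linarith

/-- Linear selection gives the strong conjecture on separable spaces. -/
theorem strongKKSep_of_linearSelectionSep (h : LinearSelectionSep.{u}) : StrongKKSep.{u} := by
  intro ε hε
  obtain ⟨δ, hδ, hLC⟩ := Linear.linearlyClose'.{u} ε hε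
  obtain ⟨δ', hδ', hsel⟩ := h δ hδ
  refine ⟨min δ δ', lt_min hδ hδ', fun H _ _ _ _ M N hMN => ?_⟩
  obtain ⟨T, hT⟩ := hsel H M N (hMN.trans_le (min_le_right _ _))
  exact hLC H M N (hMN.trans_le (min_le_left _ _)) T hT

end Vale.Agent.P096.AT
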