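import Vale.Agent.P096.AT.Setting
import Vale.Agent.P132.Smooth
import Vale.Agent.P096.Stable.Align

/-!
# P096, algebras of every type: near automorphisms at all matrix sizes

Bounds on matrices of operators under conjugation, the calculus of `NearInto`, and the unitary
part of a near unitary.
-/

noncomputable section

namespace Vale.Agent.P096.AT

open scoped InnerProductSpace
open _root_.P132 (MatBound)
open Vale.Agent.P104.Sim (MatContraction)

universe u

variable {H : Type u} [NormedAddCommGroup H] [InnerProductSpace ℂ H] [CompleteSpace H]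

omit [CompleteSpace H] in
lemma matBound_of_contraction {n : ℕ} {X : Fin n → Fin n → (H →L[ℂ] H)} (h : MatContraction X) :
    MatBound X 1 := fun v => by simpa using h v

omit [CompleteSpace H] in
lemma contraction_of_matBound {n : ℕ} {X : Fin n → Fin n → (H →L[ℂ] H)} (h : MatBound X 1) :
    MatContraction X := fun v => by simpa using h v

omit [CompleteSpace H] in
lemma matBound_conj {n : ℕ} {e : Fin n → Fin n → (H →L[ℂ] H)} {K : ℝ} (he : MatBound e K) (A B : (H →L[ℂ] H)) :
    MatBound (fun i j => A * e i j * B) (‖A‖ * K * ‖B‖) := fun v => by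
  calc ∑ i, ‖∑ j, (A * e i j * B) (v j)‖ ^ 2
      = ∑ i, ‖A (∑ j, e i j (B (v j)))‖ ^ 2 := by simp [map_sum]
    _ ≤ ∑ i, (‖A‖ * ‖∑ j, e i j (B (v j))‖) ^ 2 := by
        gcongr with i _; exact A.le_opNorm _
    _ = ‖A‖ ^ 2 * ∑ i, ‖∑ j, e i j (B (v j))‖ ^ 2 := by simp [mul_pow, Finset.mul_sum]
    _ ≤ ‖A‖ ^ 2 * (K ^ 2 * ∑ j, ‖B (v j)‖ ^ 2) := by gcongr; exact he _
    _ ≤ ‖A‖ ^ 2 * (K ^ 2 * ∑ j, (‖B‖ * ‖v j‖) ^ 2) := by gcongr with j _; exact B.le_opNorm _
    _ = (‖A‖ * K * ‖B‖) ^ 2 * ∑ j, ‖v j‖ ^ 2 := by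
        simp only [mul_pow, ← Finset.mul_sum]; ring

omit [CompleteSpace H] in
lemma matBound_conj_le {n : ℕ} {e : Fin n → Fin n → (H →L[ℂ] H)} {K a b : ℝ} (he : MatBound e K)
    (hK : 0 ≤ K) {A B : (H →L[ℂ] H)} (hA : ‖A‖ ≤ a) (hB : ‖B‖ ≤ b) :
    MatBound (fun i j => A * e i j * B) (a * K * b) := by
  refine (matBound_conj he A B).mono (by positivity) ?_
  have ha : 0 ≤ a := (norm_nonneg _).trans hA
  gcongr

omit [CompleteSpace H] in
lemma matBound_smul {n : ℕ} {e : Fin n → Fin n → (H →L[ℂ] H)} {K : ℝ} (he : MatBound e K) (c : ℂ) :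
    MatBound (fun i j => c • e i j) (‖c‖ * K) := fun v => by
  simp only [smul_apply, ← Finset.smul_sum, norm_smul, mul_pow, ← Finset.mul_sum]
  rw [mul_assoc]
  gcongr
  exact he v

lemma NearInto.of_norm_sub_le {M : VonNeumannAlgebra H} {T U : (H →L[ℂ] H)} {ε η : ℝ} (hε : 0 ≤ ε)
    (h : NearInto T M ε) (hT : ‖T‖ ≤ 1) (hU : ‖U‖ ≤ 1) (hTU : ‖U - T‖ ≤ η) :
    NearInto U M (ε + 2 * η) := by
  intro n X hX hXc
  obtain ⟨Y, hY, hb⟩ := h n X hX hXc
  have hη : 0 ≤ η := (norm_nonneg _).trans hTU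
  have hX1 := matBound_of_contraction hXc
  have h1 : MatBound (fun i j => (U - T) * X i j * star U) (η * 1 * 1) :=
    matBound_conj_le hX1 zero_le_one hTU (by rwa [norm_star])
  have h2 : MatBound (fun i j => T * X i j * star (U - T)) (1 * 1 * η) :=
    matBound_conj_le hX1 zero_le_one hT (by rwa [norm_star])
  have h3 := ((show MatBound (fun i j => T * X i j * star T - Y i j) ε from hb).add hε
    (by positivity : (0 : ℝ) ≤ η * 1 * 1 + 1 * 1 * η) (h1.add (by positivity) (by positivity) h2))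
  refine ⟨Y, hY, fun v => ?_⟩
  have e : ∀ i j, U * X i j * star U - Y i j = (T * X i j * star T - Y i j) +
      ((U - T) * X i j * star U + T * X i j * star (U - T)) := fun i j => by
    simp only [star_sub]; noncomm_ring
  simp only [e]
  refine (h3 v).trans (le_of_eq ?_)
  ring

lemma NearInto.mul {M : VonNeumannAlgebra H} {A B : (H →L[ℂ] H)} {ε ε' : ℝ} (hε : 0 ≤ ε) (hε' : 0 ≤ ε')
    (hA : NearInto A M ε) (hB : NearInto B M ε') (hA1 : ‖A‖ ≤ 1) (hB1 : ‖B‖ ≤ 1) :
    NearInto (A * B) M (ε' + (1 + ε') * ε) := by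
  intro n X hX hXc
  obtain ⟨Y, hY, hb⟩ := hB n X hX hXc
  have hX1 := matBound_of_contraction hXc
  have hBX : MatBound (fun i j => B * X i j * star B) (1 * 1 * 1) :=
    matBound_conj_le hX1 zero_le_one hB1 (by rwa [norm_star])
  have hY1 : MatBound Y (1 + ε') := by
    have h := hBX.sub (by norm_num) hε'
      (show MatBound (fun i j => B * X i j * star B - Y i j) ε' from hb)
    intro v
    have := h v
    simp only [sub_sub_cancel] at this
    simpa using this
  have hpos : 0 < 1 + ε' := by linarith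
  set c : ℂ := (((1 + ε')⁻¹ : ℝ) : ℂ) with hc
  have hcn : ‖c‖ = (1 + ε')⁻¹ := by
    rw [hc, Complex.norm_real, Real.norm_eq_abs, abs_of_pos (inv_pos.2 hpos)]
  have hYc : MatContraction fun i j => c • Y i j := contraction_of_matBound (by
    have h := matBound_smul hY1 c
    rwa [hcn, inv_mul_cancel₀ hpos.ne'] at h)
  obtain ⟨Z, hZ, hZb⟩ := hA n _ (fun i j => M.toStarSubalgebra.smul_mem (hY i j) c) hYc
  set c' : ℂ := ((1 + ε' : ℝ) : ℂ) with hc'
  have hcc : c' * c = 1 := by
    rw [hc, hc', ← Complex.ofReal_mul, mul_inv_cancel₀ hpos.ne', Complex.ofReal_one]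
  have h1 : MatBound (fun i j => A * (B * X i j * star B - Y i j) * star A) (1 * ε' * 1) :=
    matBound_conj_le hb hε' hA1 (by rwa [norm_star])
  have h2 := matBound_smul
    (show MatBound (fun i j => A * (c • Y i j) * star A - Z i j) ε from hZb) c'
  have h3 := h1.add (by positivity) (by positivity) h2
  refine ⟨fun i j => c' • Z i j, fun i j => M.toStarSubalgebra.smul_mem (hZ i j) c', fun v => ?_⟩
  have e : ∀ i j, A * B * X i j * star (A * B) - c' • Z i j =
      A * (B * X i j * star B - Y i j) * star A + c' • (A * (c • Y i j) * star A - Z i j) := by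
    intro i j
    simp only [smul_sub, mul_smul_comm, smul_mul_assoc, smul_smul, hcc, one_smul, star_mul]
    noncomm_ring
  simp only [e]
  refine (h3 v).trans (le_of_eq ?_)
  rw [hc', Complex.norm_real, Real.norm_eq_abs, abs_of_pos hpos]
  ring

/-- A near unitary is near a unitary with the same symmetries and fixed vectors. -/
lemma exists_unitary_near {T : (H →L[ℂ] H)} {η : ℝ} (hη : η ≤ 1 / 2)
    (h1 : ‖star T * T - 1‖ ≤ η) (h2 : ‖T * star T - 1‖ ≤ η) :
    ∃ U ∈ unitary (H →L[ℂ] H), ‖U - T‖ ≤ η ∧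
      (∀ A, A * T = T * A → A * star T = star T * A → A * U = U * A) ∧
      ∀ v, T v = v → star T v = v → U v = v ∧ star U v = v := by
  have hη0 : 0 ≤ η := (norm_nonneg _).trans h1
  set a := star T * T with ha
  have hsa : IsSelfAdjoint a := IsSelfAdjoint.star_mul_self T
  have hspec : ∀ t ∈ spectrum ℝ a, |t - 1| ≤ η := by
    intro t ht
    have e : a - 1 = cfc (fun s : ℝ => s - 1) a := by
      rw [cfc_sub _ _ a, cfc_id' ℝ a, cfc_const_one ℝ a]
    have h := norm_apply_le_norm_cfc (fun s : ℝ => s - 1) a ht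
    rw [← e] at h
    exact (Real.norm_eq_abs _ ▸ h).trans h1
  have hpos : ∀ t ∈ spectrum ℝ a, 0 < t := fun t ht => by
    have := abs_le.1 (hspec t ht); linarith
  have hc1 : ContinuousOn (fun t : ℝ => Real.sqrt t) (spectrum ℝ a) :=
    Real.continuous_sqrt.continuousOn
  have hc2 : ContinuousOn (fun t : ℝ => (Real.sqrt t)⁻¹) (spectrum ℝ a) :=
    hc1.inv₀ fun t ht => (Real.sqrt_pos.2 (hpos t ht)).ne'
  have hc3 : ContinuousOn (fun t : ℝ => (Real.sqrt t + 1)⁻¹) (spectrum ℝ a) :=
    (hc1.add continuousOn_const).inv₀ fun t _ =>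
      (by positivity : (0 : ℝ) < Real.sqrt t + 1).ne'
  set r := cfc (fun t : ℝ => Real.sqrt t) a with hrdef
  set r' := cfc (fun t : ℝ => (Real.sqrt t)⁻¹) a with hr'def
  have hrr : r * r = a := by
    rw [hrdef, ← cfc_mul _ _ a hc1 hc1]
    rw [cfc_congr (g := fun t : ℝ => t) (fun t ht => Real.mul_self_sqrt (hpos t ht).le),
      cfc_id' ℝ a]
  have hrr' : r * r' = 1 := by
    rw [hrdef, hr'def, ← cfc_mul _ _ a hc1 hc2]
    rw [cfc_congr (g := fun _ : ℝ => 1)
      (fun t ht => mul_inv_cancel₀ (Real.sqrt_pos.2 (hpos t ht)).ne'), cfc_const_one ℝ a]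
  have hr'r : r' * r = 1 := by
    rw [hrdef, hr'def, ← cfc_mul _ _ a hc2 hc1]
    rw [cfc_congr (g := fun _ : ℝ => 1)
      (fun t ht => inv_mul_cancel₀ (Real.sqrt_pos.2 (hpos t ht)).ne'), cfc_const_one ℝ a]
  have hr'sa : star r' = r' := (cfc_predicate _ a : IsSelfAdjoint r').star_eq
  have hfac : r - 1 = cfc (fun t : ℝ => (Real.sqrt t + 1)⁻¹) a * (a - 1) := by
    have e : a - 1 = cfc (fun s : ℝ => s - 1) a := by
      rw [cfc_sub _ _ a, cfc_id' ℝ a, cfc_const_one ℝ a]
    rw [e, ← cfc_mul _ _ a hc3 (by fun_prop), hrdef]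
    nth_rw 1 [← cfc_const_one ℝ a]
    rw [← cfc_sub _ _ a hc1 continuousOn_const]
    refine cfc_congr fun t ht => ?_
    have h := Real.mul_self_sqrt (hpos t ht).le
    have hp : (0 : ℝ) < Real.sqrt t + 1 := by positivity
    field_simp
    linear_combination h
  have hrn : ‖r - 1‖ ≤ η := by
    rw [hfac]
    refine (norm_mul_le _ _).trans ((mul_le_of_le_one_left (norm_nonneg _) ?_).trans h1)
    exact norm_cfc_le zero_le_one fun t _ => by
      rw [Real.norm_eq_abs, abs_of_nonneg (by positivity)]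
      exact inv_le_one_of_one_le₀ (by linarith [Real.sqrt_nonneg t])
  set U := T * r' with hU
  have hUr : U * r = T := by rw [hU, mul_assoc, hr'r, mul_one]
  have hUU : star U * U = 1 := by
    rw [hU, star_mul, hr'sa]
    calc r' * star T * (T * r') = r' * (r * r) * r' := by rw [hrr, ha]; noncomm_ring
      _ = (r' * r) * (r * r') := by noncomm_ring
      _ = 1 := by rw [hr'r, hrr', one_mul]
  have hTu : IsUnit (T * star T) := by
    have := isUnit_one_sub_of_norm_lt_one (x := (1 : (H →L[ℂ] H)) - T * star T)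
      (by rw [norm_sub_rev]; linarith)
    simpa using this
  obtain ⟨w, hw⟩ := hTu
  have hUU' : U * star U = 1 := by
    have hinv : U * (r * star T * ↑w⁻¹) = 1 := by
      rw [← mul_assoc, ← mul_assoc, hUr, ← hw, Units.mul_inv]
    calc U * star U = U * star U * (U * (r * star T * ↑w⁻¹)) := by rw [hinv, mul_one]
      _ = U * (star U * U) * (r * star T * ↑w⁻¹) := by noncomm_ring
      _ = 1 := by rw [hUU, mul_one, hinv]
  refine ⟨U, Unitary.mem_iff.2 ⟨hUU, hUU'⟩, ?_, fun A hA hA' => ?_, fun v hv hv' => ?_⟩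
  · have e : U - T = U * (1 - r) := by rw [mul_sub, mul_one, hUr]
    rw [e]
    refine (norm_mul_le _ _).trans ((mul_le_of_le_one_left (norm_nonneg _) ?_).trans ?_)
    · exact Stable.norm_le_one_of_unitary (Unitary.mem_iff.2 ⟨hUU, hUU'⟩)
    · rwa [norm_sub_rev]
  · have hAa : Commute a A := by
      show a * A = A * a
      rw [ha, mul_assoc, ← hA, ← mul_assoc, ← hA', mul_assoc]
    have hAr : Commute r' A := hAa.cfc_real _
    rw [hU, ← mul_assoc, hA, mul_assoc, ← hAr.eq, mul_assoc]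
  · have hav : a v = v := by rw [ha, mul_apply_eq_comp, hv, hv']
    have hrv : r v = v := by
      rw [← sub_eq_zero]
      calc r v - v = (r - 1) v := by rw [sub_apply, one_apply_eq_self]
        _ = 0 := by rw [hfac, mul_apply_eq_comp, sub_apply, one_apply_eq_self, hav, sub_self, map_zero]
    have hr'v : r' v = v := by
      conv_lhs => rw [← hrv]
      rw [← mul_apply_eq_comp, hr'r, one_apply_eq_self]
    constructor
    · rw [hU, mul_apply_eq_comp, hr'v, hv]
    · rw [hU, star_mul, hr'sa, mul_apply_eq_comp, hv', hr'v]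

end Vale.Agent.P096.AT
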