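import Vale.Agent.P096.AT.Setting

/-!
# P096, algebras of every type: cutting an element where it is large
-/

noncomputable section

namespace Vale.Agent.P096.AT

open scoped InnerProductSpace

universe u

variable {H : Type u} [NormedAddCommGroup H] [InnerProductSpace ℂ H] [CompleteSpace H]

/-- A continuous functional calculus of a self-adjoint element of `M` lies in `M`. -/
lemma cfc_mem_vna {M : VonNeumannAlgebra H} {h : (H →L[ℂ] H)} (hh : h ∈ M) (f : ℝ → ℝ) : cfc f h ∈ M := by
  rw [← M.commutant_commutant, VonNeumannAlgebra.mem_commutant_iff]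
  intro y hy
  have hc : Commute h y := (VonNeumannAlgebra.mem_commutant_iff.1 hy h hh)
  exact ((hc.cfc_real f).eq).symm

/-- The part of `a` above `r`: a nonzero `b` in a pair `b² + c² = 1` on whose range `|a| ≥ r`. -/
theorem exists_cut {M : VonNeumannAlgebra H} {a : (H →L[ℂ] H)} (ha : a ∈ M) {r : ℝ} (hr : 0 ≤ r)
    (hra : r < ‖a‖) :
    ∃ b c : (H →L[ℂ] H), b ∈ M ∧ c ∈ M ∧ IsSelfAdjoint b ∧ IsSelfAdjoint c ∧ b * b + c * c = 1 ∧ b ≠ 0 ∧
      (∀ v, r * ‖b v‖ ≤ ‖a (b v)‖) ∧ (a ∈ M.commutant → b ∈ M.commutant) := by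
  set h : (H →L[ℂ] H) := star a * a with hh
  have hsa : IsSelfAdjoint h := IsSelfAdjoint.star_mul_self a
  set f : ℝ → ℝ := fun t => max 0 (min 1 (t - r ^ 2)) with hf
  have hfc : Continuous f := by fun_prop
  have hf1 : ∀ t, 0 ≤ f t ∧ f t ≤ 1 := fun t =>
    ⟨le_max_left _ _, max_le zero_le_one (min_le_left _ _)⟩
  set g : ℝ → ℝ := fun t => Real.sqrt (1 - f t ^ 2) with hg
  have hgc : Continuous g := by fun_prop
  have hfg : ∀ t, f t * f t + g t * g t = 1 := fun t => by
    have h2 : 0 ≤ 1 - f t ^ 2 := by have := hf1 t; nlinarith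
    rw [hg, Real.mul_self_sqrt h2]; ring
  have hhM : h ∈ M := mul_mem (star_mem ha) ha
  refine ⟨cfc f h, cfc g h, cfc_mem_vna hhM f, cfc_mem_vna hhM g, cfc_predicate f h,
    cfc_predicate g h, ?_, ?_, ?_, fun ha' => cfc_mem_vna (mul_mem (star_mem ha') ha') f⟩
  · rw [← cfc_mul f f h hfc.continuousOn hfc.continuousOn,
      ← cfc_mul g g h hgc.continuousOn hgc.continuousOn,
      ← cfc_add h (fun t => f t * f t) (fun t => g t * g t) (hfc.mul hfc).continuousOn
        (hgc.mul hgc).continuousOn,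
      cfc_congr (g := fun _ => (1 : ℝ)) (fun t _ => hfg t)]
    exact cfc_const_one ℝ h
  · intro h0
    rcases subsingleton_or_nontrivial (H →L[ℂ] H) with hs | hs
    · rw [Subsingleton.elim a 0, norm_zero] at hra
      linarith
    have hmem : ‖h‖ ∈ spectrum ℝ h := by
      rcases CStarAlgebra.norm_or_neg_norm_mem_spectrum (A := (H →L[ℂ] H)) (a := h) hsa with h1 | h1
      · exact h1
      · have h2 : (0:ℝ) ≤ -‖h‖ := spectrum_nonneg_of_nonneg (star_mul_self_nonneg a) h1
        rwa [show -‖h‖ = ‖h‖ by linarith [norm_nonneg h]] at h1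
    have h2 : f ‖h‖ = 0 := eqOn_of_cfc_eq_cfc (f := f) (g := 0) (a := h) (by rw [h0, cfc_zero]) hfc.continuousOn
      continuousOn_const hsa hmem
    have h3 : r ^ 2 < ‖h‖ := by
      rw [hh, CStarRing.norm_star_mul_self]
      nlinarith [norm_nonneg a]
    have h4 : 0 < f ‖h‖ := lt_max_of_lt_right (lt_min one_pos (by linarith))
    linarith
  · intro v
    have key : (0 : (H →L[ℂ] H)) ≤ cfc (fun t => f t * (t - r ^ 2) * f t) h := by
      refine cfc_nonneg fun t _ => ?_
      have h1 := hf1 t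
      rcases le_or_gt t (r ^ 2) with ht | ht
      · have : f t = 0 := max_eq_left ((min_le_right _ _).trans (by linarith))
        simp [this]
      · exact mul_nonneg (mul_nonneg h1.1 (by linarith)) h1.1
    have e : cfc (fun t => f t * (t - r ^ 2) * f t) h =
        cfc f h * (h - algebraMap ℝ (H →L[ℂ] H) (r ^ 2)) * cfc f h := by
      have c1 : Continuous fun t : ℝ => t - r ^ 2 := continuous_id.sub continuous_const
      rw [cfc_mul (fun t => f t * (t - r ^ 2)) f h (hfc.mul c1).continuousOn hfc.continuousOn,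
        cfc_mul f (fun t => t - r ^ 2) h hfc.continuousOn c1.continuousOn,
        cfc_sub (fun t => t) (fun _ => r ^ 2) h continuousOn_id continuousOn_const,
        cfc_id' ℝ h hsa, cfc_const (r ^ 2) h hsa]
    rw [e, ContinuousLinearMap.nonneg_iff_isPositive] at key
    have hp := key.2 v
    set b := cfc f h with hb
    have hbs : ContinuousLinearMap.adjoint b = b := (cfc_predicate f h : IsSelfAdjoint b)
    rw [ContinuousLinearMap.reApplyInnerSelf_apply, mul_apply_eq_comp,
      mul_apply_eq_comp, ← ContinuousLinearMap.adjoint_inner_right, hbs,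
      sub_apply, inner_sub_left, map_sub] at hp
    have e1 : RCLike.re ⟪h (b v), b v⟫_ℂ = ‖a (b v)‖ ^ 2 := by
      rw [hh, ContinuousLinearMap.star_eq_adjoint, mul_apply_eq_comp,
        ContinuousLinearMap.adjoint_inner_left, inner_self_eq_norm_sq]
    have e2 : RCLike.re ⟪(algebraMap ℝ (H →L[ℂ] H) (r ^ 2)) (b v), b v⟫_ℂ = r ^ 2 * ‖b v‖ ^ 2 := by
      rw [Algebra.algebraMap_eq_smul_one, smul_apply, one_apply_eq_self,
        RCLike.real_smul_eq_coe_smul (K := ℂ), inner_smul_left, RCLike.conj_ofReal,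
        RCLike.re_ofReal_mul, inner_self_eq_norm_sq]
    rw [e1, e2] at hp
    exact (sq_le_sq₀ (by positivity) (norm_nonneg _)).1 (by rw [mul_pow]; linarith)

end Vale.Agent.P096.AT
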