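import Vale.Agent.P096.AT.RigidHull
import Vale.Agent.P096.AT.RigidCut

/-!
# P096, algebras of every type: an almost fixed point of the twisted column maps

A minimal central bound `T* T ≤ G` over the hull of the twists confines the admissible `T` to a
set of diameter five times the nearness, which every twisted column map preserves.
-/

noncomputable section

namespace Vale.Agent.P096.AT

open scoped InnerProductSpace
open Filter Topology
open Averages
open Vale.Agent.P096.KK (WLim)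
open Vale.Agent.P132

universe u

variable {H : Type u} [NormedAddCommGroup H] [InnerProductSpace ℂ H] [CompleteSpace H]
variable {M : VonNeumannAlgebra H}

/-- `T` lies in the hull and `G` is a central bound of `T* T` below four. -/
structure Adm (M : VonNeumannAlgebra H) (U T G : (H →L[ℂ] H)) : Prop where
  hull : InHull M U T
  memM : G ∈ M
  memC : G ∈ M.commutant
  sa : IsSelfAdjoint G
  bound : ∀ v, ‖T v‖ ^ 2 ≤ (⟪v, G v⟫_ℂ).re
  le_four : ∀ v, (⟪v, G v⟫_ℂ).re ≤ 4 * ‖v‖ ^ 2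

lemma norm_le_of_form {G : (H →L[ℂ] H)} (h : IsSelfAdjoint G) (h0 : ∀ v, 0 ≤ (⟪v, G v⟫_ℂ).re)
    (h4 : ∀ v, (⟪v, G v⟫_ℂ).re ≤ 4 * ‖v‖ ^ 2) : ‖G‖ ≤ 4 := by
  have hG : (0 : (H →L[ℂ] H)) ≤ G := by
    rw [ContinuousLinearMap.nonneg_iff_isPositive, ContinuousLinearMap.isPositive_def]
    refine ⟨h.isSymmetric, fun v => ?_⟩
    rw [ContinuousLinearMap.reApplyInnerSelf_apply, inner_re_symm]
    exact h0 v
  rw [CStarAlgebra.norm_le_iff_le_algebraMap G (by norm_num) hG, ← sub_nonneg,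
    ContinuousLinearMap.nonneg_iff_isPositive, ContinuousLinearMap.isPositive_def]
  refine ⟨((IsSelfAdjoint.algebraMap (H →L[ℂ] H) (.all _)).sub h).isSymmetric, fun v => ?_⟩
  rw [ContinuousLinearMap.reApplyInnerSelf_apply, inner_re_symm, Algebra.algebraMap_eq_smul_one,
    RCLike.real_smul_eq_coe_smul (K := ℂ), sub_apply, inner_sub_right, map_sub, smul_apply,
    one_apply_eq_self, inner_smul_right, RCLike.re_ofReal_mul, inner_self_eq_norm_sq]
  have := h4 v
  change 0 ≤ 4 * ‖v‖ ^ 2 - (⟪v, G v⟫_ℂ).re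
  linarith

/-- Twisted column maps keep the bound. -/
lemma Adm.colMap {U : (H →L[ℂ] H)} (hU : U ∈ unitary (H →L[ℂ] H)) {ι : Type*} [Fintype ι] {m : ι → (H →L[ℂ] H)}
    (hm : IsCol M m) {T G : (H →L[ℂ] H)} (h : Adm M U T G) : Adm M U (colMap U m T) G := by
  refine ⟨inHull_colMap (Unitary.star_mul_self_of_mem hU) hm h.hull, h.memM, h.memC, h.sa,
    fun v => ?_, h.le_four⟩
  refine (norm_colMap_apply_sq hU hm T v).trans
    ((Finset.sum_le_sum fun i _ => h.bound (m i v)).trans_eq ?_)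
  have e : ∀ i, ⟪m i v, G (m i v)⟫_ℂ = ⟪(star (m i) * m i) v, G v⟫_ℂ := fun i => by
    rw [← mul_apply_eq_comp G (m i), ← comm_vna (hm.1 i) h.memC, mul_apply_eq_comp,
      mul_apply_eq_comp, ContinuousLinearMap.star_eq_adjoint,
      ContinuousLinearMap.adjoint_inner_left]
  rw [← Complex.re_sum]
  simp only [e, ← sum_inner, ← sum_apply, hm.2, one_apply_eq_self]

/-- The average of `b²` as a form. -/
lemma re_inner_avg_sq (S : Finset (H →L[ℂ] H)) {b : (H →L[ℂ] H)} (hb : IsSelfAdjoint b) (v : H) :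
    (⟪v, avg S (b * b) v⟫_ℂ).re = (S.card : ℝ)⁻¹ * ∑ g ∈ S, ‖b (star g v)‖ ^ 2 := by
  have hg : ∀ g : (H →L[ℂ] H), ⟪v, (g * (b * b) * star g) v⟫_ℂ = ((‖b (star g v)‖ ^ 2 : ℝ) : ℂ) := fun g => by
    simp only [mul_apply_eq_comp]
    rw [show ⟪v, g (b (b (star g v)))⟫_ℂ = ⟪star g v, b (b (star g v))⟫_ℂ by
      rw [ContinuousLinearMap.star_eq_adjoint, ContinuousLinearMap.adjoint_inner_left],
      ← Tomita.inner_sa_left hb, inner_self_ofReal]
  simp only [avg, smul_apply, inner_smul_right, sum_apply, inner_sum, hg]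
  rw [← Complex.ofReal_sum, show ((S.card : ℂ))⁻¹ = (((S.card : ℝ)⁻¹ : ℝ) : ℂ) by push_cast; rfl,
    Complex.re_ofReal_mul, Complex.ofReal_re]

lemma isSelfAdjoint_of_tendsto {α : Type*} {l : Filter α} [l.NeBot] {T : α → (H →L[ℂ] H)} {S : (H →L[ℂ] H)}
    (h : ∀ v w, Tendsto (fun j => ⟪v, T j w⟫_ℂ) l (𝓝 ⟪v, S w⟫_ℂ))
    (hT : ∀ j, IsSelfAdjoint (T j)) : IsSelfAdjoint S := by
  rw [ContinuousLinearMap.isSelfAdjoint_iff_isSymmetric]
  intro v w
  have h1 := (Complex.continuous_conj.tendsto _).comp (h w v)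
  simp only [Function.comp_def, inner_conj_symm] at h1
  exact tendsto_nhds_unique h1 ((h v w).congr fun j => ((hT j).isSymmetric v w).symm)

/-- An element of the hull nearly fixed by all unitary twists. -/
theorem exists_fixed_twist (hA : AvgOut.{u}) {ξ : H} {G : ℕ → Finset (H →L[ℂ] H)} (hG : Gauge M ξ G)
    {U : (H →L[ℂ] H)} (hU : U ∈ unitary (H →L[ℂ] H)) {ε : ℝ} (hε : 0 < ε) (hN : NearInto U M ε) :
    ∃ X : (H →L[ℂ] H), (∃ y ∈ M, ‖X - y‖ ≤ ε) ∧ ‖X - 1‖ ≤ 2 * ‖U - 1‖ ∧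
      ∀ u ∈ M, star u * u = 1 → u * star u = 1 →
        ‖U * star u * star U * X * u - X‖ ≤ 5 * ε := by
  classical
  set Val : Set ℝ := {r | ∃ T K, Adm M U T K ∧ r = (⟪ξ, K ξ⟫_ℂ).re}
  have hbdd : BddBelow Val := ⟨0, by
    rintro r ⟨T, K, hAd, rfl⟩; exact (sq_nonneg _).trans (hAd.bound ξ)⟩
  have h4 : Adm M U 1 ((4 : ℂ) • 1) := by
    refine ⟨inHull_one hU, smul_mem_vna M _ (one_mem M), smul_mem_vna M.commutant _ (one_mem _),
      ?_, fun v => ?_, fun v => ?_⟩
    · rw [IsSelfAdjoint, star_smul, star_one, show star (4 : ℂ) = 4 from star_ofNat 4]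
    · rw [one_apply_eq_self, smul_apply, one_apply_eq_self, inner_smul_right, inner_self_ofReal,
        show (4 : ℂ) = ((4 : ℝ) : ℂ) by norm_num, Complex.re_ofReal_mul, Complex.ofReal_re]
      nlinarith [sq_nonneg ‖v‖]
    · rw [smul_apply, one_apply_eq_self, inner_smul_right, inner_self_ofReal,
        show (4 : ℂ) = ((4 : ℝ) : ℂ) by norm_num, Complex.re_ofReal_mul, Complex.ofReal_re]
  have hne : Val.Nonempty := ⟨_, 1, _, h4, rfl⟩
  set I := sInf Val with hI
  have hseq : ∀ k : ℕ, ∃ T K, Adm M U T K ∧ (⟪ξ, K ξ⟫_ℂ).re < I + 1 / ((k : ℝ) + 1) := fun k => by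
    obtain ⟨r, ⟨T, K, hAd, rfl⟩, hr⟩ :=
      exists_lt_of_csInf_lt hne (show I < I + 1 / ((k : ℝ) + 1) by
        linarith [show (0 : ℝ) < 1 / ((k : ℝ) + 1) by positivity])
    exact ⟨T, K, hAd, hr⟩
  choose Tk Kk hAd hval using hseq
  let l : Ultrafilter ℕ := Filter.hyperfilter ℕ
  have hl : (l : Filter ℕ) ≤ atTop := Nat.hyperfilter_le_atTop
  have h1n : ‖(1 : (H →L[ℂ] H))‖ ≤ 1 := ContinuousLinearMap.norm_id_le
  have hTn : ∀ {T : (H →L[ℂ] H)}, InHull M U T → ‖T‖ ≤ 2 * ‖U - 1‖ + 1 := fun {T} hT => by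
    linarith [norm_sub_norm_le T 1, hT.norm_sub_one hU]
  obtain ⟨T₀, -, hT₀⟩ := exists_op_wLim l Tk (by positivity) fun k => hTn (hAd k).hull
  obtain ⟨K, -, hK⟩ := exists_op_wLim l Kk (by norm_num : (0 : ℝ) ≤ 4) fun k =>
    norm_le_of_form (hAd k).sa (fun v => (sq_nonneg _).trans ((hAd k).bound v)) (hAd k).le_four
  have hKre : ∀ v, Tendsto (fun k => (⟪v, Kk k v⟫_ℂ).re) (l : Filter ℕ) (𝓝 (⟪v, K v⟫_ℂ).re) :=
    fun v => (Complex.continuous_re.tendsto _).comp (tendsto_inner_wLim (hK v) v)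
  have hmin : Adm M U T₀ K :=
    ⟨inHull_wLim hT₀ fun k => (hAd k).hull, mem_of_wLim hK fun k => (hAd k).memM,
      mem_of_wLim hK fun k => (hAd k).memC,
      isSelfAdjoint_of_tendsto (fun v w => tendsto_inner_wLim (hK w) v) fun k => (hAd k).sa,
      fun v => norm_sq_le_of_wLim (hT₀ v) (.of_forall fun k => (hAd k).bound v) (hKre v),
      fun v => le_of_tendsto (hKre v) (.of_forall fun k => (hAd k).le_four v)⟩
  have hKI : (⟪ξ, K ξ⟫_ℂ).re ≤ I := by
    refine le_of_tendsto_of_tendsto (hKre ξ) ?_ (.of_forall fun k => (hval k).le)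
    have := (tendsto_one_div_add_atTop_nhds_zero_nat (𝕜 := ℝ)).const_add I
    rw [add_zero] at this
    exact this.mono_left hl
  have hdiam : ∀ X Y, Adm M U X K → Adm M U Y K → ‖X - Y‖ ≤ 5 * ε := by
    intro X Y hX hY
    obtain ⟨yX, hyX, bX⟩ := hX.hull.exists_near hU hε.le hN
    obtain ⟨yY, hyY, bY⟩ := hY.hull.exists_near hU hε.le hN
    set a := yX - yY with ha
    have hDa : ‖(X - Y) - a‖ ≤ 2 * ε := by
      rw [ha, show (X - Y) - (yX - yY) = (X - yX) - (Y - yY) by abel]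
      linarith [norm_sub_le (X - yX) (Y - yY)]
    by_contra hcon
    rw [not_le] at hcon
    have ha3 : 3 * ε < ‖a‖ := by linarith [norm_sub_norm_le (X - Y) a]
    obtain ⟨b, c, hbM, hcM, hbs, hcs, hbc, hb0, hcut, -⟩ :=
      exists_cut (sub_mem hyX hyY) (by positivity) ha3
    set Z := (1 / 2 : ℂ) • (X + Y) with hZ
    have hpar : ∀ w, ‖Z w‖ ^ 2 ≤ (⟪w, K w⟫_ℂ).re - ‖(X - Y) w‖ ^ 2 / 4 := fun w => by
      have h2 := parallelogram_law_with_norm ℂ (X w) (Y w)
      have := hX.bound w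
      have := hY.bound w
      rw [hZ, smul_apply, norm_smul, add_apply, sub_apply, mul_pow,
        show ‖(1 / 2 : ℂ)‖ = 1 / 2 by norm_num]
      nlinarith
    have hlow : ∀ w, ε * ‖b w‖ ≤ ‖(X - Y) (b w)‖ := fun w => by
      have h1 : ‖((X - Y) - a) (b w)‖ ≤ 2 * ε * ‖b w‖ :=
        ((X - Y) - a).le_of_opNorm_le hDa _
      rw [sub_apply] at h1
      linarith [hcut w, norm_le_norm_add_norm_sub' (a (b w)) ((X - Y) (b w)),
        norm_sub_rev ((X - Y) (b w)) (a (b w))]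
    obtain ⟨z, hzM, hzC, -, hzξ, hzlim⟩ := hA H M ξ G hG (b * b) (mul_mem hbM hbM)
    set s : ℕ → ℂ := fun n => (((Real.sqrt (G n).card)⁻¹ : ℝ) : ℂ)
    set col : (n : ℕ) → (↥(G n) ⊕ ↥(G n)) → (H →L[ℂ] H) := fun n =>
      Sum.elim (fun g => s n • (b * star (g : (H →L[ℂ] H)))) fun g => s n • (c * star (g : (H →L[ℂ] H))) with hcol
    have hcard : ∀ n, (0 : ℝ) < (G n).card := fun n => by
      exact_mod_cast Finset.card_pos.2 ⟨1, hG.one_mem n⟩
    have hs : ∀ n, star (s n) * s n = (((G n).card : ℂ))⁻¹ := fun n => by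
      simp only [s, Complex.star_def, Complex.conj_ofReal, ← Complex.ofReal_mul, ← mul_inv,
        Real.mul_self_sqrt (hcard n).le]
      push_cast; rfl
    have hscol : ∀ n, IsCol M (col n) := fun n => by
      refine ⟨Sum.rec (fun g => smul_mem_vna M _ (mul_mem hbM (star_mem (hG.mem n g g.2))))
        (fun g => smul_mem_vna M _ (mul_mem hcM (star_mem (hG.mem n g g.2)))), ?_⟩
      rw [Fintype.sum_sum_type, ← Finset.sum_add_distrib]
      have e : ∀ g : ↥(G n), star (col n (Sum.inl g)) * col n (Sum.inl g) +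
          star (col n (Sum.inr g)) * col n (Sum.inr g) = ((G n).card : ℂ)⁻¹ • (1 : (H →L[ℂ] H)) := fun g => by
        simp only [hcol, Sum.elim_inl, Sum.elim_inr, star_smul, star_mul, star_star,
          smul_mul_smul_comm, hs, hbs.star_eq, hcs.star_eq, ← smul_add]
        rw [show (g : (H →L[ℂ] H)) * b * (b * star (g : (H →L[ℂ] H))) + (g : (H →L[ℂ] H)) * c * (c * star (g : (H →L[ℂ] H))) =
          (g : (H →L[ℂ] H)) * (b * b + c * c) * star (g : (H →L[ℂ] H)) by noncomm_ring, hbc, mul_one,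
          (hG.unit n g g.2).2]
      rw [Finset.sum_congr rfl fun g _ => e g, Finset.sum_const, Finset.card_univ,
        Fintype.card_coe, ← Nat.cast_smul_eq_nsmul ℂ, smul_smul,
        mul_inv_cancel₀ (by exact_mod_cast (hcard n).ne'), one_smul]
    have hstep : ∀ n v, ‖AT.colMap U (col n) Z v‖ ^ 2 ≤
        (⟪v, K v⟫_ℂ).re - ε ^ 2 / 4 * (⟪v, avg (G n) (b * b) v⟫_ℂ).re := fun n v => by
      refine (norm_colMap_apply_sq hU (hscol n) Z v).trans ?_
      rw [Fintype.sum_sum_type, ← Finset.sum_add_distrib, re_inner_avg_sq _ hbs]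
      have hns : ‖s n‖ ^ 2 = ((G n).card : ℝ)⁻¹ := by
        simp only [s, Complex.norm_real, Real.norm_eq_abs, sq_abs, inv_pow,
          Real.sq_sqrt (hcard n).le]
      have e : ∀ g : ↥(G n), ‖Z (col n (Sum.inl g) v)‖ ^ 2 + ‖Z (col n (Sum.inr g) v)‖ ^ 2 ≤
          ((G n).card : ℝ)⁻¹ * ((⟪v, K v⟫_ℂ).re - ε ^ 2 / 4 * ‖b (star (g : (H →L[ℂ] H)) v)‖ ^ 2) := by
        intro g
        simp only [hcol, Sum.elim_inl, Sum.elim_inr, smul_apply, mul_apply_eq_comp, map_smul,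
          norm_smul, mul_pow, hns, ← mul_add]
        refine mul_le_mul_of_nonneg_left ?_ (by positivity)
        set w := star (g : (H →L[ℂ] H)) v with hw
        have h1 := hpar (b w)
        have h2 : ‖Z (c w)‖ ^ 2 ≤ (⟪c w, K (c w)⟫_ℂ).re := by
          linarith [hpar (c w), sq_nonneg ‖(X - Y) (c w)‖]
        have h3 : ε ^ 2 * ‖b w‖ ^ 2 ≤ ‖(X - Y) (b w)‖ ^ 2 := by
          rw [← mul_pow]; exact pow_le_pow_left₀ (by positivity) (hlow w) 2
        have hK : ∀ x ∈ M, ∀ u : H, K (x u) = x (K u) := fun x hx u =>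
          (DFunLike.congr_fun (comm_vna hx hmin.memC) u).symm
        have h4 : ⟪b w, K (b w)⟫_ℂ + ⟪c w, K (c w)⟫_ℂ = ⟪v, K v⟫_ℂ := by
          rw [hK b hbM, hK c hcM, Tomita.inner_sa_left hbs, Tomita.inner_sa_left hcs,
            ← inner_add_right, ← mul_apply_eq_comp b b, ← mul_apply_eq_comp c c, ← add_apply, hbc,
            one_apply_eq_self, hw, hK _ (star_mem (hG.mem n g g.2)),
            ContinuousLinearMap.star_eq_adjoint, ContinuousLinearMap.adjoint_inner_left,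
            ← ContinuousLinearMap.star_eq_adjoint, ← mul_apply_eq_comp (g : (H →L[ℂ] H)),
            (hG.unit n g g.2).2, one_apply_eq_self]
        rw [← h4, Complex.add_re]
        linarith
      refine (Finset.sum_le_sum fun g _ => e g).trans_eq ?_
      rw [← Finset.mul_sum, Finset.sum_sub_distrib, Finset.sum_const, Finset.card_univ,
        Fintype.card_coe, ← Finset.mul_sum,
        Finset.sum_coe_sort (G n) (fun g => ‖b (star g v)‖ ^ 2), nsmul_eq_mul, mul_sub,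
        ← mul_assoc, inv_mul_cancel₀ (hcard n).ne', one_mul]
      ring
    have hZh : InHull M U Z := inHull_mid hX.hull hY.hull
    have hcolh : ∀ n, InHull M U (AT.colMap U (col n) Z) := fun n =>
      inHull_colMap (Unitary.star_mul_self_of_mem hU) (hscol n) hZh
    obtain ⟨T', -, hT'⟩ := exists_op_wLim l (fun n => AT.colMap U (col n) Z) (by positivity)
      fun n => hTn (hcolh n)
    have hzre : ∀ v, Tendsto (fun n => (⟪v, avg (G n) (b * b) v⟫_ℂ).re) atTop
        (𝓝 (⟪v, z v⟫_ℂ).re) := fun v =>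
      (Complex.continuous_re.tendsto _).comp (tendsto_const_nhds.inner (hzlim v))
    have hz0 : ∀ v, 0 ≤ (⟪v, z v⟫_ℂ).re := fun v =>
      ge_of_tendsto (hzre v) (.of_forall fun n => by rw [re_inner_avg_sq _ hbs]; positivity)
    have hzs : IsSelfAdjoint z :=
      isSelfAdjoint_of_tendsto (l := atTop) (fun v w => tendsto_const_nhds.inner (hzlim w))
        fun n => by rw [IsSelfAdjoint, star_avg, star_mul, hbs.star_eq]
    set κ : ℂ := ((ε ^ 2 / 4 : ℝ) : ℂ) with hκ
    have hre : ∀ v, (⟪v, (K - κ • z) v⟫_ℂ).re =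
        (⟪v, K v⟫_ℂ).re - ε ^ 2 / 4 * (⟪v, z v⟫_ℂ).re := fun v => by
      rw [sub_apply, inner_sub_right, Complex.sub_re, smul_apply, inner_smul_right, hκ,
        Complex.re_ofReal_mul]
    have hnew : Adm M U T' (K - κ • z) := by
      refine ⟨inHull_wLim hT' hcolh, sub_mem hmin.memM (smul_mem_vna M _ hzM),
        sub_mem hmin.memC (smul_mem_vna M.commutant _ hzC), ?_, fun v => ?_, fun v => ?_⟩
      · rw [IsSelfAdjoint, star_sub, hmin.sa.star_eq, star_smul, hzs.star_eq, hκ,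
          Complex.star_def, Complex.conj_ofReal]
      · rw [hre]
        exact norm_sq_le_of_wLim (hT' v) (.of_forall fun n => hstep n v)
          (tendsto_const_nhds.sub (((hzre v).mono_left hl).const_mul _))
      · rw [hre]
        nlinarith [hmin.le_four v, mul_nonneg (sq_nonneg ε) (hz0 v)]
    have hpos : 0 < (⟪ξ, z ξ⟫_ℂ).re := by
      rw [hzξ, mul_apply_eq_comp, ← Tomita.inner_sa_left hbs, inner_self_ofReal, Complex.ofReal_re]
      have : b ξ ≠ 0 := fun h => hb0 (hG.cs.separating b hbM h)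
      positivity
    have := csInf_le hbdd ⟨T', _, hnew, rfl⟩
    rw [hre] at this
    nlinarith [mul_pos (pow_pos hε 2) hpos]
  refine ⟨T₀, hmin.hull.exists_near hU hε.le hN, hmin.hull.norm_sub_one hU, fun u hu hu1 hu2 => ?_⟩
  have hc : IsCol M fun _ : Fin 1 => u := ⟨fun _ => hu, by simpa using hu1⟩
  have h := hdiam _ _ (hmin.colMap hU hc) hmin
  simpa [AT.colMap] using h

end Vale.Agent.P096.AT
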