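import Vale.Agent.P096.AT.Avg
import Vale.Agent.P096.KK.WeakLim

/-!
# P096, algebras of every type: the hull of the column twists of the identity

For a column `m` of `M` (`∑ mᵢ* mᵢ = 1`) the twist is `∑ U mᵢ* U* mᵢ`. The weak closure of these
twists is convex and stable under the twisted column maps.
-/

noncomputable section

namespace Vale.Agent.P096.AT

open scoped InnerProductSpace
open Filter Topology
open Vale.Agent.P096.KK (WLim exists_wLim exists_linear_wLim)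
open Averages

universe u

variable {H : Type u} [NormedAddCommGroup H] [InnerProductSpace ℂ H] [CompleteSpace H]
variable {M : VonNeumannAlgebra H}

/-- A column of `M`. -/
def IsCol (M : VonNeumannAlgebra H) {ι : Type*} [Fintype ι] (m : ι → (H →L[ℂ] H)) : Prop :=
  (∀ i, m i ∈ M) ∧ ∑ i, star (m i) * m i = 1

/-- The twisted column map. -/
def colMap (U : (H →L[ℂ] H)) {ι : Type*} [Fintype ι] (m : ι → (H →L[ℂ] H)) (T : (H →L[ℂ] H)) : (H →L[ℂ] H) :=
  ∑ i, U * star (m i) * star U * T * m i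

/-- `T` is a weak limit of twists of the identity. -/
def InHull (M : VonNeumannAlgebra H) (U T : (H →L[ℂ] H)) : Prop :=
  ∀ (P : Finset (H × H)) (θ : ℝ), 0 < θ → ∃ (n : ℕ) (m : Fin n → (H →L[ℂ] H)), IsCol M m ∧
    ∀ p ∈ P, ‖⟪p.1, (T - colMap U m 1) p.2⟫_ℂ‖ < θ

lemma colMap_apply (U : (H →L[ℂ] H)) {ι : Type*} [Fintype ι] (m : ι → (H →L[ℂ] H)) (T : (H →L[ℂ] H)) (v : H) :
    colMap U m T v = U (∑ i, star (m i) (star U (T (m i v)))) := by
  simp [colMap, sum_apply]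

lemma colMap_reindex (U : (H →L[ℂ] H)) {ι κ : Type*} [Fintype ι] [Fintype κ] (e : κ ≃ ι) (m : ι → (H →L[ℂ] H))
    (T : (H →L[ℂ] H)) : colMap U (fun k => m (e k)) T = colMap U m T :=
  Equiv.sum_comp e fun i => U * star (m i) * star U * T * m i

lemma IsCol.reindex {ι κ : Type*} [Fintype ι] [Fintype κ] {m : ι → (H →L[ℂ] H)} (h : IsCol M m)
    (e : κ ≃ ι) : IsCol M fun k => m (e k) :=
  ⟨fun k => h.1 _, (Equiv.sum_comp e fun i => star (m i) * m i).trans h.2⟩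

lemma IsCol.prod {ι κ : Type*} [Fintype ι] [Fintype κ] {m : ι → (H →L[ℂ] H)} {n : κ → (H →L[ℂ] H)} (hm : IsCol M m)
    (hn : IsCol M n) : IsCol M fun p : ι × κ => n p.2 * m p.1 := by
  refine ⟨fun p => mul_mem (hn.1 _) (hm.1 _), ?_⟩
  rw [Fintype.sum_prod_type, ← hm.2]
  refine Finset.sum_congr rfl fun i _ => ?_
  calc ∑ k, star (n k * m i) * (n k * m i) = star (m i) * (∑ k, star (n k) * n k) * m i := by
        simp only [Finset.mul_sum, Finset.sum_mul, star_mul, mul_assoc]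
    _ = star (m i) * m i := by rw [hn.2, mul_one]

/-- Twisted column maps compose. -/
lemma colMap_colMap {U : (H →L[ℂ] H)} (hU : star U * U = 1) {ι κ : Type*} [Fintype ι] [Fintype κ]
    (m : ι → (H →L[ℂ] H)) (n : κ → (H →L[ℂ] H)) (T : (H →L[ℂ] H)) :
    colMap U m (colMap U n T) = colMap U (fun p : ι × κ => n p.2 * m p.1) T := by
  simp only [colMap, Fintype.sum_prod_type, Finset.mul_sum, Finset.sum_mul, star_mul]
  refine Finset.sum_congr rfl fun i _ => Finset.sum_congr rfl fun k _ => ?_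
  simp only [mul_assoc]
  rw [← mul_assoc (star U) U, hU, one_mul]

lemma IsCol.sum_norm_sq {ι : Type*} [Fintype ι] {m : ι → (H →L[ℂ] H)} (h : IsCol M m) (v : H) :
    ∑ i, ‖m i v‖ ^ 2 = ‖v‖ ^ 2 := by
  have : ∑ i, ⟪(star (m i) * m i) v, v⟫_ℂ = ⟪v, v⟫_ℂ := by
    rw [← sum_inner, ← sum_apply, h.2, one_apply_eq_self]
  have h2 := congrArg RCLike.re this
  simp only [map_sum, mul_apply_eq_comp, ContinuousLinearMap.star_eq_adjoint,
    ContinuousLinearMap.adjoint_inner_left, inner_self_eq_norm_sq] at h2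
  exact h2

/-- The adjoint row of a column is a contraction. -/
lemma IsCol.norm_row_sq {ι : Type*} [Fintype ι] {m : ι → (H →L[ℂ] H)} (h : IsCol M m) (w : ι → H) :
    ‖∑ i, star (m i) (w i)‖ ^ 2 ≤ ∑ i, ‖w i‖ ^ 2 := by
  set s := ∑ i, star (m i) (w i)
  have h1 : ‖s‖ ^ 2 ≤ ∑ i, ‖m i s‖ * ‖w i‖ := by
    calc ‖s‖ ^ 2 = RCLike.re ⟪s, s⟫_ℂ := (inner_self_eq_norm_sq (𝕜 := ℂ) s).symm
      _ = ∑ i, RCLike.re ⟪m i s, w i⟫_ℂ := by
          simp only [s, inner_sum, map_sum, ContinuousLinearMap.star_eq_adjoint,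
            ContinuousLinearMap.adjoint_inner_right]
      _ ≤ _ := Finset.sum_le_sum fun i _ => re_inner_le_norm _ _
  have h2 := Finset.sum_mul_sq_le_sq_mul_sq Finset.univ (fun i => ‖m i s‖) fun i => ‖w i‖
  rw [h.sum_norm_sq] at h2
  rcases (sq_nonneg ‖s‖).eq_or_lt with h0 | h0
  · rw [← h0]; exact Finset.sum_nonneg fun i _ => sq_nonneg _
  · refine le_of_mul_le_mul_left ?_ h0
    refine le_trans ?_ h2
    rw [← sq]
    exact pow_le_pow_left₀ (sq_nonneg _) h1 2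

lemma norm_le_one_of_unit {U : (H →L[ℂ] H)} (hU : U ∈ unitary (H →L[ℂ] H)) : ‖U‖ ≤ 1 ∧ ‖star U‖ ≤ 1 := by
  have h1 : ‖U‖ ≤ 1 := norm_le_one_of_iso (Unitary.star_mul_self_of_mem hU)
  exact ⟨h1, by rwa [norm_star]⟩

omit [CompleteSpace H] in
lemma norm_apply_le_one {A : (H →L[ℂ] H)} (hA : ‖A‖ ≤ 1) (v : H) : ‖A v‖ ≤ ‖v‖ :=
  (A.le_of_opNorm_le hA v).trans_eq (one_mul _)

lemma norm_colMap_apply_sq {U : (H →L[ℂ] H)} (hU : U ∈ unitary (H →L[ℂ] H)) {ι : Type*} [Fintype ι] {m : ι → (H →L[ℂ] H)}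
    (h : IsCol M m) (T : (H →L[ℂ] H)) (v : H) : ‖colMap U m T v‖ ^ 2 ≤ ∑ i, ‖T (m i v)‖ ^ 2 := by
  rw [colMap_apply]
  refine (pow_le_pow_left₀ (norm_nonneg _) (norm_apply_le_one (norm_le_one_of_unit hU).1 _)
    2).trans ((h.norm_row_sq _).trans (Finset.sum_le_sum fun i _ => ?_))
  exact pow_le_pow_left₀ (norm_nonneg _) (norm_apply_le_one (norm_le_one_of_unit hU).2 _) 2

lemma norm_twist_sub_one {U : (H →L[ℂ] H)} (hU : U ∈ unitary (H →L[ℂ] H)) {ι : Type*} [Fintype ι] {m : ι → (H →L[ℂ] H)}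
    (h : IsCol M m) : ‖colMap U m 1 - 1‖ ≤ 2 * ‖U - 1‖ := by
  refine ContinuousLinearMap.opNorm_le_bound _ (by positivity) fun v => ?_
  have hrow : ∀ (A : (H →L[ℂ] H)), ‖∑ i, star (m i) (A (m i v))‖ ≤ ‖A‖ * ‖v‖ := fun A => by
    refine le_of_pow_le_pow_left₀ two_ne_zero (by positivity) ((h.norm_row_sq _).trans ?_)
    rw [mul_pow, ← h.sum_norm_sq v, Finset.mul_sum]
    exact Finset.sum_le_sum fun i _ => by
      rw [← mul_pow]; exact pow_le_pow_left₀ (norm_nonneg _) (A.le_opNorm _) 2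
  have e1 : ∑ i, star (m i) (m i v) = v := by
    simpa [sum_apply] using congrArg (fun T : (H →L[ℂ] H) => T v) h.2
  have e : (colMap U m 1 - 1) v = (U - 1) (∑ i, star (m i) (star U (m i v))) +
      ∑ i, star (m i) (star (U - 1) (m i v)) := by
    rw [sub_apply, colMap_apply, sub_apply]
    simp only [one_apply_eq_self, star_sub, star_one, sub_apply, map_sub, Finset.sum_sub_distrib,
      e1]
    abel
  rw [e]
  refine (norm_add_le _ _).trans ((add_le_add ((U - 1).le_opNorm _) (hrow (star (U - 1)))).trans ?_)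
  have h1 : ‖∑ i, star (m i) (star U (m i v))‖ ≤ ‖v‖ :=
    (hrow _).trans (mul_le_of_le_one_left (norm_nonneg _) (norm_le_one_of_unit hU).2)
  rw [norm_star]
  nlinarith [norm_nonneg (U - 1)]

/-- The twists of the identity are near the algebra. -/
lemma exists_near_twist {U : (H →L[ℂ] H)} {ε : ℝ} (hε : 0 ≤ ε) (hN : NearInto U M ε) {n : ℕ}
    {m : Fin n → (H →L[ℂ] H)} (h : IsCol M m) : ∃ y ∈ M, ‖colMap U m 1 - y‖ ≤ ε := by
  rcases Nat.eq_zero_or_pos n with rfl | hn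
  · exact ⟨0, zero_mem M, by simpa [colMap] using hε⟩
  set i₀ : Fin n := ⟨0, hn⟩
  set X : Fin n → Fin n → (H →L[ℂ] H) := fun i j => if i = i₀ then star (m j) else 0 with hX
  have hXM : ∀ i j, X i j ∈ M := fun i j => by
    simp only [hX]; split_ifs
    exacts [star_mem (h.1 j), zero_mem M]
  have hXc : Vale.Agent.P104.Sim.MatContraction X := fun v => by
    rw [Finset.sum_eq_single i₀]
    · simpa [hX] using h.norm_row_sq v
    · intro i _ hi; simp [hX, hi]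
    · simp
  obtain ⟨Y, hY, hb⟩ := hN n X hXM hXc
  refine ⟨∑ j, Y i₀ j * m j, sum_mem fun j _ => mul_mem (hY _ _) (h.1 j),
    ContinuousLinearMap.opNorm_le_bound _ hε fun w => ?_⟩
  have h1 := (Finset.single_le_sum (f := fun i => ‖∑ j, (U * X i j * star U - Y i j) (m j w)‖ ^ 2)
    (fun i _ => sq_nonneg _) (Finset.mem_univ i₀)).trans (hb fun j => m j w)
  rw [h.sum_norm_sq, ← mul_pow] at h1
  refine le_of_eq_of_le ?_ (le_of_pow_le_pow_left₀ two_ne_zero (by positivity) h1)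
  simp [hX, colMap, sum_apply, Finset.sum_sub_distrib]

/-! ## Weak limits of operators -/

variable {α : Type*} {l : Ultrafilter α}

lemma exists_op_wLim (l : Ultrafilter α) (T : α → (H →L[ℂ] H)) {C : ℝ} (hC : 0 ≤ C) (h : ∀ j, ‖T j‖ ≤ C) :
    ∃ S : (H →L[ℂ] H), ‖S‖ ≤ C ∧ ∀ v, WLim l (fun j => T j v) (S v) := by
  have hb : ∀ v j, ‖T j v‖ ≤ C * ‖v‖ := fun v j => (T j).le_of_opNorm_le (h j) v
  obtain ⟨a, ha⟩ := exists_linear_wLim l (fun j => (T j : H →ₗ[ℂ] H)) ⊤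
    fun v _ => ⟨C * ‖v‖, hb v⟩
  have hbd : ∀ v, ‖a v‖ ≤ C * ‖v‖ := fun v =>
    (ha v trivial).norm_le (.of_forall fun j => hb v j)
  exact ⟨a.mkContinuous C hbd, a.mkContinuous_norm_le hC hbd, fun v => ha v trivial⟩

lemma mem_of_wLim {T : α → (H →L[ℂ] H)} {S : (H →L[ℂ] H)} (hS : ∀ v, WLim l (fun j => T j v) (S v))
    (h : ∀ j, T j ∈ M) : S ∈ M :=
  mem_of_comm_commutant fun y hy => ContinuousLinearMap.ext fun v => by
    refine WLim.unique ((hS v).map y) ((hS (y v)).congr (.of_forall fun j => ?_))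
    exact (DFunLike.congr_fun (comm_vna (h j) hy) v)

omit [CompleteSpace H] in
lemma tendsto_inner_wLim {x : α → H} {v : H} (hv : WLim l x v) (y : H) :
    Tendsto (fun j => ⟪y, x j⟫_ℂ) (l : Filter α) (𝓝 ⟪y, v⟫_ℂ) := by
  have := ((Complex.continuous_conj.tendsto _).comp (hv y))
  simpa [Function.comp_def, inner_conj_symm] using this

omit [CompleteSpace H] in
lemma norm_sq_le_of_wLim {x : α → H} {v : H} {c : α → ℝ} {R : ℝ} (hv : WLim l x v)
    (h : ∀ᶠ j in (l : Filter α), ‖x j‖ ^ 2 ≤ c j) (hc : Tendsto c (l : Filter α) (𝓝 R)) :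
    ‖v‖ ^ 2 ≤ R := by
  refine le_of_forall_pos_le_add fun θ hθ => ?_
  have h1 : ∀ᶠ j in (l : Filter α), ‖x j‖ ^ 2 ≤ R + θ := by
    filter_upwards [h, hc.eventually_le_const (show R < R + θ by linarith)] with j hj hj'
    exact hj.trans hj'
  obtain ⟨j, hj⟩ := h1.exists
  have h0 : 0 ≤ R + θ := (sq_nonneg _).trans hj
  have h2 := hv.norm_le (C := Real.sqrt (R + θ)) (h1.mono fun j hj => Real.le_sqrt_of_sq_le hj)
  calc ‖v‖ ^ 2 ≤ Real.sqrt (R + θ) ^ 2 := pow_le_pow_left₀ (norm_nonneg _) h2 2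
    _ = R + θ := Real.sq_sqrt h0

/-! ## The hull -/

lemma inHull_twist {U : (H →L[ℂ] H)} {ι : Type*} [Fintype ι] {m : ι → (H →L[ℂ] H)} (h : IsCol M m) :
    InHull M U (colMap U m 1) := fun P θ hθ =>
  ⟨_, _, h.reindex (Fintype.equivFin ι).symm, fun p _ => by
    simpa [colMap_reindex U (Fintype.equivFin ι).symm m 1] using hθ⟩

lemma inHull_one {U : (H →L[ℂ] H)} (hU : U ∈ unitary (H →L[ℂ] H)) : InHull M U 1 := by
  have h : IsCol M fun _ : Fin 1 => (1 : (H →L[ℂ] H)) := ⟨fun _ => one_mem M, by simp⟩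
  simpa [colMap, Unitary.mul_star_self_of_mem hU] using inHull_twist (U := U) h

lemma inHull_colMap {U : (H →L[ℂ] H)} (hU : star U * U = 1) {ι : Type*} [Fintype ι] {m : ι → (H →L[ℂ] H)} (hm : IsCol M m)
    {T : (H →L[ℂ] H)} (hT : InHull M U T) : InHull M U (colMap U m T) := by
  classical
  intro P θ hθ
  set A : ι → (H →L[ℂ] H) := fun i => U * star (m i) * star U
  set P' : Finset (H × H) := (P ×ˢ (Finset.univ : Finset ι)).image
    fun q => (star (A q.2) q.1.1, m q.2 q.1.2)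
  obtain ⟨n, c, hc, hb⟩ := hT P' (θ / (Fintype.card ι + 1)) (by positivity)
  refine ⟨_, _, (hm.prod hc).reindex (Fintype.equivFin _).symm, fun p hp => ?_⟩
  rw [colMap_reindex U (Fintype.equivFin (ι × Fin n)).symm
    (fun q : ι × Fin n => c q.2 * m q.1) 1, ← colMap_colMap hU]
  have e : colMap U m T - colMap U m (colMap U c 1) =
      ∑ i, A i * (T - colMap U c 1) * m i := by
    simp [colMap, A, Finset.sum_sub_distrib, mul_sub, sub_mul, mul_assoc]
  rw [e, sum_apply, inner_sum]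
  refine lt_of_le_of_lt ((norm_sum_le _ _).trans (Finset.sum_le_sum fun i _ => ?_))
    (show ∑ _i : ι, θ / (Fintype.card ι + 1) < θ by
      rw [Finset.sum_const, Finset.card_univ, nsmul_eq_mul, mul_div_assoc', div_lt_iff₀ (by positivity)]
      nlinarith)
  have h1 := (hb (star (A i) p.1, m i p.2)
    (Finset.mem_image.2 ⟨(p, i), Finset.mem_product.2 ⟨hp, Finset.mem_univ _⟩, rfl⟩)).le
  simpa [ContinuousLinearMap.star_eq_adjoint, ContinuousLinearMap.adjoint_inner_left,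
    inner_sub_right] using h1

lemma inHull_mid {U : (H →L[ℂ] H)} {X Y : (H →L[ℂ] H)} (hX : InHull M U X) (hY : InHull M U Y) :
    InHull M U ((1 / 2 : ℂ) • (X + Y)) := by
  classical
  intro P θ hθ
  obtain ⟨n₁, c₁, h₁, b₁⟩ := hX P θ hθ
  obtain ⟨n₂, c₂, h₂, b₂⟩ := hY P θ hθ
  set s : ℂ := ((Real.sqrt (1 / 2) : ℝ) : ℂ)
  have hs : s * s = (1 / 2 : ℂ) := by
    rw [← Complex.ofReal_mul, Real.mul_self_sqrt (by norm_num)]; norm_num
  set d : Fin n₁ ⊕ Fin n₂ → (H →L[ℂ] H) := Sum.elim (fun i => s • c₁ i) fun i => s • c₂ i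
  have hstar : star s = s := Complex.conj_ofReal _
  have hd : IsCol M d := by
    refine ⟨Sum.rec (fun i => smul_mem_vna M _ (h₁.1 i)) fun i => smul_mem_vna M _ (h₂.1 i), ?_⟩
    simp only [Fintype.sum_sum_type, d, Sum.elim_inl, Sum.elim_inr, star_smul, hstar,
      smul_mul_smul_comm, hs, ← Finset.smul_sum, h₁.2, h₂.2, ← add_smul]
    norm_num
  refine ⟨_, _, hd.reindex (Fintype.equivFin _).symm, fun p hp => ?_⟩
  rw [colMap_reindex U (Fintype.equivFin (Fin n₁ ⊕ Fin n₂)).symm d 1]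
  have e : (1 / 2 : ℂ) • (X + Y) - colMap U d 1 =
      (1 / 2 : ℂ) • ((X - colMap U c₁ 1) + (Y - colMap U c₂ 1)) := by
    simp only [colMap, Fintype.sum_sum_type, d, Sum.elim_inl, Sum.elim_inr, star_smul, hstar,
      mul_smul_comm, smul_mul_assoc, smul_smul, hs, ← Finset.smul_sum]
    module
  rw [e, smul_apply, inner_smul_right, norm_mul, add_apply, inner_add_right]
  have h1 := norm_add_le ⟪p.1, (X - colMap U c₁ 1) p.2⟫_ℂ ⟪p.1, (Y - colMap U c₂ 1) p.2⟫_ℂ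
  have := b₁ p hp
  have := b₂ p hp
  rw [show ‖(1 / 2 : ℂ)‖ = 1 / 2 by norm_num]
  linarith

lemma inHull_wLim {U : (H →L[ℂ] H)} {T : α → (H →L[ℂ] H)} {S : (H →L[ℂ] H)} (hS : ∀ v, WLim l (fun j => T j v) (S v))
    (h : ∀ j, InHull M U (T j)) : InHull M U S := by
  intro P θ hθ
  have he : ∀ᶠ j in (l : Filter α), ∀ p ∈ P, ‖⟪p.1, (S - T j) p.2⟫_ℂ‖ < θ / 2 := by
    refine (Finset.eventually_all P).2 fun p _ => ?_
    have h1 := (tendsto_inner_wLim (hS p.2) p.1).const_sub ⟪p.1, S p.2⟫_ℂ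
    rw [sub_self] at h1
    have h2 := h1.norm
    rw [norm_zero] at h2
    refine (h2.eventually_lt_const (half_pos hθ)).mono fun j hj => ?_
    simpa [inner_sub_right] using hj
  obtain ⟨j, hj⟩ := he.exists
  obtain ⟨n, c, hc, hb⟩ := h j P (θ / 2) (half_pos hθ)
  refine ⟨n, c, hc, fun p hp => ?_⟩
  rw [show S - colMap U c 1 = (S - T j) + (T j - colMap U c 1) by abel, add_apply,
    inner_add_right]
  linarith [norm_add_le ⟪p.1, (S - T j) p.2⟫_ℂ ⟪p.1, (T j - colMap U c 1) p.2⟫_ℂ, hj p hp,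
    hb p hp]

lemma InHull.norm_sub_one {U : (H →L[ℂ] H)} (hU : U ∈ unitary (H →L[ℂ] H)) {T : (H →L[ℂ] H)} (hT : InHull M U T) :
    ‖T - 1‖ ≤ 2 * ‖U - 1‖ := by
  refine ContinuousLinearMap.opNorm_le_bound _ (by positivity) fun v => ?_
  rcases (norm_nonneg ((T - 1) v)).eq_or_lt with h0 | h0
  · rw [← h0]; positivity
  refine le_of_mul_le_mul_left (le_of_forall_pos_le_add fun θ hθ => ?_) h0
  obtain ⟨n, c, hc, hb⟩ := hT {((T - 1) v, v)} θ hθ
  have h1 : ‖⟪(T - 1) v, (T - colMap U c 1) v⟫_ℂ‖ < θ := hb _ (Finset.mem_singleton_self _)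
  have h2 : ‖⟪(T - 1) v, (colMap U c 1 - 1) v⟫_ℂ‖ ≤
      ‖(T - 1) v‖ * (2 * ‖U - 1‖ * ‖v‖) :=
    (norm_inner_le_norm _ _).trans (mul_le_mul_of_nonneg_left
      ((colMap U c 1 - 1).le_of_opNorm_le (norm_twist_sub_one hU hc) v) (norm_nonneg _))
  have h3 : ‖(T - 1) v‖ * ‖(T - 1) v‖ =
      ‖⟪(T - 1) v, (T - colMap U c 1) v + (colMap U c 1 - 1) v⟫_ℂ‖ := by
    rw [← add_apply, sub_add_sub_cancel, inner_self_eq_norm_sq_to_K, norm_pow, RCLike.norm_ofReal,
      abs_norm, sq]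
  rw [h3, inner_add_right]
  linarith [norm_add_le ⟪(T - 1) v, (T - colMap U c 1) v⟫_ℂ ⟪(T - 1) v, (colMap U c 1 - 1) v⟫_ℂ]

lemma InHull.exists_near {U : (H →L[ℂ] H)} (hU : U ∈ unitary (H →L[ℂ] H)) {ε : ℝ} (hε : 0 ≤ ε) (hN : NearInto U M ε) {T : (H →L[ℂ] H)}
    (hT : InHull M U T) : ∃ y ∈ M, ‖T - y‖ ≤ ε := by
  classical
  choose n c hc hb using fun q : Finset (H × H) × ℕ => hT q.1 (1 / (q.2 + 1)) (by positivity)
  choose y hy hyb using fun q => exists_near_twist hε hN (hc q)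
  have hby : ∀ q, ‖y q‖ ≤ ε + 2 * ‖U - 1‖ + 1 := fun q => by
    have e : y q = -(colMap U (c q) 1 - y q) + ((colMap U (c q) 1 - 1) + 1) := by abel
    rw [e]
    refine (norm_add_le _ _).trans ?_
    rw [norm_neg]
    have h1 : ‖(1 : (H →L[ℂ] H))‖ ≤ 1 := ContinuousLinearMap.norm_id_le
    linarith [hyb q, norm_add_le (colMap U (c q) 1 - 1) (1 : (H →L[ℂ] H)), norm_twist_sub_one hU (hc q), h1]
  let l := Ultrafilter.of (atTop : Filter (Finset (H × H) × ℕ))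
  obtain ⟨S, -, hS⟩ := exists_op_wLim l y (by positivity) hby
  refine ⟨S, mem_of_wLim hS hy, ContinuousLinearMap.opNorm_le_bound _ hε fun v => ?_⟩
  have hT' : WLim l (fun q => colMap U (c q) 1 v) (T v) := by
    intro w
    refine Tendsto.mono_left ?_ (Ultrafilter.of_le _)
    rw [Metric.tendsto_atTop]
    intro θ hθ
    obtain ⟨k, hk⟩ := exists_nat_one_div_lt hθ
    refine ⟨({(w, v)}, k), fun q hq => ?_⟩
    have h1 : ‖⟪w, (T - colMap U (c q) 1) v⟫_ℂ‖ < 1 / ((q.2 : ℝ) + 1) :=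
      hb q (w, v) (hq.1 (Finset.mem_singleton_self _))
    have h2 : 1 / ((q.2 : ℝ) + 1) ≤ 1 / ((k : ℝ) + 1) := by
      gcongr; exact hq.2
    rw [dist_eq_norm, ← inner_sub_left, ← norm_inner_symm, ← neg_sub, inner_neg_right, norm_neg,
      ← sub_apply]
    linarith
  have h := (hT'.sub (hS v)).norm_le (C := ε * ‖v‖) (.of_forall fun q => by
    rw [← sub_apply]; exact (colMap U (c q) 1 - y q).le_of_opNorm_le (hyb q) v)
  rwa [← sub_apply] at h

end Vale.Agent.P096.AT
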