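import Vale.Agent.P096.MatClose
import Vale.Agent.P096.Linear.Defs
import Vale.Agent.P132.Setup
import Vale.Agent.P132.Tomita.Main

/-!
# P096, algebras of every type: setting and module interfaces

The proof is in `Vale/Agent/P096/ALLTYPES_PROOF.md`. A gauge is a cyclic separating vector with an
increasing sequence of finite groups of centralised unitaries whose relative commutant is the
centre. With a gauge inside the nearby algebra the modular flows are uniformly close, and the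
linear selection comes from finite algebras.

The `...Out` propositions are proved in their own modules; none is assumed by the final theorem.
-/

noncomputable section

namespace Vale.Agent.P096.AT

open scoped InnerProductSpace
open Filter Topology
open Vale.Agent.P132
open Vale.Agent.P104.Sim (MatContraction)

universe u

variable {H : Type u} [NormedAddCommGroup H] [InnerProductSpace ℂ H] [CompleteSpace H]

/-- `M` and `N` are `d` near at all matrix sizes, also for the commutants. -/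
structure Near (M N : VonNeumannAlgebra H) (d : ℝ) : Prop where
  nonneg : 0 ≤ d
  fwd : MatWithin M N d
  bwd : MatWithin N M d
  fwd' : MatWithin M.commutant N.commutant d
  bwd' : MatWithin N.commutant M.commutant d

/-- `T A T*` is `ε` near `M` for the matrices over `M`. -/
def NearInto (T : (H →L[ℂ] H)) (M : VonNeumannAlgebra H) (ε : ℝ) : Prop :=
  ∀ (n : ℕ) (X : Fin n → Fin n → (H →L[ℂ] H)), (∀ i j, X i j ∈ M) → MatContraction X →
    ∃ Y : Fin n → Fin n → (H →L[ℂ] H), (∀ i j, Y i j ∈ M) ∧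
      ∀ v : Fin n → H, ∑ i, ‖∑ j, (T * X i j * star T - Y i j) (v j)‖ ^ 2 ≤ ε ^ 2 * ∑ j, ‖v j‖ ^ 2

/-- A gauge: centralised finite groups with relative commutant the centre. -/
structure Gauge (M : VonNeumannAlgebra H) (ξ : H) (G : ℕ → Finset (H →L[ℂ] H)) : Prop where
  cs : Tomita.CycSep M ξ
  one_mem : ∀ n, (1 : (H →L[ℂ] H)) ∈ G n
  mul_mem : ∀ n, ∀ g ∈ G n, ∀ h ∈ G n, g * h ∈ G n
  star_mem : ∀ n, ∀ g ∈ G n, star g ∈ G n
  mono : ∀ n, ∀ g ∈ G n, g ∈ G (n + 1)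
  mem : ∀ n, ∀ g ∈ G n, g ∈ M
  unit : ∀ n, ∀ g ∈ G n, star g * g = 1 ∧ g * star g = 1
  cent : ∀ n, ∀ g ∈ G n, ∀ y ∈ M, ⟪ξ, g (y ξ)⟫_ℂ = ⟪ξ, y (g ξ)⟫_ℂ
  irred : ∀ x ∈ M, (∀ n, ∀ g ∈ G n, g * x = x * g) → x ∈ M.commutant
  central : ∀ z ∈ M, z ∈ M.commutant → ∀ T : (H →L[ℂ] H),
    (∀ n, ∀ g ∈ G n, g * T = T * g) → z * T = T * z

/-- `g` on the left and on the right. -/
def right (M : VonNeumannAlgebra H) (ξ : H) (g : (H →L[ℂ] H)) : (H →L[ℂ] H) := Tomita.Jconj M ξ g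

/-- The groups lie in `N` and their right multiplications in the commutant of `N`. -/
def InN (M : VonNeumannAlgebra H) (ξ : H) (N : VonNeumannAlgebra H) (G : ℕ → Finset (H →L[ℂ] H)) : Prop :=
  ∀ n, ∀ g ∈ G n, g ∈ N ∧ right M ξ g ∈ N.commutant

/-- A pair with a gauge inside both algebras. -/
structure Pair (M N : VonNeumannAlgebra H) (ξ : H) (G : ℕ → Finset (H →L[ℂ] H)) (d : ℝ) : Prop where
  gauge : Gauge M ξ G
  near : Near M N d
  inN : InN M ξ N G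

/-- Matrix units of `M` of arbitrarily large size in the double commutant of the groups. -/
def Equi (M : VonNeumannAlgebra H) (G : ℕ → Finset (H →L[ℂ] H)) : Prop :=
  ∀ k : ℕ, ∃ m, k < m ∧ ∃ e : Fin m → Fin m → (H →L[ℂ] H), Vale.Agent.P104.Sim.IsUnits M e ∧
    ∀ i j, ∀ T : (H →L[ℂ] H), (∀ n, ∀ g ∈ G n, g * T = T * g) → e i j * T = T * e i j

/-- The commutation with the groups and their right multiplications, and the fixed vector. -/
def Fixes (M : VonNeumannAlgebra H) (ξ : H) (G : ℕ → Finset (H →L[ℂ] H)) (T : (H →L[ℂ] H)) : Prop :=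
  (∀ n, ∀ g ∈ G n, g * T = T * g ∧ right M ξ g * T = T * right M ξ g) ∧ T ξ = ξ ∧ star T ξ = ξ

/-- The average of `x` over a finite group. -/
def avg (S : Finset (H →L[ℂ] H)) (x : (H →L[ℂ] H)) : (H →L[ℂ] H) := ((S.card : ℂ))⁻¹ • ∑ g ∈ S, g * x * star g

/-- The logistic function of the modular operator at shift `c`, in terms of `R`. -/
def logi (c : ℝ) (r : ℝ) : ℝ := r / (r + Real.exp c * (2 - r))

/-- A linear map `T` to `N` near the inclusion of `M` is obtained from one from `M₁` to `N₁`. -/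
def Transfer {H₁ : Type u} [NormedAddCommGroup H₁] [InnerProductSpace ℂ H₁] [CompleteSpace H₁]
    (M N : VonNeumannAlgebra H) (M₁ N₁ : VonNeumannAlgebra H₁) (r : ℝ) : Prop :=
  ∀ (η : ℝ) (T₁ : (H₁ →L[ℂ] H₁) → (H₁ →L[ℂ] H₁)), 0 ≤ η →
    Linear.IsNearMap (Linear.carrierSet M₁) (Linear.carrierSet N₁) η T₁ →
    ∃ T, Linear.IsNearMap (Linear.carrierSet M) (Linear.carrierSet N) (8 * η + r) T

/-! ## General facts on a gauge -/

/-- (A1) a centralised unitary: its right multiplication and the induced symmetries. -/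
def CentOut : Prop :=
  ∀ (H : Type u) [NormedAddCommGroup H] [InnerProductSpace ℂ H] [CompleteSpace H]
    (M : VonNeumannAlgebra H) (ξ : H) (g : H →L[ℂ] H), Tomita.CycSep M ξ → g ∈ M →
    star g * g = 1 → g * star g = 1 → (∀ y ∈ M, ⟪ξ, g (y ξ)⟫_ℂ = ⟪ξ, y (g ξ)⟫_ℂ) →
    right M ξ g ∈ M.commutant ∧ right M ξ g ξ = star g ξ ∧ g (right M ξ g ξ) = ξ ∧
      (∀ v, Tomita.proj M ξ (g (right M ξ g v)) = g (right M ξ g (Tomita.proj M ξ v))) ∧
      (∀ t, g * Tomita.U M ξ t = Tomita.U M ξ t * g) ∧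
      (∀ t, right M ξ g * Tomita.U M ξ t = Tomita.U M ξ t * right M ξ g)

/-- (A2) the averages converge strongly to a central element. -/
def AvgOut : Prop :=
  ∀ (H : Type u) [NormedAddCommGroup H] [InnerProductSpace ℂ H] [CompleteSpace H]
    (M : VonNeumannAlgebra H) (ξ : H) (G : ℕ → Finset (H →L[ℂ] H)), Gauge M ξ G →
    ∀ x ∈ M, ∃ z ∈ M, z ∈ M.commutant ∧ ‖z‖ ≤ ‖x‖ ∧ ⟪ξ, z ξ⟫_ℂ = ⟪ξ, x ξ⟫_ℂ ∧
      ∀ v, Tendsto (fun n => avg (G n) x v) atTop (𝓝 (z v))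

/-- (A3) a gauge inside a nearby algebra is a gauge of it, with the same centre and right legs. -/
def NearGaugeOut : Prop :=
  ∃ d₀ : ℝ, 0 < d₀ ∧ ∀ (H : Type u) [NormedAddCommGroup H] [InnerProductSpace ℂ H] [CompleteSpace H]
    (M N : VonNeumannAlgebra H) (ξ : H) (G : ℕ → Finset (H →L[ℂ] H)) (d : ℝ),
    Pair M N ξ G d → d ≤ d₀ →
    Gauge N ξ G ∧ (∀ z, (z ∈ M ∧ z ∈ M.commutant) ↔ (z ∈ N ∧ z ∈ N.commutant)) ∧
      ∀ n, ∀ g ∈ G n, right N ξ g = right M ξ g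

/-! ## The uniform closeness of the modular flows -/

/-- The groups `S n` flatten the squares of self-adjoint elements up to the factor `L`, on pieces
central in both algebras and after cutting by projections tending to one. -/
structure Balanced (M N : VonNeumannAlgebra H) (ξ : H) (S : ℕ → Finset (H →L[ℂ] H)) (L : ℝ) : Prop where
  csM : Tomita.CycSep M ξ
  csN : Tomita.CycSep N ξ
  one_mem : ∀ n, (1 : (H →L[ℂ] H)) ∈ S n
  mul_mem : ∀ n, ∀ g ∈ S n, ∀ h ∈ S n, g * h ∈ S n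
  star_mem : ∀ n, ∀ g ∈ S n, star g ∈ S n
  mem : ∀ n, ∀ g ∈ S n, g ∈ M ∧ star g * g = 1 ∧ g * star g = 1
  fix : ∀ n, ∀ g ∈ S n, right M ξ g ∈ M.commutant ∧ g (right M ξ g ξ) = ξ
  sym : ∀ n, ∀ g ∈ S n, ∀ v,
    Tomita.proj N ξ (g (right M ξ g v)) = g (right M ξ g (Tomita.proj N ξ v))
  flat : ∀ a ∈ M, IsSelfAdjoint a → ∀ η : ℝ, 0 < η → ∃ (Z : Finset (H →L[ℂ] H)) (q : ℕ → (H →L[ℂ] H)),
    (∀ z ∈ Z, IsStarProjection z ∧ z ∈ M ∧ z ∈ M.commutant ∧ z ∈ N ∧ z ∈ N.commutant) ∧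
    (∀ z ∈ Z, ∀ w ∈ Z, z ≠ w → z * w = 0) ∧ ∑ z ∈ Z, z = 1 ∧
    (∀ n, IsStarProjection (q n) ∧ q n ∈ M ∧ ∀ g ∈ S n, g * q n = q n * g) ∧
    (∀ v, Tendsto (fun n => q n v) atTop (𝓝 v)) ∧
    ∀ n, ∀ z ∈ Z, ‖z * q n * avg (S n) (a * a) * q n‖ * ‖z ξ‖ ^ 2 ≤
      L * ‖a (z ξ)‖ ^ 2 + η * ‖z ξ‖ ^ 2

/-- (B1) balanced groups make the projection of the nearby algebra nearly fix the real subspace. -/
def GapOut : Prop :=
  ∀ L : ℝ, 0 ≤ L → ∃ k : ℝ, 0 < k ∧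
    ∀ (H : Type u) [NormedAddCommGroup H] [InnerProductSpace ℂ H] [CompleteSpace H]
      (M N : VonNeumannAlgebra H) (ξ : H) (S : ℕ → Finset (H →L[ℂ] H)) (d : ℝ),
      Balanced M N ξ S L → 0 ≤ d → (∀ x ∈ M, ∃ n ∈ N, ‖n - x‖ ≤ d * ‖x‖) →
      ∀ v, ‖Tomita.proj N ξ (Tomita.proj M ξ v) - Tomita.proj M ξ v‖ ≤ k * d * ‖v‖

/-- (B1') a gauge inside both algebras balances each against the other. -/
def BalancedOut : Prop :=
  ∃ d₀ : ℝ, 0 < d₀ ∧ ∀ (H : Type u) [NormedAddCommGroup H] [InnerProductSpace ℂ H] [CompleteSpace H]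
    (M N : VonNeumannAlgebra H) (ξ : H) (G : ℕ → Finset (H →L[ℂ] H)) (d : ℝ),
    Pair M N ξ G d → d ≤ d₀ → Balanced M N ξ G 1 ∧ Balanced N M ξ G 1

/-- (B2) the logistic functions of the modular operators are close at every shift. -/
def ScaleOut : Prop :=
  ∃ k d₀ : ℝ, 0 < k ∧ 0 < d₀ ∧
    ∀ (H : Type u) [NormedAddCommGroup H] [InnerProductSpace ℂ H] [CompleteSpace H]
      (M N : VonNeumannAlgebra H) (ξ : H) (G : ℕ → Finset (H →L[ℂ] H)) (d : ℝ),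
      Pair M N ξ G d → d ≤ d₀ → ∀ c : ℝ,
      ‖Tomita.fR M ξ (fun r => (logi c r : ℂ)) - Tomita.fR N ξ (fun r => (logi c r : ℂ))‖ ≤ k * d

/-- (B3) rigidity: a near automorphism near one which fixes the gauge is very near one. -/
def RigidOut : Prop :=
  ∃ k η₀ : ℝ, 0 < k ∧ 0 < η₀ ∧
    ∀ (H : Type u) [NormedAddCommGroup H] [InnerProductSpace ℂ H] [CompleteSpace H]
      (M : VonNeumannAlgebra H) (ξ : H) (G : ℕ → Finset (H →L[ℂ] H)) (U : H →L[ℂ] H) (ε : ℝ),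
      Gauge M ξ G → U ∈ unitary (H →L[ℂ] H) → Fixes M ξ G U → ‖U - 1‖ ≤ η₀ → 0 ≤ ε →
      NearInto U M ε → ‖U - 1‖ ≤ k * ε

/-- (B4) the averaged intertwiners of the two flows. -/
def MeansOut : Prop :=
  ∀ η : ℝ, 0 < η → ∃ δ : ℝ, 0 < δ ∧
    ∀ (H : Type u) [NormedAddCommGroup H] [InnerProductSpace ℂ H] [CompleteSpace H]
      (M N : VonNeumannAlgebra H) (ξ : H) (G : ℕ → Finset (H →L[ℂ] H)) (d : ℝ),
      Pair M N ξ G d → d ≤ δ →
      ∃ T : ℕ → (H →L[ℂ] H),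
        (∀ k, Fixes M ξ G (T k) ∧ ‖T k‖ ≤ 1 ∧ ‖star (T k) * T k - 1‖ ≤ η ∧
          ‖T k * star (T k) - 1‖ ≤ η ∧ NearInto (T k) M η ∧ NearInto (star (T k)) M η ∧
          ‖T (k + 1) - T k‖ ≤ η) ∧
        (∀ v, Tendsto (fun k => T k v) atTop (𝓝 v)) ∧
        ∀ s : ℝ, |s| ≤ 1 → ‖Tomita.U N ξ s * T 0 * Tomita.U M ξ (-s) - T 0‖ ≤ η

/-- (B) the modular flows are uniformly close. -/
def FlowOut : Prop :=
  ∀ η : ℝ, 0 < η → ∃ δ : ℝ, 0 < δ ∧
    ∀ (H : Type u) [NormedAddCommGroup H] [InnerProductSpace ℂ H] [CompleteSpace H]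
      (M N : VonNeumannAlgebra H) (ξ : H) (G : ℕ → Finset (H →L[ℂ] H)) (d : ℝ),
      Pair M N ξ G d → d ≤ δ → ∀ t : ℝ, ‖Tomita.U N ξ t - Tomita.U M ξ t‖ ≤ η

/-! ## The selection -/

/-- (C) a linear selection for a pair with a gauge. -/
def SelectionOut : Prop :=
  ∀ η : ℝ, 0 < η → ∃ δ : ℝ, 0 < δ ∧
    ∀ (H : Type u) [NormedAddCommGroup H] [InnerProductSpace ℂ H] [CompleteSpace H]
      [TopologicalSpace.SeparableSpace H]
      (M N : VonNeumannAlgebra H) (ξ : H) (G : ℕ → Finset (H →L[ℂ] H)) (d : ℝ),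
      Pair M N ξ G d → Equi M G → d ≤ δ →
      ∃ T, Linear.IsNearMap (Linear.carrierSet M) (Linear.carrierSet N) η T

/-! ## The gauge -/

/-- Tensor sites: commuting matrix units in product position and localisations on the first sites,
every positive rational probability vector occurring arbitrarily late. -/
structure Sites (M : VonNeumannAlgebra H) (ξ : H) where
  dim : ℕ → ℕ
  wt : (i : ℕ) → Fin (dim i) → ℝ
  u : (i : ℕ) → Fin (dim i) → Fin (dim i) → (H →L[ℂ] H)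
  E : ℕ → (H →L[ℂ] H) → (H →L[ℂ] H)
  dim_pos : ∀ i, 0 < dim i
  wt_pos : ∀ i a, 0 < wt i a
  wt_sum : ∀ i, ∑ a, wt i a = 1
  u_mem : ∀ i a b, u i a b ∈ M
  u_mul : ∀ i a b c e, u i a b * u i c e = if b = c then u i a e else 0
  u_star : ∀ i a b, star (u i a b) = u i b a
  u_one : ∀ i, ∑ a, u i a a = 1
  u_comm : ∀ i j, i ≠ j → ∀ a b c e, u i a b * u j c e = u j c e * u i a b
  product : ∀ i, ∀ Z ∈ M, (∀ a b, Z * u i a b = u i a b * Z) →
    ∀ a b, ⟪ξ, Z (u i a b ξ)⟫_ℂ = if a = b then (wt i a : ℂ) * ⟪ξ, Z ξ⟫_ℂ else 0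
  rich : ∀ (m : ℕ) (ρ : Fin m → ℚ), (∀ a, 0 < ρ a) → ∑ a, ρ a = 1 → ∀ N, ∃ i, N ≤ i ∧
    ∃ h : dim i = m, ∀ a, wt i a = (ρ (Fin.cast h a) : ℝ)
  E_mem : ∀ n, ∀ x ∈ M, E n x ∈ M
  E_add : ∀ n, ∀ x ∈ M, ∀ y ∈ M, E n (x + y) = E n x + E n y
  E_smul : ∀ n (c : ℂ), ∀ x ∈ M, E n (c • x) = c • E n x
  E_star : ∀ n, ∀ x ∈ M, E n (star x) = star (E n x)
  E_comm : ∀ n i, n ≤ i → ∀ x ∈ M, ∀ a b, E n x * u i a b = u i a b * E n x
  E_mul : ∀ n i, i < n → ∀ x ∈ M, ∀ a b, E n (u i a b * x) = u i a b * E n x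
  E_matBound : ∀ n (m : ℕ) (e : Fin m → Fin m → (H →L[ℂ] H)) (K : ℝ), (∀ a b, e a b ∈ M) →
    _root_.P132.MatBound e K → _root_.P132.MatBound (fun a b => E n (e a b)) K
  E_flow : ∀ n t, ∀ x ∈ M, E n (Tomita.U M ξ t * x * Tomita.U M ξ (-t)) =
    Tomita.U M ξ t * E n x * Tomita.U M ξ (-t)
  E_tendsto : ∀ x ∈ M, ∀ v, Tendsto (fun n => E n x v) atTop (𝓝 (x v))

/-- (D1) with sites the bicentralizer is the centre. -/
def BicentralOut : Prop :=
  ∀ (H : Type u) [NormedAddCommGroup H] [InnerProductSpace ℂ H] [CompleteSpace H]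
    (M : VonNeumannAlgebra H) (ξ : H), Tomita.CycSep M ξ → Nonempty (Sites M ξ) →
    ∀ x ∈ _root_.P132.bicentralizer M (fun y => ⟪ξ, y ξ⟫_ℂ), x ∈ M.commutant

/-- (D2) sites give a gauge for some vector. -/
def GaugeConsOut : Prop :=
  ∀ (H : Type u) [NormedAddCommGroup H] [InnerProductSpace ℂ H] [CompleteSpace H]
    [TopologicalSpace.SeparableSpace H] (M : VonNeumannAlgebra H) (ξ : H), Tomita.CycSep M ξ →
    Nonempty (Sites M ξ) →
    ∃ (ξ' : H) (G : ℕ → Finset (H →L[ℂ] H)), Gauge M ξ' G ∧ Equi M G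

/-- (E1) amplify and compress to a standard form. -/
def StandardOut : Prop :=
  ∀ r : ℝ, 0 < r → ∃ δ : ℝ, 0 < δ ∧
    ∀ (H : Type u) [NormedAddCommGroup H] [InnerProductSpace ℂ H] [CompleteSpace H]
      [TopologicalSpace.SeparableSpace H] [Nontrivial H] (M N : VonNeumannAlgebra H),
      kkDist M N < δ →
      ∃ (H₁ : Type u) (_ : NormedAddCommGroup H₁) (_ : InnerProductSpace ℂ H₁)
        (_ : CompleteSpace H₁) (_ : TopologicalSpace.SeparableSpace H₁)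
        (M₁ N₁ : VonNeumannAlgebra H₁) (ξ : H₁),
        Tomita.CycSep M₁ ξ ∧ Near M₁ N₁ r ∧ Transfer M N M₁ N₁ r

/-- (E2) tensor with the sites. -/
def AbsorbOut : Prop :=
  ∀ r : ℝ, 0 < r → ∃ δ : ℝ, 0 < δ ∧
    ∀ (H : Type u) [NormedAddCommGroup H] [InnerProductSpace ℂ H] [CompleteSpace H]
      [TopologicalSpace.SeparableSpace H] (M N : VonNeumannAlgebra H) (ξ : H),
      Tomita.CycSep M ξ → Near M N δ →
      ∃ (H₁ : Type u) (_ : NormedAddCommGroup H₁) (_ : InnerProductSpace ℂ H₁)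
        (_ : CompleteSpace H₁) (_ : TopologicalSpace.SeparableSpace H₁)
        (M₁ N₁ : VonNeumannAlgebra H₁) (ξ₁ : H₁),
        Tomita.CycSep M₁ ξ₁ ∧ Nonempty (Sites M₁ ξ₁) ∧ Near M₁ N₁ r ∧ Transfer M N M₁ N₁ r

/-- (E3) rotate a gauge into the nearby algebra. -/
def AlignOut : Prop :=
  ∀ r : ℝ, 0 < r → ∃ δ : ℝ, 0 < δ ∧
    ∀ (H : Type u) [NormedAddCommGroup H] [InnerProductSpace ℂ H] [CompleteSpace H]
      (M N : VonNeumannAlgebra H) (ξ : H) (G : ℕ → Finset (H →L[ℂ] H)),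
      Gauge M ξ G → Near M N δ →
      ∃ N₁ : VonNeumannAlgebra H, Pair M N₁ ξ G r ∧ Transfer M N M N₁ r

/-- Linear selection on separable spaces. -/
def LinearSelectionSep : Prop :=
  ∀ ε : ℝ, 0 < ε → ∃ δ : ℝ, 0 < δ ∧
    ∀ (H : Type u) [NormedAddCommGroup H] [InnerProductSpace ℂ H] [CompleteSpace H]
      [TopologicalSpace.SeparableSpace H] (M N : VonNeumannAlgebra H), kkDist M N < δ →
      ∃ T, Linear.IsNearMap (Linear.carrierSet M) (Linear.carrierSet N) ε T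

end Vale.Agent.P096.AT
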