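import Vale.Agent.P096.AT.Setting
import Vale.Agent.P132.Smooth
import Vale.Agent.P132.Sigma
import Vale.Agent.P132.Tomita.Modular
import Vale.Agent.P132.BasicAlg

/-!
# P096, all types: matrix units of the sites

The units of a site scale the state, hence the modular automorphisms, by the ratios of the weights.
A matrix over `M` commuting with a site becomes an element of `M`, with the same norm and the same
Lipschitz constant for the modular group.
-/

noncomputable section

namespace Vale.Agent.P096.AT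

open Filter Topology Complex MeasureTheory
open Vale.Agent.P132
open scoped InnerProductSpace
open _root_.P132 (Std Modular MatBound MatLip ampσ)

universe u

variable {H : Type u} [NormedAddCommGroup H] [InnerProductSpace ℂ H] [CompleteSpace H]

/-- The standard form of a cyclic separating unit vector. -/
def stdOf {M : VonNeumannAlgebra H} {ξ : H} (h : Tomita.CycSep M ξ) : Std H where
  M := M
  Ω := ξ
  norm_Ω := h.norm_one
  cyclic := by simpa only [Set.image, SetLike.mem_coe] using h.cyclic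
  separating := h.separating

section Tools

variable {S : Std H} (D : Modular S)

lemma φ_σ (t : ℝ) (x : H →L[ℂ] H) : S.φ (D.σ t x) = S.φ x := by
  rw [Std.φ, D.σ_apply_Ω]
  nth_rw 1 [← D.U_Ω t]
  rw [D.inner_U]
  rfl

omit D in
lemma φ_sum {ι : Type*} (s : Finset ι) (g : ι → H →L[ℂ] H) :
    S.φ (∑ a ∈ s, g a) = ∑ a ∈ s, S.φ (g a) := by simp [Std.φ]

lemma σ_mul (t : ℝ) (x y : H →L[ℂ] H) : D.σ t (x * y) = D.σ t x * D.σ t y := by
  simp only [Modular.σ, mul_assoc]
  rw [← mul_assoc (D.U (-t)) (D.U t), D.U_neg_mul, one_mul]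

/-- An element which scales the state by `exp c` is scaled by the modular automorphisms. -/
theorem smooth_eigen {x : H →L[ℂ] H} (hx : x ∈ S.M) {c : ℝ}
    (hxy : ∀ y ∈ S.M, S.φ (x * y) = Real.exp c * S.φ (y * x)) {m : ℝ} (hm : 0 < m) (t : ℝ) :
    D.σ t (D.smooth m x) = cexp (I * (c * t : ℝ)) • D.smooth m x := by
  set F : ℂ → H →L[ℂ] H := fun z => D.twist m 0 z x with hF
  have hFd : Differentiable ℂ F := D.differentiable_twist hm 0 x
  have hFM : ∀ z, F z ∈ S.M := fun z => D.twist_mem m 0 z hx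
  have hFσ : ∀ s : ℝ, F s = D.σ s (D.smooth m x) := fun s => by
    rw [Modular.smooth, D.σ_twist hm 0 s x, D.twistExt_zero_w]
  -- the scaling passes to the smoothing and its translates
  have hsm : ∀ s : ℝ, ∀ y ∈ S.M, S.φ (F s * y) = Real.exp c * S.φ (y * F s) := by
    intro s y hy
    have hg := _root_.P132.integrable_twistKernel hm 0 (s : ℂ)
    have e1 : S.φ (F s * y) = ∫ u, _root_.P132.twistKernel m 0 s u * S.φ (D.σ u x * y) := by
      simp only [hF, Std.φ, Modular.twist, mul_apply_eq_comp]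
      rw [D.smear_apply hg, ← integral_inner (D.integrable_smul_σ_apply hg x _)]
      simp only [inner_smul_right]
    have e2 : S.φ (y * F s) = ∫ u, _root_.P132.twistKernel m 0 s u * S.φ (y * D.σ u x) := by
      simp only [hF, Std.φ, Modular.twist, mul_apply_eq_comp]
      rw [D.smear_apply hg, ← ContinuousLinearMap.integral_comp_comm y
        (D.integrable_smul_σ_apply hg x _), ← integral_inner
        (y.integrable_comp (D.integrable_smul_σ_apply hg x _))]
      simp only [map_smul, inner_smul_right]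
    have e3 : ∀ u : ℝ, S.φ (D.σ u x * y) = Real.exp c * S.φ (y * D.σ u x) := fun u => by
      have e := hxy (D.σ (-u) y) (D.σ_mem' _ hy)
      rw [← φ_σ D u, σ_mul, D.σ_σ, add_neg_cancel, D.σ_zero] at e
      rw [e, ← φ_σ D u (D.σ (-u) y * x), σ_mul, D.σ_σ, add_neg_cancel, D.σ_zero]
    rw [e1, e2, ← integral_const_mul]
    refine integral_congr_ae (Eventually.of_forall fun u => ?_)
    simp only [e3]; ring
  -- `F` is periodic up to the scalar
  have hshift : ∀ s : ℝ, F (s + -I) = (Real.exp c : ℂ) • F s := by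
    intro s
    refine sub_eq_zero.1 (S.separating _ (sub_mem (hFM _) (_root_.P132.vN_smul_mem _ _ (hFM _))) ?_)
    refine S.cyclic.eq_zero_of_inner_right ℂ ?_
    rintro v ⟨y, hy, rfl⟩
    have hk := D.kms (F s) (fun z => F (s + z)) (hFd.comp (differentiable_id.const_add _))
      (fun z => hFM _) (fun u => by
        rw [← Complex.ofReal_add, hFσ, hFσ]
        change _ = D.σ u (D.σ s _)
        rw [D.σ_σ, add_comm]) (star y) (star_mem hy)
    rw [hsm s (star y) (star_mem hy), S.φ_star_mul, S.φ_star_mul] at hk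
    simp only [sub_apply, smul_apply, inner_sub_right, inner_smul_right]
    rw [← hk, sub_self]
  have hshiftC : ∀ z, F (z + -I) = (Real.exp c : ℂ) • F z := by
    intro z
    have h1 : Differentiable ℂ fun z => F (z + -I) := hFd.comp (differentiable_id.add_const _)
    have h2 : Differentiable ℂ fun z => (Real.exp c : ℂ) • F z := by
      exact fun z => (differentiableAt_const _).fun_smul (hFd z)
    refine congrFun ((h1.differentiableOn.analyticOnNhd isOpen_univ).eq_of_frequently_eq
      (h2.differentiableOn.analyticOnNhd isOpen_univ) (z₀ := 0) ?_) z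
    have htd : Tendsto (fun n : ℕ => ((1 / (n + 1) : ℝ) : ℂ)) atTop (𝓝[≠] 0) := by
      refine tendsto_nhdsWithin_iff.2 ⟨?_, Eventually.of_forall fun n => by
        simp only [Set.mem_compl_iff, Set.mem_singleton_iff, Complex.ofReal_eq_zero]; positivity⟩
      simpa [Function.comp_def] using
        ((Complex.continuous_ofReal.tendsto 0).comp tendsto_one_div_add_atTop_nhds_zero_nat)
    exact htd.frequently (Frequently.of_forall fun n => hshift _)
  set G : ℂ → H →L[ℂ] H := fun z => cexp (-(I * c * z)) • F z with hG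
  have hGd : Differentiable ℂ G :=
    (by fun_prop : Differentiable ℂ fun z : ℂ => cexp (-(I * c * z))).smul hFd
  have hGp : Function.Periodic G I := fun z => by
    have h := hshiftC (z + I)
    rw [add_neg_cancel_right] at h
    simp only [hG, h, smul_smul, Complex.ofReal_exp, ← Complex.exp_add]
    congr 2
    linear_combination (-(c : ℂ)) * I_mul_I
  have hGb : Bornology.IsBounded (Set.range G) := by
    refine isBounded_iff_forall_norm_le.2 ⟨Real.exp |c| * (Real.exp (m ^ 2) * ‖x‖), ?_⟩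
    rintro _ ⟨z, rfl⟩
    set w := z - (⌊z.im⌋ : ℂ) * I with hw
    have he : G z = G w := by
      have := (hGp.int_mul ⌊z.im⌋) w
      rw [hw, sub_add_cancel] at this
      exact this
    have h0 : 0 ≤ w.im ∧ w.im ≤ 1 := by
      simp only [hw, Complex.sub_im, Complex.mul_im, Complex.intCast_re, Complex.intCast_im,
        Complex.I_re, Complex.I_im, mul_one, mul_zero, add_zero]
      constructor <;> linarith [Int.floor_le z.im, Int.lt_floor_add_one z.im]
    rw [he, hG, norm_smul, Complex.norm_exp]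
    refine mul_le_mul (Real.exp_le_exp.2 ?_) ((D.norm_twist_le hm 0 w x).trans
      (mul_le_mul_of_nonneg_right (Real.exp_le_exp.2 ?_) (norm_nonneg _))) (norm_nonneg _)
      (Real.exp_pos _).le
    · simp only [Complex.neg_re, Complex.mul_re, Complex.mul_im, Complex.I_re, Complex.I_im,
        Complex.ofReal_re, Complex.ofReal_im]
      nlinarith [abs_nonneg c, le_abs_self c]
    · exact mul_le_of_le_one_right (sq_nonneg m) (pow_le_one₀ h0.1 h0.2)
  have hcon := hGd.apply_eq_apply_of_bounded hGb (t : ℂ) 0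
  simp only [hG, mul_zero, neg_zero, Complex.exp_zero, one_smul] at hcon
  rw [← hFσ, show D.smooth m x = F 0 from rfl, ← hcon, smul_smul, ← Complex.exp_add]
  conv_lhs => rw [← one_smul ℂ (F t), ← Complex.exp_zero]
  congr 2
  push_cast
  ring

theorem σ_eigen {x : H →L[ℂ] H} (hx : x ∈ S.M) {c : ℝ}
    (hxy : ∀ y ∈ S.M, S.φ (x * y) = Real.exp c * S.φ (y * x)) (t : ℝ) :
    D.σ t x = cexp (I * (c * t : ℝ)) • x := by
  ext v
  have h1 : Tendsto (fun n : ℕ => D.σ t (D.smooth (n + 1) x) v) atTop (𝓝 (D.σ t x v)) := by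
    simp only [D.σ_apply]
    exact ((D.U t).continuous.tendsto _).comp (D.tendsto_smooth x _)
  refine tendsto_nhds_unique h1 ?_
  simp only [smooth_eigen D hx hxy (by positivity : (0 : ℝ) < (_ : ℕ) + 1) t, smul_apply]
  exact (D.tendsto_smooth x v).const_smul _

end Tools

/-! ## One site -/

variable {M : VonNeumannAlgebra H} {ξ : H}

namespace Sites

variable (Si : Sites M ξ) (i : ℕ)

/-- `y` commutes with all units of the site `i`. -/
def CommSite (y : H →L[ℂ] H) : Prop := ∀ a b, y * Si.u i a b = Si.u i a b * y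

/-- `y` commutes with all sufficiently late sites. -/
def Loc (y : H →L[ℂ] H) : Prop := ∃ N, ∀ j, N ≤ j → Si.CommSite j y

/-- The coefficient of `u i a b` in `y`. -/
def coef (y : H →L[ℂ] H) (a b : Fin (Si.dim i)) : H →L[ℂ] H :=
  ∑ c, Si.u i c a * y * Si.u i b c

lemma coef_mem {y : H →L[ℂ] H} (hy : y ∈ M) (a b : Fin (Si.dim i)) : Si.coef i y a b ∈ M :=
  sum_mem fun c _ => mul_mem (mul_mem (Si.u_mem i c a) hy) (Si.u_mem i b c)

lemma coef_comm (y : H →L[ℂ] H) (a b : Fin (Si.dim i)) : Si.CommSite i (Si.coef i y a b) := by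
  intro c e
  simp only [coef, Finset.sum_mul, Finset.mul_sum, mul_assoc, Si.u_mul]
  simp only [← mul_assoc (Si.u i c e), Si.u_mul]
  simp [mul_ite, ite_mul]

lemma coef_expand (y : H →L[ℂ] H) : y = ∑ a, ∑ b, Si.coef i y a b * Si.u i a b := by
  have h : ∀ a b, Si.coef i y a b * Si.u i a b = Si.u i a a * y * Si.u i b b := fun a b => by
    simp only [coef, Finset.sum_mul, mul_assoc, Si.u_mul]
    simp [mul_ite]
  simp only [h, ← Finset.mul_sum, ← Finset.sum_mul, Si.u_one, one_mul, mul_one]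

lemma φ_mul_unit {S : Std H} (hM : S.M = M) (hΩ : S.Ω = ξ) {Z : H →L[ℂ] H} (hZ : Z ∈ M)
    (hc : Si.CommSite i Z) (a b : Fin (Si.dim i)) :
    S.φ (Z * Si.u i a b) = if a = b then (Si.wt i a : ℂ) * S.φ Z else 0 := by
  subst hM hΩ
  exact Si.product i Z hZ hc a b

variable (h : Tomita.CycSep M ξ)

lemma unit_scale (a b : Fin (Si.dim i)) {y : H →L[ℂ] H} (hy : y ∈ M) :
    (stdOf h).φ (Si.u i a b * y) = (Real.exp (Real.log (Si.wt i a) - Real.log (Si.wt i b)) : ℂ) *
      (stdOf h).φ (y * Si.u i a b) := by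
  have hY := fun c e => Si.φ_mul_unit i (S := stdOf h) rfl rfl (Si.coef_mem i hy c e)
    (Si.coef_comm i y c e)
  have hl : (stdOf h).φ (Si.u i a b * y) = Si.wt i a * (stdOf h).φ (Si.coef i y b a) := by
    conv_lhs => rw [Si.coef_expand i y]
    simp only [Finset.mul_sum, ← mul_assoc, ← Si.coef_comm i y _ _ a b]
    simp only [mul_assoc, Si.u_mul, mul_ite, mul_zero]
    rw [Finset.sum_eq_single b (fun c _ hc => by simp [Ne.symm hc]) (by simp)]
    simp [φ_sum, hY]
  have hr : (stdOf h).φ (y * Si.u i a b) = Si.wt i b * (stdOf h).φ (Si.coef i y b a) := by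
    conv_lhs => rw [Si.coef_expand i y]
    simp only [Finset.sum_mul, mul_assoc, Si.u_mul, mul_ite, mul_zero]
    simp [φ_sum, hY]
  rw [hl, hr, Real.exp_sub, Real.exp_log (Si.wt_pos i a), Real.exp_log (Si.wt_pos i b)]
  have := (Si.wt_pos i b).ne'
  push_cast
  have : (Si.wt i b : ℂ) ≠ 0 := by exact_mod_cast this
  field_simp

lemma σ_unit (a b : Fin (Si.dim i)) (t : ℝ) :
    (stdOf h).modular.σ t (Si.u i a b) =
      cexp (I * ((Real.log (Si.wt i a) - Real.log (Si.wt i b)) * t : ℝ)) • Si.u i a b :=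
  σ_eigen _ (S := stdOf h) (Si.u_mem i a b) (fun _ hy => Si.unit_scale i h a b hy) t

/-- The element of a matrix over the site. -/
def emb (f : Fin (Si.dim i) → Fin (Si.dim i) → H →L[ℂ] H) : H →L[ℂ] H :=
  ∑ a, ∑ b, f a b * Si.u i a b

lemma emb_mem {f : Fin (Si.dim i) → Fin (Si.dim i) → H →L[ℂ] H} (hf : ∀ a b, f a b ∈ M) :
    Si.emb i f ∈ M :=
  sum_mem fun a _ => sum_mem fun b _ => mul_mem (hf a b) (Si.u_mem i a b)

lemma norm_emb_le {f : Fin (Si.dim i) → Fin (Si.dim i) → H →L[ℂ] H} {K : ℝ} (hK : 0 ≤ K)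
    (hc : ∀ a b, Si.CommSite i (f a b)) (hf : MatBound f K) : ‖Si.emb i f‖ ≤ K := by
  refine ContinuousLinearMap.opNorm_le_bound _ hK fun v => ?_
  set o : Fin (Si.dim i) := ⟨0, Si.dim_pos i⟩
  have hin : ∀ (a b : Fin (Si.dim i)) (v w : H), ⟪Si.u i a b v, w⟫_ℂ = ⟪v, Si.u i b a w⟫_ℂ := by
    intro a b v w
    rw [← Si.u_star i a b, ContinuousLinearMap.star_eq_adjoint,
      ContinuousLinearMap.adjoint_inner_right]
  have huu : ∀ (a b c e : Fin (Si.dim i)) (v : H), Si.u i a b (Si.u i c e v) =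
      if b = c then Si.u i a e v else 0 := fun a b c e v => by
    rw [← mul_apply_eq_comp, Si.u_mul]; split_ifs <;> rfl
  -- the rows through the first unit
  have hsq : ∀ w : H, ‖w‖ ^ 2 = ∑ a, ‖Si.u i o a w‖ ^ 2 := fun w => by
    have h1 : (‖w‖ : ℂ) ^ 2 = ∑ a, (‖Si.u i o a w‖ : ℂ) ^ 2 := by
      have hw : (∑ a, Si.u i a a) w = w := by rw [Si.u_one]; rfl
      have e0 : ∀ z : H, (‖z‖ : ℂ) ^ 2 = ⟪z, z⟫_ℂ := fun z => (inner_self_eq_norm_sq_to_K z).symm
      simp only [e0, hin, huu, if_pos]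
      rw [← inner_sum, ← Finset.sum_apply, ← FunLike.coe_sum, hw]
    exact_mod_cast h1
  have hrow : ∀ a, Si.u i o a (Si.emb i f v) = ∑ b, f a b (Si.u i o b v) := fun a => by
    simp only [emb, sum_apply, _root_.map_sum, mul_apply_eq_comp]
    rw [Finset.sum_eq_single a (fun c _ hca => Finset.sum_eq_zero fun b _ => by
      rw [← mul_apply_eq_comp (Si.u i o a) (f c b), ← hc c b, mul_apply_eq_comp, huu,
        if_neg (Ne.symm hca), map_zero]) (by simp)]
    refine Finset.sum_congr rfl fun b _ => ?_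
    rw [← mul_apply_eq_comp (Si.u i o a) (f a b), ← hc a b, mul_apply_eq_comp, huu, if_pos rfl]
  refine (pow_le_pow_iff_left₀ (norm_nonneg _) (by positivity) two_ne_zero).1 ?_
  rw [mul_pow, hsq (Si.emb i f v), hsq v]
  simp only [hrow]
  exact hf fun b => Si.u i o b v

lemma σ_emb {f : Fin (Si.dim i) → Fin (Si.dim i) → H →L[ℂ] H} (t : ℝ) :
    (stdOf h).modular.σ t (Si.emb i f) =
      Si.emb i (ampσ (stdOf h).modular (fun a => Real.log (Si.wt i a)) t f) := by
  have hadd : ∀ (s : Finset (Fin (Si.dim i))) (g : Fin (Si.dim i) → H →L[ℂ] H),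
      (stdOf h).modular.σ t (∑ a ∈ s, g a) = ∑ a ∈ s, (stdOf h).modular.σ t (g a) := fun s g => by
    simp only [Modular.σ, Finset.mul_sum, Finset.sum_mul]
  simp only [emb, hadd, σ_mul, Si.σ_unit i h, ampσ, mul_smul_comm, smul_mul_assoc]

lemma σ_comm {f : H →L[ℂ] H} (hf : Si.CommSite i f) (t : ℝ) :
    Si.CommSite i ((stdOf h).modular.σ t f) := by
  intro a b
  have e := congrArg ((stdOf h).modular.σ t) (hf a b)
  rw [σ_mul, σ_mul, Si.σ_unit i h, mul_smul_comm, smul_mul_assoc] at e
  exact (smul_right_injective _ (Complex.exp_ne_zero _)) e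

/-- The Lipschitz constant passes to the element of the matrix. -/
lemma lip_emb {f : Fin (Si.dim i) → Fin (Si.dim i) → H →L[ℂ] H} {η : ℝ} (hη : 0 ≤ η)
    (hc : ∀ a b, Si.CommSite i (f a b))
    (hf : MatLip (stdOf h).modular (fun a => Real.log (Si.wt i a)) f η) (t : ℝ) :
    ‖(stdOf h).modular.σ t (Si.emb i f) - Si.emb i f‖ ≤ η * |t| := by
  rw [Si.σ_emb i h]
  have e : Si.emb i (ampσ (stdOf h).modular (fun a => Real.log (Si.wt i a)) t f) - Si.emb i f =
      Si.emb i fun a b => ampσ (stdOf h).modular (fun a => Real.log (Si.wt i a)) t f a b - f a b := by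
    simp only [emb, sub_mul, Finset.sum_sub_distrib]
  rw [e]
  refine Si.norm_emb_le i (mul_nonneg hη (abs_nonneg t)) (fun a b c e' => ?_) (hf t)
  simp only [sub_mul, mul_sub, ampσ, smul_mul_assoc, mul_smul_comm,
    Si.σ_comm i h (hc a b) t c e', hc a b c e']

include h in
/-- The norm of the element of a matrix on the vector. -/
lemma norm_emb_apply {f : Fin (Si.dim i) → Fin (Si.dim i) → H →L[ℂ] H} (hf : ∀ a b, f a b ∈ M)
    (hc : ∀ a b, Si.CommSite i (f a b)) :
    ‖Si.emb i f ξ‖ ^ 2 = ∑ a, ∑ b, Si.wt i b * ‖f a b ξ‖ ^ 2 := by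
  have key : ∀ a b c e, ⟪f a b (Si.u i a b ξ), f c e (Si.u i c e ξ)⟫_ℂ =
      if a = c ∧ b = e then (Si.wt i b * ‖f a b ξ‖ ^ 2 : ℝ) else 0 := by
    intro a b c e
    have hsc : Si.CommSite i (star (f a b)) := fun p q => by
      have := congrArg star (hc a b q p)
      simpa [Si.u_star] using this.symm
    have e1 : star (f a b * Si.u i a b) * (f c e * Si.u i c e) =
        star (f a b) * f c e * (Si.u i b a * Si.u i c e) := by
      rw [star_mul, Si.u_star, ← hsc b a, mul_assoc, ← mul_assoc (Si.u i b a), ← hc c e b a]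
      simp only [mul_assoc]
    have e2 := (stdOf h).φ_star_mul (f a b * Si.u i a b) (f c e * Si.u i c e)
    rw [e1, Si.u_mul] at e2
    have hcm : Si.CommSite i (star (f a b) * f c e) := fun p q => by
      rw [mul_assoc, hc c e p q, ← mul_assoc, hsc p q, mul_assoc]
    refine e2.symm.trans ?_
    by_cases hac : a = c
    · subst hac
      rw [if_pos rfl, Si.φ_mul_unit i rfl rfl (mul_mem (star_mem (hf a b)) (hf a e)) hcm]
      by_cases hbe : b = e
      · subst hbe
        rw [if_pos rfl, if_pos ⟨rfl, rfl⟩, (stdOf h).φ_star_mul, inner_self_eq_norm_sq_to_K]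
        simp [stdOf]
      · rw [if_neg hbe, if_neg fun hh => hbe hh.2, Complex.ofReal_zero]
    · simp [hac, Std.φ]
  have e : (‖Si.emb i f ξ‖ ^ 2 : ℂ) = ((∑ a, ∑ b, Si.wt i b * ‖f a b ξ‖ ^ 2 : ℝ) : ℂ) := by
    refine (inner_self_eq_norm_sq_to_K (𝕜 := ℂ) (Si.emb i f ξ)).symm.trans ?_
    simp only [emb, sum_apply, mul_apply_eq_comp, sum_inner, inner_sum, key]
    push_cast
    refine Finset.sum_congr rfl fun a _ => Finset.sum_congr rfl fun b _ => ?_
    rw [Finset.sum_eq_single a (fun c _ hc => Finset.sum_eq_zero fun d _ => by simp [hc])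
      (by simp), Finset.sum_eq_single b (fun d _ hd => by simp [hd]) (by simp)]
    simp
  exact_mod_cast e

end Sites

end Vale.Agent.P096.AT
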