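import Vale.Agent.P132.Smooth
import Vale.Agent.P132.Tuples

/-!
# P096, all types: nearly centralised elements

`Tw w w'` says `J w* Ω = w' Ω`, that is, `w'` is the half imaginary translate of `w`. An element
which is near its translate, with its adjoint, nearly centralises `Ω`; this passes to products, to
resolvents and to Cayley transforms, and holds for smoothings of almost invariant elements.
-/

noncomputable section

namespace Vale.Agent.P096.AT

open Filter Topology Complex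
open scoped InnerProductSpace ComplexConjugate
open _root_.P132 (Std Modular vN_smul_mem vN_mem_iff gLip gLip_nonneg)

universe u

variable {H : Type u} [NormedAddCommGroup H] [InnerProductSpace ℂ H] [CompleteSpace H]
variable {S : Std H}

/-- `w'` is the half imaginary translate of `w`. -/
structure Tw (D : Modular S) (w w' : H →L[ℂ] H) : Prop where
  mem : w ∈ S.M
  mem' : w' ∈ S.M
  eq : D.J (star w S.Ω) = w' S.Ω

/-- `w` and its adjoint are `η` near their half imaginary translates. -/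
def Cen (D : Modular S) (η : ℝ) (w : H →L[ℂ] H) : Prop :=
  ∃ w' w'' : H →L[ℂ] H, Tw D w w' ∧ Tw D (star w) w'' ∧ ‖w' - w‖ ≤ η ∧ ‖w'' - star w‖ ≤ η

variable {D : Modular S}

lemma apply_J {a z : H →L[ℂ] H} (ha : a ∈ S.M) (hz : z ∈ S.M) :
    a (D.J (z S.Ω)) = D.J (z (D.J (a S.Ω))) := by
  have h := D.J_commutant a ha z hz S.Ω
  rwa [D.J_Ω] at h

lemma mem_of_inverse {a r : H →L[ℂ] H} (ha : a ∈ S.M) (h1 : r * a = 1) (h2 : a * r = 1) :
    r ∈ S.M := by
  refine (vN_mem_iff _).2 fun y hy v => ?_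
  have e := (vN_mem_iff _).1 ha y hy (r v)
  rw [← mul_apply_eq_comp a r, h2] at e
  have e' := congrArg r e
  rw [← mul_apply_eq_comp r a (y (r v)), h1] at e'
  simpa using e'.symm

namespace Tw

variable {v v' w w' : H →L[ℂ] H}

lemma one : Tw D 1 1 := ⟨one_mem _, one_mem _, by simpa using D.J_Ω⟩

lemma add (h1 : Tw D v v') (h2 : Tw D w w') : Tw D (v + w) (v' + w') :=
  ⟨add_mem h1.mem h2.mem, add_mem h1.mem' h2.mem', by simp [h1.eq, h2.eq]⟩

lemma sub (h1 : Tw D v v') (h2 : Tw D w w') : Tw D (v - w) (v' - w') :=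
  ⟨sub_mem h1.mem h2.mem, sub_mem h1.mem' h2.mem', by simp [h1.eq, h2.eq]⟩

lemma smul (h1 : Tw D v v') (c : ℂ) : Tw D (c • v) (c • v') :=
  ⟨vN_smul_mem _ _ h1.mem, vN_smul_mem _ _ h1.mem', by simp [h1.eq, LinearIsometryEquiv.map_smulₛₗ]⟩

lemma sum {ι : Type*} (s : Finset ι) {f f' : ι → H →L[ℂ] H} (hf : ∀ i ∈ s, Tw D (f i) (f' i)) :
    Tw D (∑ i ∈ s, f i) (∑ i ∈ s, f' i) :=
  ⟨sum_mem fun i hi => (hf i hi).mem, sum_mem fun i hi => (hf i hi).mem', by
    simpa [star_sum] using Finset.sum_congr rfl fun i hi => (hf i hi).eq⟩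

lemma mul (h1 : Tw D v v') (h2 : Tw D w w') : Tw D (v * w) (v' * w') := by
  refine ⟨mul_mem h1.mem h2.mem, mul_mem h1.mem' h2.mem', ?_⟩
  rw [star_mul, mul_apply_eq_comp, mul_apply_eq_comp, ← h2.eq, apply_J h1.mem' (star_mem h2.mem),
    ← h1.eq, D.J_J]

lemma unique {w'' : H →L[ℂ] H} (h1 : Tw D w w') (h2 : Tw D w w'') : w' = w'' :=
  Std.eq_of_Ω h1.mem' h2.mem' (h1.eq.symm.trans h2.eq)

lemma comm (h1 : Tw D v v') (h2 : Tw D w w') (he : v * w = w * v) : v' * w' = w' * v' :=
  (h1.mul h2).unique (he ▸ h2.mul h1)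

lemma fixed (hw : w ∈ S.M) (hσ : ∀ t, D.σ t w = w) : Tw D w w := by
  refine ⟨hw, hw, ?_⟩
  have h := D.J_half w (fun _ => w) (differentiable_const w) (fun _ => hw) fun t => (hσ t).symm
  rw [← h, D.J_J]

/-- Right multiplication by an element whose adjoint has a translate. -/
lemma rightBound {z : H →L[ℂ] H} (h : Tw D (star w) z) :
    Modular.RightBound (S := S) w ‖z‖ := by
  intro y hy
  have e := congrArg D.J h.eq
  rw [star_star, D.J_J] at e
  rw [e, apply_J hy h.mem', D.J.norm_map]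
  exact (z.le_opNorm _).trans_eq (by rw [D.J.norm_map])

lemma inv {a a' r r' : H →L[ℂ] H} (h : Tw D a a') (hr : r ∈ S.M) (hr' : r' ∈ S.M)
    (h1 : a * r = 1) (h2 : r' * a' = 1) : Tw D r r' := by
  refine ⟨hr, hr', ?_⟩
  have e : a' (D.J (star r S.Ω)) = S.Ω := by
    rw [apply_J h.mem' (star_mem hr), ← h.eq, D.J_J, ← mul_apply_eq_comp, ← star_mul, h1, star_one]
    simpa using D.J_Ω
  conv_rhs => rw [← e, ← mul_apply_eq_comp r' a', h2]
  rfl

end Tw

namespace Cen

variable {η η' : ℝ} {v w : H →L[ℂ] H}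

lemma mem (h : Cen D η w) : w ∈ S.M := by
  obtain ⟨_, _, h1, _⟩ := h
  exact h1.mem

lemma nonneg (h : Cen D η w) : 0 ≤ η := by
  obtain ⟨_, _, _, _, h3, _⟩ := h
  exact (norm_nonneg _).trans h3

lemma mono (h : Cen D η w) (hle : η ≤ η') : Cen D η' w := by
  obtain ⟨a, b, h1, h2, h3, h4⟩ := h
  exact ⟨a, b, h1, h2, h3.trans hle, h4.trans hle⟩

protected lemma star (h : Cen D η w) : Cen D η (star w) := by
  obtain ⟨a, b, h1, h2, h3, h4⟩ := h
  exact ⟨b, a, h2, by rwa [star_star], h4, by rwa [star_star]⟩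

lemma one (hη : 0 ≤ η) : Cen D η 1 :=
  ⟨1, 1, Tw.one, by rw [star_one]; exact Tw.one, by simpa using hη, by simpa using hη⟩

lemma mul (h : Cen D η v) (h' : Cen D η' w) (hv : ‖v‖ ≤ 1) (hw : ‖w‖ ≤ 1) :
    Cen D (η + η' + η * η') (v * w) := by
  have hη := h.nonneg
  have hη' := h'.nonneg
  obtain ⟨a, b, a1, b1, a2, b2⟩ := h
  obtain ⟨c, d, c1, d1, c2, d2⟩ := h'
  refine ⟨a * c, d * b, a1.mul c1, by rw [star_mul]; exact d1.mul b1, ?_, ?_⟩
  · have e : a * c - v * w = (a - v) * (c - w) + v * (c - w) + (a - v) * w := by noncomm_ring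
    rw [e]
    refine (norm_add₃_le).trans ?_
    have := (norm_mul_le (a - v) (c - w)).trans (mul_le_mul a2 c2 (norm_nonneg _) hη)
    have := (norm_mul_le v (c - w)).trans (mul_le_mul hv c2 (norm_nonneg _) zero_le_one)
    have := (norm_mul_le (a - v) w).trans (mul_le_mul a2 hw (norm_nonneg _) hη)
    linarith
  · have e : d * b - star (v * w) =
        (d - star w) * (b - star v) + star w * (b - star v) + (d - star w) * star v := by
      rw [star_mul]; noncomm_ring
    rw [e]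
    refine (norm_add₃_le).trans ?_
    have hv' : ‖star v‖ ≤ 1 := (norm_star v).trans_le hv
    have hw' : ‖star w‖ ≤ 1 := (norm_star w).trans_le hw
    have := (norm_mul_le (d - star w) (b - star v)).trans (mul_le_mul d2 b2 (norm_nonneg _) hη')
    have := (norm_mul_le (star w) (b - star v)).trans (mul_le_mul hw' b2 (norm_nonneg _) zero_le_one)
    have := (norm_mul_le (d - star w) (star v)).trans (mul_le_mul d2 hv' (norm_nonneg _) hη')
    linarith

lemma one_add_smul (h : Cen D η w) (c : ℂ) : Cen D (‖c‖ * η) (1 + c • w) := by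
  obtain ⟨a, b, a1, b1, a2, b2⟩ := h
  refine ⟨1 + c • a, 1 + conj c • b, Tw.one.add (a1.smul c), ?_, ?_, ?_⟩
  · rw [star_add, star_one, star_smul, Complex.star_def]
    exact Tw.one.add (b1.smul _)
  · rw [add_sub_add_left_eq_sub, ← smul_sub, norm_smul]
    exact mul_le_mul_of_nonneg_left a2 (norm_nonneg _)
  · rw [star_add, star_one, star_smul, Complex.star_def, add_sub_add_left_eq_sub, ← smul_sub,
      norm_smul, Complex.norm_conj]
    exact mul_le_mul_of_nonneg_left b2 (norm_nonneg _)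

lemma rightBound (h : Cen D η w) : Modular.RightBound (S := S) w (‖w‖ + η) := by
  obtain ⟨a, b, a1, b1, a2, b2⟩ := h
  intro y hy
  refine (b1.rightBound y hy).trans (mul_le_mul_of_nonneg_right ?_ (norm_nonneg _))
  rw [← norm_star w]
  exact (norm_le_insert' b (star w)).trans (add_le_add le_rfl b2)

/-- A nearly centralised unitary moves `Ω` little under `v J v J`. -/
lemma norm_vJv (h : Cen D η v) (h1 : v * star v = 1) (hv : ‖v‖ ≤ 1) :
    ‖v (D.J (v S.Ω)) - S.Ω‖ ≤ η := by
  have hη := h.nonneg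
  obtain ⟨a, b, a1, b1, a2, b2⟩ := h
  have e := b1.eq
  rw [star_star] at e
  have e' : v (D.J (v S.Ω)) - S.Ω = v ((b - star v) S.Ω) := by
    rw [e, sub_apply, map_sub, ← mul_apply_eq_comp v (star v), h1]
    rfl
  rw [e']
  refine (v.le_opNorm _).trans ((mul_le_mul hv ((b - star v).le_opNorm _) (norm_nonneg _)
    zero_le_one).trans ?_)
  simpa [S.norm_Ω] using b2

end Cen

/-- The inverse of a translate. -/
lemma exists_tw_inverse {a a' r : H →L[ℂ] H} {η : ℝ} (h : Tw D a a') (hd : ‖a' - a‖ ≤ η)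
    (hη : η ≤ 1 / 2) (h1 : r * a = 1) (h2 : a * r = 1) (hr : ‖r‖ ≤ 1) :
    ∃ r', Tw D r r' ∧ ‖r' - r‖ ≤ 2 * η := by
  have hη0 : 0 ≤ η := (norm_nonneg _).trans hd
  set t := r * (a - a')
  have ht : ‖t‖ < 1 := by
    refine ((norm_mul_le _ _).trans (mul_le_mul hr ((norm_sub_rev _ _).trans_le hd) (norm_nonneg _)
      zero_le_one)).trans_lt ?_
    linarith
  set U := Units.oneSub t ht
  have hU : (U : H →L[ℂ] H) = r * a' := by simp [U, t, mul_sub, h1]
  set r' := (↑U⁻¹ : H →L[ℂ] H) * r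
  have e1 : r' * a' = 1 := by simp [r', mul_assoc, ← hU]
  have e0 : a' = a * U := by rw [hU, ← mul_assoc, h2, one_mul]
  have e2 : a' * r' = 1 := by
    rw [e0, mul_assoc, ← mul_assoc (U : H →L[ℂ] H), Units.mul_inv, one_mul, h2]
  refine ⟨r', h.inv (mem_of_inverse h.mem h1 h2) (mem_of_inverse h.mem' e1 e2) h2 e1, ?_⟩
  have e3 : r' - r = r' * (a - a') * r := by
    rw [mul_sub, e1, sub_mul, mul_assoc, h2, mul_one, one_mul]
  have hd' : ‖a - a'‖ ≤ η := (norm_sub_rev _ _).trans_le hd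
  have e4 : ‖r' - r‖ ≤ ‖r'‖ * η := by
    rw [e3]
    refine (norm_mul_le _ _).trans ((mul_le_of_le_one_right (norm_nonneg _) hr).trans ?_)
    exact (norm_mul_le _ _).trans (mul_le_mul_of_nonneg_left hd' (norm_nonneg _))
  nlinarith [norm_le_insert' r' r, norm_nonneg r']

/-- Resolvents of self-adjoint elements at imaginary unit points. -/
lemma exists_resolvent {k : H →L[ℂ] H} (hk : IsSelfAdjoint k) :
    ∃ r, r * (k + I • 1) = 1 ∧ (k + I • 1) * r = 1 ∧ ‖r‖ ≤ 1 := by
  have hu : IsUnit (k + I • (1 : H →L[ℂ] H)) := by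
    have h0 : -I ∉ spectrum ℂ k := fun h => by
      have := congrArg Complex.im (hk.mem_spectrum_eq_re h)
      simp at this
    rw [spectrum.notMem_iff] at h0
    convert h0.neg using 1
    simp [Algebra.algebraMap_eq_smul_one]
  obtain ⟨A, hA⟩ := hu
  refine ⟨↑A⁻¹, by rw [← hA, Units.inv_mul], by rw [← hA, Units.mul_inv],
    ContinuousLinearMap.opNorm_le_bound _ zero_le_one fun v => ?_⟩
  set w := (↑A⁻¹ : H →L[ℂ] H) v
  have hv : v = k w + I • w := by
    have e := congrArg (fun T : H →L[ℂ] H => T v) (show (A : H →L[ℂ] H) * ↑A⁻¹ = 1 from A.mul_inv)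
    simpa [hA, w] using e.symm
  have him : (⟪k w, w⟫_ℂ).im = 0 := by
    rw [← Complex.conj_eq_iff_im, inner_conj_symm]
    exact (hk.isSymmetric w w).symm
  rw [one_mul, hv, ← sq_le_sq₀ (norm_nonneg _) (norm_nonneg _), @norm_add_sq ℂ, inner_smul_right,
    norm_smul, Complex.norm_I, one_mul]
  simp [him]

/-- The Cayley transform of a nearly centralised self-adjoint element. -/
theorem exists_cayley {k : H →L[ℂ] H} (hk : IsSelfAdjoint k) {η : ℝ} (hη : η ≤ 1 / 2)
    (hc : Cen D η k) :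
    ∃ v ∈ S.M, star v * v = 1 ∧ v * star v = 1 ∧ Cen D (4 * η) v ∧
      (∀ T, T * k = k * T → T * v = v * T) ∧
      ∀ y ∈ S.M, ‖(y * k - k * y) S.Ω‖ ≤
        (‖k‖ + 2) ^ 2 / 2 * ‖(y * v - v * y) S.Ω‖ := by
  obtain ⟨r, r1, r2, rn⟩ := exists_resolvent hk
  have hkM := hc.mem
  have hη0 := hc.nonneg
  set a := k + I • (1 : H →L[ℂ] H)
  have haM : a ∈ S.M := add_mem hkM (vN_smul_mem _ _ (one_mem _))
  have hrM : r ∈ S.M := mem_of_inverse haM r1 r2
  obtain ⟨b, b', b1, b1', b2, b2'⟩ := hc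
  have hsa : star a = k + (-I) • (1 : H →L[ℂ] H) := by
    simp [a, star_smul, hk.star_eq]
  have ha1 : Tw D a (b + I • 1) := b1.add (Tw.one.smul I)
  have ha2 : Tw D (star a) (b' + (-I) • 1) := by
    rw [hsa]
    rw [hk.star_eq] at b1'
    exact b1'.add (Tw.one.smul (-I))
  have s1 : star r * star a = 1 := by rw [← star_mul, r2, star_one]
  have s2 : star a * star r = 1 := by rw [← star_mul, r1, star_one]
  have hn1 : ‖(b + I • (1 : H →L[ℂ] H)) - a‖ ≤ η := by simpa [a] using b2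
  have hn2 : ‖(b' + (-I) • (1 : H →L[ℂ] H)) - star a‖ ≤ η := by
    rw [hsa, add_sub_add_right_eq_sub]; rwa [hk.star_eq] at b2'
  obtain ⟨c, hc1, hc2⟩ := exists_tw_inverse ha1 hn1 hη r1 r2 rn
  obtain ⟨c', hc1', hc2'⟩ := exists_tw_inverse ha2 hn2 hη s1 s2 ((norm_star r).trans_le rn)
  have hcr : Cen D (2 * η) r := ⟨c, c', hc1, hc1', hc2, hc2'⟩
  set v := 1 + (-(2 * I)) • r with hv
  have hvr : v = (k + (-I) • 1) * r := by
    have e : k + (-I) • (1 : H →L[ℂ] H) = a + (-(2 * I)) • 1 := by simp only [a]; module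
    rw [e, add_mul, r2, smul_mul_assoc, one_mul]
  have hcm : a * star a = star a * a := by
    rw [hsa]; simp only [a, add_mul, mul_add, smul_mul_assoc, mul_smul_comm, one_mul, mul_one]; module
  have hra : ∀ T, T * a = a * T → T * r = r * T := fun T hT => by
    calc T * r = r * a * T * r := by rw [r1, one_mul]
      _ = r * (T * a) * r := by rw [hT]; noncomm_ring
      _ = r * T := by rw [mul_assoc r, mul_assoc T, r2, mul_one]
  have hcomm : ∀ T, T * k = k * T → T * v = v * T := fun T hT => by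
    have e := hra T (by simp only [a, mul_add, add_mul, hT, mul_smul_comm, smul_mul_assoc, mul_one,
      one_mul])
    simp only [hv, mul_add, add_mul, mul_smul_comm, smul_mul_assoc, e, mul_one, one_mul]
  refine ⟨v, add_mem (one_mem _) (vN_smul_mem _ _ hrM), ?_, ?_,
    (hcr.one_add_smul _).mono (le_of_eq (by simp; ring)), hcomm, fun y hy => ?_⟩
  · rw [hvr, ← hsa, star_mul, star_star, mul_assoc, ← mul_assoc a, hcm, mul_assoc (star a), r2,
      mul_one, s1]
  · have e : r * star a = star a * r := (hra (star a) hcm.symm).symm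
    have e2 : r * star r * (star a * a) = 1 := by
      rw [mul_assoc r, ← mul_assoc (star r), s1, one_mul, r1]
    rw [hvr, ← hsa, star_mul, star_star]
    calc star a * r * (star r * a) = r * (star a * star r) * a := by rw [← e]; noncomm_ring
      _ = 1 := by rw [s2, mul_one, r1]
  · have e1 : y * k - k * y = -(a * (y * r - r * y) * a) := by
      have : a * (y * r - r * y) * a = a * y * (r * a) - a * r * (y * a) := by noncomm_ring
      rw [this, r1, r2, mul_one, one_mul]
      simp [a, add_mul, mul_add]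
    have e2 : y * v - v * y = (-(2 * I)) • (y * r - r * y) := by
      simp only [hv, mul_add, add_mul, mul_smul_comm, smul_mul_assoc, mul_one, one_mul]
      module
    have hd : a * (y * r - r * y) ∈ S.M :=
      mul_mem haM (sub_mem (mul_mem hy hrM) (mul_mem hrM hy))
    have hrb := (show Cen D η a from ⟨_, _, ha1, ha2, hn1, hn2⟩).rightBound _ hd
    have hna : ‖a‖ ≤ ‖k‖ + 1 := (norm_add_le _ _).trans (by
      rw [norm_smul, Complex.norm_I, one_mul]
      gcongr
      exact ContinuousLinearMap.norm_id_le)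
    rw [e1, e2, neg_apply, norm_neg, smul_apply, norm_smul, mul_apply_eq_comp]
    refine hrb.trans ?_
    rw [mul_apply_eq_comp]
    have h2 : ‖a ((y * r - r * y) S.Ω)‖ ≤ (‖k‖ + 2) * ‖(y * r - r * y) S.Ω‖ :=
      (a.le_opNorm _).trans (mul_le_mul_of_nonneg_right (by linarith) (norm_nonneg _))
    refine (mul_le_mul (show ‖a‖ + η ≤ ‖k‖ + 2 by linarith) h2 (norm_nonneg _)
      (by positivity)).trans (le_of_eq ?_)
    simp
    ring

/-- The smoothing of an almost invariant element. -/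
lemma cen_smooth {w : H →L[ℂ] H} (hw : w ∈ S.M) {η : ℝ} (hη : 0 ≤ η)
    (h : ∀ t, ‖D.σ t w - w‖ ≤ η * |t|) :
    Cen D ((gLip 1 (-(I / 2)) + gLip 1 0) * η) (D.smooth 1 w) := by
  have key : ∀ x ∈ S.M, (∀ t, ‖D.σ t x - x‖ ≤ η * |t|) →
      Tw D (D.smooth 1 x) (D.twist 1 0 (-(I / 2)) x) ∧
      ‖D.twist 1 0 (-(I / 2)) x - D.smooth 1 x‖ ≤ (gLip 1 (-(I / 2)) + gLip 1 0) * η := by
    intro x hx hl
    refine ⟨⟨D.smooth_mem 1 hx, D.twist_mem _ _ _ hx, ?_⟩, ?_⟩
    · have e := D.J_half (D.smooth 1 x) (fun z => D.twistExt 1 0 z x)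
        (D.differentiable_twistExt one_pos 0 _) (fun z => D.twistExt_mem _ _ _ hx)
        (fun t => (D.σ_twist one_pos 0 t x).symm)
      rw [← e, D.J_J, D.twistExt_zero_w]
    · rw [add_mul]
      refine (norm_sub_le_norm_sub_add_norm_sub _ x _).trans
        (add_le_add (D.norm_twist_sub_le one_pos _ hη hl) ?_)
      rw [norm_sub_rev]
      exact D.norm_smooth_sub_le one_pos hη hl
  have hs : ∀ t, ‖D.σ t (star w) - star w‖ ≤ η * |t| := fun t => by
    rw [D.σ_star, ← star_sub, norm_star]; exact h t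
  refine ⟨_, D.twist 1 0 (-(I / 2)) (star w), (key w hw h).1, ?_, (key w hw h).2, ?_⟩
  · rw [D.star_smooth one_pos]; exact (key _ (star_mem hw) hs).1
  · rw [D.star_smooth one_pos]; exact (key _ (star_mem hw) hs).2

end Vale.Agent.P096.AT
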